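/-
Lib/Ell (row-neutral; architect helper232): POINTWISE ELLIPTIC THEORY on open sets of a finite dimensional real inner
product space `W` (instances: `EuclideanSpace ℝ (Fin m)`, `EuclideanSpace ℂ ι` as a real space).   DEFINITIONS, sorry-free.

CONVENTIONS OF THE WHOLE FOLDER
* functions are TOTAL (`u : W → ℝ`), hypotheses only speak about an open set / a ball; junk outside is harmless;
* norms are PREDICATES WITH CONSTANTS: `BdOn K s f` (sup bound), `HolOn α K s f` (Hoelder seminorm bound); no `sSup` in statements;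
* derivatives: `fderiv ℝ u x`, `ellD2 u x = fderiv ℝ (fderiv ℝ u) x`, directional derivative `dd h g x = fderiv ℝ g x h`, `∇ u x = gradient u x`;
* `ellTr A H = ∑ᵢ H (A eᵢ) eᵢ = tr (A ∘ H)` (any orthonormal basis), `ellLap u = ellTr id (ellD2 u)`;
* coefficients `a : W → W →L[ℝ] W`, `EllOn lam Lam s a`: symmetric, `lam |ξ|² ≤ ⟪a ξ, ξ⟫`, `‖a‖ ≤ Lam` on `s`;
* "constants depend only on ..." = the constant is quantified BEFORE the data.
FILES: Defs, Api (final statements, proved from the chains), Moll (mollifier calculus), Lap (Laplacian), Cc (constant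
coefficients), Interp, Iter, SchNd, SchDiv, MaxP, Hopf, Morrey, Cka (recursive C^{k,α} classes), LinK, Quasi.
-/
import Mathlib

set_option autoImplicit false

namespace Claimed.Agent.Lib.Ell

open MeasureTheory
open scoped ContDiff RealInnerProductSpace Gradient

universe u v

/-- sup bound on a set. -/
def BdOn {X : Type u} {F : Type v} [Norm F] (K : ℝ) (s : Set X) (f : X → F) : Prop :=
  ∀ x ∈ s, ‖f x‖ ≤ K

/-- Hoelder bound on a set: `‖f x - f y‖ ≤ K ‖x - y‖^α`. -/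
def HolOn {X : Type u} {F : Type v} [NormedAddCommGroup X] [NormedAddCommGroup F] (α K : ℝ) (s : Set X)
    (f : X → F) : Prop :=
  ∀ x ∈ s, ∀ y ∈ s, ‖f x - f y‖ ≤ K * ‖x - y‖ ^ α

variable {W : Type u} [NormedAddCommGroup W] [InnerProductSpace ℝ W] [FiniteDimensional ℝ W]

/-- directional derivative. -/
noncomputable def dd (h : W) (g : W → ℝ) : W → ℝ := fun x => fderiv ℝ g x h

/-- second derivative. -/
noncomputable def ellD2 (u : W → ℝ) (x : W) : W →L[ℝ] W →L[ℝ] ℝ := fderiv ℝ (fderiv ℝ u) x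

/-- `tr (A ∘ H) = ∑ᵢ H (A eᵢ) eᵢ`. -/
noncomputable def ellTr (A : W →L[ℝ] W) (H : W →L[ℝ] W →L[ℝ] ℝ) : ℝ :=
  ∑ i, H (A (stdOrthonormalBasis ℝ W i)) (stdOrthonormalBasis ℝ W i)

/-- the Laplacian. -/
noncomputable def ellLap (u : W → ℝ) (x : W) : ℝ := ellTr (ContinuousLinearMap.id ℝ W) (ellD2 u x)

/-- divergence of a vector field. -/
noncomputable def ellDiv (F : W → W) (x : W) : ℝ :=
  ∑ i, ⟪fderiv ℝ F x (stdOrthonormalBasis ℝ W i), stdOrthonormalBasis ℝ W i⟫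

/-- a constant coefficient matrix: symmetric, `lam ≤ A ≤ Lam`. -/
def EllMat (lam Lam : ℝ) (A : W →L[ℝ] W) : Prop :=
  (∀ ξ η : W, ⟪A ξ, η⟫ = ⟪ξ, A η⟫) ∧ (∀ ξ : W, lam * ‖ξ‖ ^ 2 ≤ ⟪A ξ, ξ⟫) ∧ ‖A‖ ≤ Lam

/-- uniform ellipticity on a set. -/
def EllOn (lam Lam : ℝ) (s : Set W) (a : W → W →L[ℝ] W) : Prop := ∀ x ∈ s, EllMat lam Lam (a x)

/-- the operator `tr(a D²u) + b·Du + c u`. -/
noncomputable def ndOp (a : W → W →L[ℝ] W) (b : W → W) (c : W → ℝ) (u : W → ℝ) (x : W) : ℝ :=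
  ellTr (a x) (ellD2 u x) + fderiv ℝ u x (b x) + c x * u x

/-- test functions of an open set. -/
def IsTest (U : Set W) (φ : W → ℝ) : Prop := ContDiff ℝ ∞ φ ∧ HasCompactSupport φ ∧ tsupport φ ⊆ U

variable [MeasurableSpace W] [BorelSpace W]

/-- `u` is a weak solution on `U` of `div(a ∇u) + b·∇u + c u = div F + g`:
`∫ ⟪a ∇u, ∇φ⟫ = ∫ ⟪F, ∇φ⟫ + ∫ (b·∇u + c u - g) φ` for all tests. -/
def WeakDiv (U : Set W) (a : W → W →L[ℝ] W) (b : W → W) (c : W → ℝ) (u : W → ℝ) (F : W → W) (g : W → ℝ) : Prop :=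
  ∀ φ : W → ℝ, IsTest U φ →
    ∫ x, ⟪a x (∇ u x), ∇ φ x⟫ = (∫ x, ⟪F x, ∇ φ x⟫) + ∫ x, (⟪b x, ∇ u x⟫ + c x * u x - g x) * φ x

/-- `u` is a weak solution on `U` of the quasilinear equation `div A(x,u,∇u) = B(x,u,∇u)`:
`∫ ⟪A(x,u,∇u), ∇φ⟫ + ∫ B(x,u,∇u) φ = 0`. -/
def WeakQuasi (U : Set W) (A : W × ℝ × W → W) (B : W × ℝ × W → ℝ) (u : W → ℝ) : Prop :=
  ∀ φ : W → ℝ, IsTest U φ →
    (∫ x, ⟪A (x, u x, ∇ u x), ∇ φ x⟫) + ∫ x, B (x, u x, ∇ u x) * φ x = 0

/-- mollification with the kernel `κ` at scale `s`: `∫ κ(y) g(x - s y) dy`. -/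
noncomputable def ellMol (κ : W → ℝ) (s : ℝ) (g : W → ℝ) (x : W) : ℝ := ∫ y, κ y * g (x - s • y)

/-- kernels: smooth, supported in the closed unit ball. -/
def IsKer (κ : W → ℝ) : Prop := ContDiff ℝ ∞ κ ∧ ∀ y, 1 ≤ ‖y‖ → κ y = 0

/-- vector valued mollification. -/
noncomputable def ellMolV {G : Type v} [NormedAddCommGroup G] [NormedSpace ℝ G] (κ : W → ℝ) (s : ℝ) (g : W → G)
    (x : W) : G := ∫ y, κ y • g (x - s • y)

/-- the `L¹` norm of a kernel. -/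
noncomputable def kerL1 (κ : W → ℝ) : ℝ := ∫ y, |κ y|

end Claimed.Agent.Lib.Ell
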