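/-
Lib/Ell, package L-ell-basicA (architect helper232): `BdOn`, `HolOn` basics.  Mathlib only.
All statements are elementary; prove them in any order.  `e i = stdOrthonormalBasis ℝ W i`.
-/
import Claimed.Agent.Lib.Ell.Defs

set_option autoImplicit false

namespace Claimed.Agent.Lib.Ell

open MeasureTheory Metric
open scoped ContDiff RealInnerProductSpace Gradient

universe u v

variable {W : Type u} [NormedAddCommGroup W] [InnerProductSpace ℝ W] [FiniteDimensional ℝ W]

/-! ### `BdOn`, `HolOn` -/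

section preds

variable {X : Type u} {F : Type v} [NormedAddCommGroup X] [NormedAddCommGroup F] {α K K' : ℝ} {s t : Set X}
  {f g : X → F}

theorem BdOn.mono (h : BdOn K s f) (hst : t ⊆ s) (hK : K ≤ K') : BdOn K' t f := by
  exact fun x hx => (h x (hst hx)).trans hK

theorem HolOn.mono (h : HolOn α K s f) (hst : t ⊆ s) (hK : K ≤ K') : HolOn α K' t f := by
  exact fun x hx y hy => (h x (hst hx) y (hst hy)).trans
    (mul_le_mul_of_nonneg_right hK (Real.rpow_nonneg (norm_nonneg _) _))

theorem BdOn.add (hf : BdOn K s f) (hg : BdOn K' s g) : BdOn (K + K') s (fun x => f x + g x) := by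
  exact fun x hx => (norm_add_le _ _).trans (add_le_add (hf x hx) (hg x hx))

theorem BdOn.sub (hf : BdOn K s f) (hg : BdOn K' s g) : BdOn (K + K') s (fun x => f x - g x) := by
  exact fun x hx => (norm_sub_le _ _).trans (add_le_add (hf x hx) (hg x hx))

theorem HolOn.add (hf : HolOn α K s f) (hg : HolOn α K' s g) : HolOn α (K + K') s (fun x => f x + g x) := by
  intro x hx y hy
  have e : f x + g x - (f y + g y) = (f x - f y) + (g x - g y) := by abel
  rw [e, add_mul]
  exact (norm_add_le _ _).trans (add_le_add (hf x hx y hy) (hg x hx y hy))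

theorem HolOn.sub (hf : HolOn α K s f) (hg : HolOn α K' s g) : HolOn α (K + K') s (fun x => f x - g x) := by
  intro x hx y hy
  have e : f x - g x - (f y - g y) = (f x - f y) - (g x - g y) := by abel
  rw [e, add_mul]
  exact (norm_sub_le _ _).trans (add_le_add (hf x hx y hy) (hg x hx y hy))

theorem HolOn.neg (hf : HolOn α K s f) : HolOn α K s (fun x => - f x) := by
  intro x hx y hy
  have e : -f x - -f y = -(f x - f y) := by abel
  rw [e, norm_neg]
  exact hf x hx y hy

theorem holOn_const (c : F) (hK : 0 ≤ K) : HolOn α K s (fun _ : X => c) := by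
  intro x _ y _
  rw [sub_self, norm_zero]
  exact mul_nonneg hK (Real.rpow_nonneg (norm_nonneg _) _)

/-- pointwise limits. -/
theorem HolOn.of_tendsto {ι : Type} {l : Filter ι} [l.NeBot] {fs : ι → X → F} (h : ∀ᶠ i in l, HolOn α K s (fs i))
    (hl : ∀ x ∈ s, Filter.Tendsto (fun i => fs i x) l (nhds (f x))) : HolOn α K s f := by
  intro x hx y hy
  exact le_of_tendsto (((hl x hx).sub (hl y hy)).norm) (h.mono fun i hi => hi x hx y hy)

theorem BdOn.of_tendsto {ι : Type} {l : Filter ι} [l.NeBot] {fs : ι → X → F} (h : ∀ᶠ i in l, BdOn K s (fs i))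
    (hl : ∀ x ∈ s, Filter.Tendsto (fun i => fs i x) l (nhds (f x))) : BdOn K s f := by
  intro x hx
  exact le_of_tendsto ((hl x hx).norm) (h.mono fun i hi => hi x hx)

/-- **local to global**: Hoelder on all balls of radius `r` + a sup bound. -/
theorem holOn_of_local {r : ℝ} (hr : 0 < r) (hα : 0 ≤ α) (hb : BdOn K' s f)
    (hl : ∀ x ∈ s, HolOn α K (s ∩ ball x r) f) : HolOn α (max K (2 * K' / r ^ α)) s f := by
  intro x hx y hy
  have hp : 0 ≤ ‖x - y‖ ^ α := Real.rpow_nonneg (norm_nonneg _) _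
  by_cases hxy : ‖x - y‖ < r
  · have h1 := hl x hx x ⟨hx, mem_ball_self hr⟩ y ⟨hy, by rwa [mem_ball, dist_comm, dist_eq_norm]⟩
    exact h1.trans (mul_le_mul_of_nonneg_right (le_max_left _ _) hp)
  · have hK' : 0 ≤ K' := (norm_nonneg _).trans (hb x hx)
    have hrα : 0 < r ^ α := Real.rpow_pos_of_pos hr _
    have h1 : ‖f x - f y‖ ≤ 2 * K' := by
      have := (norm_sub_le (f x) (f y)).trans (add_le_add (hb x hx) (hb y hy))
      linarith
    have h2 : r ^ α ≤ ‖x - y‖ ^ α := Real.rpow_le_rpow hr.le (not_lt.1 hxy) hα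
    have h3 : 2 * K' = 2 * K' / r ^ α * r ^ α := by field_simp
    calc ‖f x - f y‖ ≤ 2 * K' / r ^ α * r ^ α := by rw [← h3]; exact h1
      _ ≤ 2 * K' / r ^ α * ‖x - y‖ ^ α := mul_le_mul_of_nonneg_left h2 (by positivity)
      _ ≤ _ := mul_le_mul_of_nonneg_right (le_max_right _ _) hp

/-- lowering the exponent on a set of diameter `≤ d`. -/
theorem HolOn.of_exponent_le {β d : ℝ} (h : HolOn β K s f) (hαβ : α ≤ β) (hK : 0 ≤ K) (hd : 0 < d)
    (hs : ∀ x ∈ s, ∀ y ∈ s, ‖x - y‖ ≤ d) : HolOn α (K * d ^ (β - α)) s f := by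
  intro x hx y hy
  have hd' : 0 ≤ d ^ (β - α) := Real.rpow_nonneg hd.le _
  rcases (norm_nonneg (x - y)).eq_or_lt with h0 | h0
  · have hxy : x = y := by rw [← sub_eq_zero, ← norm_eq_zero]; exact h0.symm
    rw [hxy, sub_self, norm_zero]
    exact mul_nonneg (mul_nonneg hK hd') (Real.rpow_nonneg (norm_nonneg _) _)
  · have h1 : ‖x - y‖ ^ β = ‖x - y‖ ^ (β - α) * ‖x - y‖ ^ α := by
      rw [← Real.rpow_add h0]; congr 1; ring
    have h2 : ‖x - y‖ ^ (β - α) ≤ d ^ (β - α) := Real.rpow_le_rpow h0.le (hs x hx y hy) (by linarith)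
    calc ‖f x - f y‖ ≤ K * ‖x - y‖ ^ β := h x hx y hy
      _ = K * ‖x - y‖ ^ (β - α) * ‖x - y‖ ^ α := by rw [h1]; ring
      _ ≤ K * d ^ (β - α) * ‖x - y‖ ^ α :=
        mul_le_mul_of_nonneg_right (mul_le_mul_of_nonneg_left h2 hK) (Real.rpow_nonneg h0.le _)

theorem HolOn.continuousOn (h : HolOn α K s f) (hα : 0 < α) : ContinuousOn f s := by
  intro x hx
  rw [ContinuousWithinAt, tendsto_iff_norm_sub_tendsto_zero]
  have h1 : Filter.Tendsto (fun y : X => K * ‖y - x‖ ^ α) (nhdsWithin x s) (nhds 0) := by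
    have h2 : Filter.Tendsto (fun y : X => K * ‖y - x‖ ^ α) (nhds x) (nhds (K * ‖x - x‖ ^ α)) := by
      have c1 : ContinuousAt (fun y : X => ‖y - x‖) x := by fun_prop
      exact (c1.rpow_const (Or.inr hα.le)).const_mul K |>.tendsto
    rw [sub_self, norm_zero, Real.zero_rpow hα.ne', mul_zero] at h2
    exact h2.mono_left nhdsWithin_le_nhds
  refine squeeze_zero' (Filter.Eventually.of_forall fun y => norm_nonneg _) ?_ h1
  filter_upwards [self_mem_nhdsWithin] with y hy
  exact h y hy x hx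

end preds

/-- products of scalar functions. -/
theorem HolOn.mul {X : Type u} [NormedAddCommGroup X] {α K K' M M' : ℝ} {s : Set X} {f g : X → ℝ}
    (hf : HolOn α K s f) (hg : HolOn α K' s g) (bf : BdOn M s f) (bg : BdOn M' s g) :
    HolOn α (K * M' + M * K') s (fun x => f x * g x) := by
  intro x hx y hy
  have e : f x * g x - f y * g y = (f x - f y) * g x + f y * (g x - g y) := by ring
  have h1 := hf x hx y hy
  have h2 := hg x hx y hy
  have a1 : ‖(f x - f y) * g x‖ ≤ K * ‖x - y‖ ^ α * M' := by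
    rw [norm_mul]
    exact mul_le_mul h1 (bg x hx) (norm_nonneg _) ((norm_nonneg _).trans h1)
  have a2 : ‖f y * (g x - g y)‖ ≤ M * (K' * ‖x - y‖ ^ α) := by
    rw [norm_mul]
    exact mul_le_mul (bf y hy) h2 (norm_nonneg _) ((norm_nonneg _).trans (bf y hy))
  rw [e]
  calc ‖(f x - f y) * g x + f y * (g x - g y)‖ ≤ K * ‖x - y‖ ^ α * M' + M * (K' * ‖x - y‖ ^ α) :=
        (norm_add_le _ _).trans (add_le_add a1 a2)
    _ = _ := by ring

/-- application of an operator valued function to a vector valued function. -/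
theorem HolOn.clm_apply {X : Type u} {F G : Type v} [NormedAddCommGroup X] [NormedAddCommGroup F] [NormedSpace ℝ F]
    [NormedAddCommGroup G] [NormedSpace ℝ G] {α K K' M M' : ℝ} {s : Set X} {L : X → F →L[ℝ] G} {f : X → F}
    (hL : HolOn α K s L) (hf : HolOn α K' s f) (bL : BdOn M s L) (bf : BdOn M' s f) :
    HolOn α (K * M' + M * K') s (fun x => L x (f x)) := by
  intro x hx y hy
  have e : L x (f x) - L y (f y) = (L x - L y) (f x) + L y (f x - f y) := by
    simp only [ContinuousLinearMap.sub_apply, map_sub]; abel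
  have h1 := hL x hx y hy
  have h2 := hf x hx y hy
  have a1 : ‖(L x - L y) (f x)‖ ≤ K * ‖x - y‖ ^ α * M' :=
    ((L x - L y).le_opNorm _).trans (mul_le_mul h1 (bf x hx) (norm_nonneg _) ((norm_nonneg _).trans h1))
  have a2 : ‖L y (f x - f y)‖ ≤ M * (K' * ‖x - y‖ ^ α) :=
    ((L y).le_opNorm _).trans (mul_le_mul (bL y hy) h2 (norm_nonneg _) ((norm_nonneg _).trans (bL y hy)))
  rw [e]
  calc ‖(L x - L y) (f x) + L y (f x - f y)‖ ≤ K * ‖x - y‖ ^ α * M' + M * (K' * ‖x - y‖ ^ α) :=
        (norm_add_le _ _).trans (add_le_add a1 a2)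
    _ = _ := by ring

/-- mean value inequality on a convex set, as a Lipschitz (= `HolOn 1`) bound. -/
theorem holOn_one_of_fderiv_le {F : Type v} [NormedAddCommGroup F] [NormedSpace ℝ F] {s : Set W} {f : W → F}
    {K : ℝ} (hs : Convex ℝ s) (ho : IsOpen s) (hf : DifferentiableOn ℝ f s) (hK : BdOn K s (fderiv ℝ f)) :
    HolOn 1 K s f := by
  intro x hx y hy
  rw [Real.rpow_one]
  exact hs.norm_image_sub_le_of_norm_fderiv_le (fun z hz => (hf z hz).differentiableAt (ho.mem_nhds hz))
    (fun z hz => hK z hz) hy hx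

end Claimed.Agent.Lib.Ell
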