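/-
Lib/Ell, package L-ell-basicB (architect helper232): directional derivatives, traces, 1d integration lemmas.  Mathlib only.
All statements are elementary; prove them in any order.  `e i = stdOrthonormalBasis ℝ W i`.
-/
import Claimed.Agent.Lib.Ell.Defs

set_option autoImplicit false

namespace Claimed.Agent.Lib.Ell

open MeasureTheory Metric
open scoped ContDiff RealInnerProductSpace Gradient

universe u v

variable {W : Type u} [NormedAddCommGroup W] [InnerProductSpace ℝ W] [FiniteDimensional ℝ W]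

/-! ### directional derivatives -/

theorem ContDiffOn.ell_dd {U : Set W} (hU : IsOpen U) {g : W → ℝ} {n : ℕ∞} (hg : ContDiffOn ℝ (n + 1) g U) (h : W) :
    ContDiffOn ℝ n (dd h g) U := by
  exact (hg.fderiv_of_isOpen hU le_rfl).clm_apply contDiffOn_const

theorem ContDiffOn.ell_dd_infty {U : Set W} (hU : IsOpen U) {g : W → ℝ} (hg : ContDiffOn ℝ ∞ g U) (h : W) :
    ContDiffOn ℝ ∞ (dd h g) U := by
  exact (hg.fderiv_of_isOpen hU (by simp)).clm_apply contDiffOn_const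

theorem ell_d2_apply_aux {U : Set W} (hU : IsOpen U) {g : W → ℝ} (hg : ContDiffOn ℝ 2 g U) {x : W} (hx : x ∈ U)
    (h k : W) : fderiv ℝ (fderiv ℝ g) x h k = dd h (dd k g) x := by
  have h1 : DifferentiableAt ℝ (fderiv ℝ g) x :=
    ((hg.fderiv_of_isOpen hU (m := 1) (by norm_num)).differentiableOn (by simp) x hx).differentiableAt
      (hU.mem_nhds hx)
  show fderiv ℝ (fderiv ℝ g) x h k = fderiv ℝ (fun y => fderiv ℝ g y k) x h
  rw [fderiv_clm_apply h1 (differentiableAt_const k)]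
  simp

theorem ell_dd_comm {U : Set W} (hU : IsOpen U) {g : W → ℝ} (hg : ContDiffOn ℝ 2 g U) {x : W} (hx : x ∈ U)
    (h k : W) : dd h (dd k g) x = dd k (dd h g) x := by
  rw [← ell_d2_apply_aux hU hg hx, ← ell_d2_apply_aux hU hg hx]
  exact ((hg.contDiffAt (hU.mem_nhds hx)).isSymmSndFDerivAt (by simp)) h k

theorem ell_d2_apply {U : Set W} (hU : IsOpen U) {g : W → ℝ} (hg : ContDiffOn ℝ 2 g U) {x : W} (hx : x ∈ U)
    (h k : W) : ellD2 g x h k = dd h (dd k g) x := by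
  exact ell_d2_apply_aux hU hg hx h k

theorem ell_d2_symm {U : Set W} (hU : IsOpen U) {g : W → ℝ} (hg : ContDiffOn ℝ 2 g U) {x : W} (hx : x ∈ U)
    (h k : W) : ellD2 g x h k = ellD2 g x k h := by
  exact ((hg.contDiffAt (hU.mem_nhds hx)).isSymmSndFDerivAt (by simp)) h k

theorem ell_dd_eq_inner (g : W → ℝ) (x h : W) : dd h g x = ⟪∇ g x, h⟫ := by
  rw [dd, gradient, InnerProductSpace.toDual_symm_apply]

theorem ell_norm_gradient (g : W → ℝ) (x : W) : ‖∇ g x‖ = ‖fderiv ℝ g x‖ := by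
  rw [gradient, LinearIsometryEquiv.norm_map]

theorem ell_norm_gradient_sub (g : W → ℝ) (x y : W) : ‖∇ g x - ∇ g y‖ = ‖fderiv ℝ g x - fderiv ℝ g y‖ := by
  rw [gradient, gradient, ← map_sub, LinearIsometryEquiv.norm_map]

/-! ### traces -/

/-- the trace does not depend on the orthonormal basis. -/
theorem ellTr_eq_sum {ι : Type} [Fintype ι] (b : OrthonormalBasis ι ℝ W) (A : W →L[ℝ] W)
    (H : W →L[ℝ] W →L[ℝ] ℝ) : ellTr A H = ∑ i, H (A (b i)) (b i) := by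
  let T : W →ₗ[ℝ] W :=
    { toFun := fun x => (InnerProductSpace.toDual ℝ W).symm (H (A x))
      map_add' := fun x y => by simp
      map_smul' := fun c x => by simp }
  have hT : ∀ x y, ⟪y, T x⟫ = H (A x) y := fun x y => by
    rw [real_inner_comm]
    exact InnerProductSpace.toDual_symm_apply
  have h1 := LinearMap.trace_eq_sum_inner T b
  have h2 := LinearMap.trace_eq_sum_inner T (stdOrthonormalBasis ℝ W)
  simp only [hT] at h1 h2
  rw [ellTr, ← h2, h1]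

theorem ellTr_abs_le (A : W →L[ℝ] W) (H : W →L[ℝ] W →L[ℝ] ℝ) :
    |ellTr A H| ≤ (Module.finrank ℝ W : ℝ) * ‖A‖ * ‖H‖ := by
  have h1 : ∀ i, |H (A (stdOrthonormalBasis ℝ W i)) (stdOrthonormalBasis ℝ W i)| ≤ ‖A‖ * ‖H‖ := fun i => by
    have e : ‖stdOrthonormalBasis ℝ W i‖ = 1 := (stdOrthonormalBasis ℝ W).orthonormal.1 i
    have a1 := (H (A (stdOrthonormalBasis ℝ W i))).le_opNorm (stdOrthonormalBasis ℝ W i)
    have a2 := H.le_opNorm (A (stdOrthonormalBasis ℝ W i))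
    have a3 := A.le_opNorm (stdOrthonormalBasis ℝ W i)
    rw [e, mul_one] at a1 a3
    rw [Real.norm_eq_abs] at a1
    calc _ ≤ ‖H‖ * ‖A (stdOrthonormalBasis ℝ W i)‖ := a1.trans a2
      _ ≤ ‖H‖ * ‖A‖ := mul_le_mul_of_nonneg_left a3 (norm_nonneg H)
      _ = _ := mul_comm _ _
  calc |ellTr A H| ≤ ∑ i, |H (A (stdOrthonormalBasis ℝ W i)) (stdOrthonormalBasis ℝ W i)| :=
        Finset.abs_sum_le_sum_abs _ _
    _ ≤ ∑ _i : Fin (Module.finrank ℝ W), ‖A‖ * ‖H‖ := Finset.sum_le_sum fun i _ => h1 i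
    _ = _ := by simp [mul_assoc]

theorem ellTr_sub_left (A A' : W →L[ℝ] W) (H : W →L[ℝ] W →L[ℝ] ℝ) : ellTr (A - A') H = ellTr A H - ellTr A' H := by
  simp [ellTr, Finset.sum_sub_distrib]

theorem ellTr_sub_right (A : W →L[ℝ] W) (H H' : W →L[ℝ] W →L[ℝ] ℝ) : ellTr A (H - H') = ellTr A H - ellTr A H' := by
  simp [ellTr, Finset.sum_sub_distrib]

/-- `tr(S Sᵀ H) = ∑ᵢ H (S eᵢ) (S eᵢ)` for symmetric `H`. -/
theorem ellTr_comp_adjoint (S : W →L[ℝ] W) (H : W →L[ℝ] W →L[ℝ] ℝ) (hH : ∀ h k, H h k = H k h) :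
    ellTr (S ∘L ContinuousLinearMap.adjoint S) H
      = ∑ i, H (S (stdOrthonormalBasis ℝ W i)) (S (stdOrthonormalBasis ℝ W i)) := by
  set e := stdOrthonormalBasis ℝ W with he
  have h1 : ∀ i, S (ContinuousLinearMap.adjoint S (e i)) = ∑ j, ⟪S (e j), e i⟫ • S (e j) := fun i => by
    conv_lhs => rw [← e.sum_repr' (ContinuousLinearMap.adjoint S (e i))]
    rw [map_sum]
    refine Finset.sum_congr rfl fun j _ => ?_
    rw [map_smul, ContinuousLinearMap.adjoint_inner_right]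
  have h2 : ∀ j, ∑ i, ⟪S (e j), e i⟫ • e i = S (e j) := fun j => by
    conv_rhs => rw [← e.sum_repr' (S (e j))]
    exact Finset.sum_congr rfl fun i _ => by rw [real_inner_comm]
  simp only [ellTr, ContinuousLinearMap.comp_apply]
  calc ∑ i, H (S (ContinuousLinearMap.adjoint S (e i))) (e i)
      = ∑ i, ∑ j, ⟪S (e j), e i⟫ * H (S (e j)) (e i) := by
        refine Finset.sum_congr rfl fun i _ => ?_
        rw [h1 i, map_sum, ContinuousLinearMap.sum_apply]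
        exact Finset.sum_congr rfl fun j _ => by simp
    _ = ∑ j, ∑ i, ⟪S (e j), e i⟫ * H (S (e j)) (e i) := Finset.sum_comm
    _ = ∑ j, H (S (e j)) (S (e j)) := by
        refine Finset.sum_congr rfl fun j _ => ?_
        have h3 := congrArg (H (S (e j))) (h2 j)
        rw [map_sum] at h3
        rw [← h3]
        exact Finset.sum_congr rfl fun i _ => by simp

/-- `tr(A H) ≤ 0` for `A ≥ 0` symmetric and `H ≤ 0` symmetric (diagonalise `A`:
`LinearMap.IsSymmetric.eigenvectorBasis`, then `ellTr_eq_sum`). -/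
theorem ellTr_nonpos {A : W →L[ℝ] W} {H : W →L[ℝ] W →L[ℝ] ℝ} (hA : ∀ ξ η : W, ⟪A ξ, η⟫ = ⟪ξ, A η⟫)
    (hA0 : ∀ ξ : W, 0 ≤ ⟪A ξ, ξ⟫) (hH0 : ∀ h, H h h ≤ 0) : ellTr A H ≤ 0 := by
  have hs : (A : W →ₗ[ℝ] W).IsSymmetric := fun ξ η => hA ξ η
  set b := hs.eigenvectorBasis rfl with hb
  rw [ellTr_eq_sum b]
  refine Finset.sum_nonpos fun i _ => ?_
  have h1 : A (b i) = (hs.eigenvalues rfl i : ℝ) • b i := hs.apply_eigenvectorBasis rfl i
  have h2 : 0 ≤ hs.eigenvalues rfl i := by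
    have := hA0 (b i)
    rw [h1, real_inner_smul_left, real_inner_self_eq_norm_sq, b.orthonormal.1 i] at this
    simpa using this
  rw [h1, map_smul, ContinuousLinearMap.smul_apply, smul_eq_mul]
  exact mul_nonpos_of_nonneg_of_nonpos h2 (hH0 _)

theorem ell_lap_eq_sum_dd {U : Set W} (hU : IsOpen U) {g : W → ℝ} (hg : ContDiffOn ℝ 2 g U) {x : W} (hx : x ∈ U) :
    ellLap g x = ∑ i, dd (stdOrthonormalBasis ℝ W i) (dd (stdOrthonormalBasis ℝ W i) g) x := by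
  simp only [ellLap, ellTr, ContinuousLinearMap.id_apply]
  exact Finset.sum_congr rfl fun i _ => ell_d2_apply hU hg hx _ _

/-- `Δ ∂_h g = ∂_h Δ g`. -/
theorem ell_lap_dd {U : Set W} (hU : IsOpen U) {g : W → ℝ} (hg : ContDiffOn ℝ 3 g U) {x : W} (hx : x ∈ U) (h : W) :
    ellLap (dd h g) x = dd h (ellLap g) x := by
  have hg2 : ContDiffOn ℝ 2 g U := hg.of_le (by norm_num)
  have hdd : ∀ k : W, ContDiffOn ℝ 2 (dd k g) U := fun k =>
    ContDiffOn.ell_dd (n := 2) hU (by exact_mod_cast hg) k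
  have hdd1 : ∀ k l : W, ContDiffOn ℝ 1 (dd l (dd k g)) U := fun k l =>
    ContDiffOn.ell_dd (n := 1) hU (by exact_mod_cast hdd k) l
  rw [ell_lap_eq_sum_dd hU (hdd h) hx]
  have e1 : ellLap g =ᶠ[nhds x]
      fun y => ∑ i, dd (stdOrthonormalBasis ℝ W i) (dd (stdOrthonormalBasis ℝ W i) g) y := by
    filter_upwards [hU.mem_nhds hx] with y hy
    exact ell_lap_eq_sum_dd hU hg2 hy
  have e2 : dd h (ellLap g) x
      = ∑ i, dd h (dd (stdOrthonormalBasis ℝ W i) (dd (stdOrthonormalBasis ℝ W i) g)) x := by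
    simp only [dd]
    rw [e1.fderiv_eq, fderiv_fun_sum fun i _ =>
      (((hdd1 _ _).differentiableOn (by simp)) x hx).differentiableAt (hU.mem_nhds hx)]
    simp
  rw [e2]
  refine Finset.sum_congr rfl fun i _ => ?_
  set e := stdOrthonormalBasis ℝ W i
  rw [ell_dd_comm hU (hdd e) hx h e]
  have e3 : dd e (dd h g) =ᶠ[nhds x] dd h (dd e g) := by
    filter_upwards [hU.mem_nhds hx] with y hy
    exact ell_dd_comm hU hg2 hy e h
  simp only [dd] at e3 ⊢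
  rw [e3.fderiv_eq]

theorem ContDiffOn.ell_lap {U : Set W} (hU : IsOpen U) {g : W → ℝ} (hg : ContDiffOn ℝ ∞ g U) :
    ContDiffOn ℝ ∞ (ellLap g) U := by
  have h2 : ContDiffOn ℝ ∞ (fderiv ℝ (fderiv ℝ g)) U :=
    (hg.fderiv_of_isOpen hU (m := ∞) (by simp)).fderiv_of_isOpen hU (by simp)
  have e : ellLap g = fun x => ∑ i, fderiv ℝ (fderiv ℝ g) x (stdOrthonormalBasis ℝ W i)
      (stdOrthonormalBasis ℝ W i) := by
    funext x; simp [ellLap, ellTr, ellD2]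
  rw [e]
  exact ContDiffOn.sum fun i _ => (h2.clm_apply contDiffOn_const).clm_apply contDiffOn_const

theorem ell_lap_continuousOn {U : Set W} (hU : IsOpen U) {g : W → ℝ} (hg : ContDiffOn ℝ 2 g U) :
    ContinuousOn (ellLap g) U := by
  have h2 : ContDiffOn ℝ 0 (fderiv ℝ (fderiv ℝ g)) U :=
    (hg.fderiv_of_isOpen hU (m := 1) (by norm_num)).fderiv_of_isOpen hU (by norm_num)
  have e : ellLap g = fun x => ∑ i, fderiv ℝ (fderiv ℝ g) x (stdOrthonormalBasis ℝ W i)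
      (stdOrthonormalBasis ℝ W i) := by
    funext x; simp [ellLap, ellTr, ellD2]
  rw [e]
  exact (ContDiffOn.sum fun i _ => (h2.clm_apply contDiffOn_const).clm_apply contDiffOn_const).continuousOn

theorem ell_div_eq_sum_dd {U : Set W} (hU : IsOpen U) {F : W → W} (hF : DifferentiableOn ℝ F U) {x : W}
    (hx : x ∈ U) :
    ellDiv F x = ∑ i, dd (stdOrthonormalBasis ℝ W i) (fun z => ⟪F z, stdOrthonormalBasis ℝ W i⟫) x := by
  have hd : DifferentiableAt ℝ F x := (hF x hx).differentiableAt (hU.mem_nhds hx)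
  simp only [ellDiv, dd]
  refine Finset.sum_congr rfl fun i _ => ?_
  rw [fderiv_inner_apply ℝ hd (differentiableAt_const _)]
  simp

/-- operator norm of a bilinear form from a bound on all pairs. -/
theorem ell_norm_d2_le {H : W →L[ℝ] W →L[ℝ] ℝ} {K : ℝ} (hK : 0 ≤ K) (h : ∀ h k, |H h k| ≤ K * ‖h‖ * ‖k‖) :
    ‖H‖ ≤ K := by
  refine H.opNorm_le_bound hK fun a => ?_
  refine (H a).opNorm_le_bound (by positivity) fun b => ?_
  rw [Real.norm_eq_abs]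
  exact h a b

/-- polarisation: a symmetric bilinear form is controlled by its quadratic form. -/
theorem ell_norm_d2_le_of_quadratic {H : W →L[ℝ] W →L[ℝ] ℝ} {K : ℝ} (hK : 0 ≤ K) (hs : ∀ h k, H h k = H k h)
    (h : ∀ h, |H h h| ≤ K * ‖h‖ ^ 2) : ‖H‖ ≤ 2 * K := by
  have hunit : ∀ a b : W, ‖a‖ = 1 → ‖b‖ = 1 → |H a b| ≤ K := fun a b ha hb => by
    have e : H a b = (H (a + b) (a + b) - H (a - b) (a - b)) / 4 := by
      simp only [map_add, map_sub, ContinuousLinearMap.add_apply, ContinuousLinearMap.sub_apply]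
      rw [hs b a]
      ring
    have p := parallelogram_law_with_norm ℝ a b
    rw [ha, hb] at p
    have h1 := h (a + b)
    have h2 := h (a - b)
    rw [e, abs_div, abs_of_pos (by norm_num : (0 : ℝ) < 4), div_le_iff₀ (by norm_num)]
    calc |H (a + b) (a + b) - H (a - b) (a - b)| ≤ |H (a + b) (a + b)| + |H (a - b) (a - b)| := abs_sub _ _
      _ ≤ K * ‖a + b‖ ^ 2 + K * ‖a - b‖ ^ 2 := add_le_add h1 h2
      _ = K * (‖a + b‖ ^ 2 + ‖a - b‖ ^ 2) := by ring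
      _ = K * 4 := by rw [p]; ring
  have : ‖H‖ ≤ K := by
    refine ell_norm_d2_le hK fun a b => ?_
    by_cases ha : a = 0
    · simp [ha]
    by_cases hb : b = 0
    · simp [hb]
    have h1 := hunit (‖a‖⁻¹ • a) (‖b‖⁻¹ • b) (norm_smul_inv_norm ha) (norm_smul_inv_norm hb)
    have na : 0 < ‖a‖ := norm_pos_iff.2 ha
    have nb : 0 < ‖b‖ := norm_pos_iff.2 hb
    simp only [map_smul, ContinuousLinearMap.smul_apply, smul_eq_mul, abs_mul, abs_inv, abs_norm] at h1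
    have e : |H a b| = ‖a‖ * ‖b‖ * (‖b‖⁻¹ * (‖a‖⁻¹ * |H a b|)) := by field_simp
    rw [e]
    calc ‖a‖ * ‖b‖ * (‖b‖⁻¹ * (‖a‖⁻¹ * |H a b|)) ≤ ‖a‖ * ‖b‖ * K :=
          mul_le_mul_of_nonneg_left h1 (by positivity)
      _ = _ := by ring
  linarith

/-! ### one-dimensional integration lemmas (no integrals: monotonicity of `Ψ ∓ B σ^α/α`) -/

/-- common estimate: `|Ψ'(σ)| ≤ B σ^{p-1}` on `[a,b]`, `0 < a`, `p ≠ 0`. -/
theorem ell_ftc_aux {Ψ Ψ' : ℝ → ℝ} {a b p B : ℝ} (ha : 0 < a) (hab : a ≤ b) (hp : p ≠ 0)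
    (hd : ∀ σ ∈ Set.Icc a b, HasDerivAt Ψ (Ψ' σ) σ) (hb : ∀ σ ∈ Set.Icc a b, |Ψ' σ| ≤ B * σ ^ (p - 1)) :
    |Ψ b - Ψ a| ≤ B * (b ^ p - a ^ p) / p := by
  have hpos : ∀ σ ∈ Set.Icc a b, 0 < σ := fun σ hσ => ha.trans_le hσ.1
  have hB' : ∀ σ ∈ Set.Icc a b, HasDerivAt (fun σ : ℝ => B * (σ ^ p - a ^ p) / p) (B * σ ^ (p - 1)) σ :=
    fun σ hσ => by
      have h1 := (((Real.hasDerivAt_rpow_const (p := p) (Or.inl (hpos σ hσ).ne')).sub_const (a ^ p)).const_mul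
        B).div_const p
      have e : B * σ ^ (p - 1) = B * (p * σ ^ (p - 1)) / p := by field_simp
      rw [e]
      exact h1
  have := image_norm_le_of_norm_deriv_right_le_deriv_boundary' (f := fun σ => Ψ σ - Ψ a) (f' := Ψ') (a := a) (b := b)
    (B := fun σ : ℝ => B * (σ ^ p - a ^ p) / p) (B' := fun σ => B * σ ^ (p - 1))
    (fun σ hσ => ((hd σ hσ).sub_const _).continuousAt.continuousWithinAt)
    (fun σ hσ => ((hd σ ⟨hσ.1, hσ.2.le⟩).sub_const _).hasDerivWithinAt) (by simp)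
    (fun σ hσ => (hB' σ hσ).continuousAt.continuousWithinAt)
    (fun σ hσ => (hB' σ ⟨hσ.1, hσ.2.le⟩).hasDerivWithinAt)
    (fun σ hσ => hb σ ⟨hσ.1, hσ.2.le⟩) (x := b) ⟨hab, le_rfl⟩
  simpa using this

/-- `|Ψ'(σ)| ≤ B σ^{α-1}` on `(0,s]`, `Ψ(σ) → L` as `σ → 0+`  ⟹  `|Ψ(s) - L| ≤ B s^α / α`. -/
theorem ell_ftc_pow {Ψ Ψ' : ℝ → ℝ} {s α B L : ℝ} (hs : 0 < s) (hα : 0 < α)
    (hd : ∀ σ ∈ Set.Ioc 0 s, HasDerivAt Ψ (Ψ' σ) σ) (hb : ∀ σ ∈ Set.Ioc 0 s, |Ψ' σ| ≤ B * σ ^ (α - 1))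
    (hl : Filter.Tendsto Ψ (nhdsWithin 0 (Set.Ioi 0)) (nhds L)) : |Ψ s - L| ≤ B * s ^ α / α := by
  have hB : 0 ≤ B := by
    have h1 := (abs_nonneg _).trans (hb s ⟨hs, le_rfl⟩)
    have h2 : 0 < s ^ (α - 1) := Real.rpow_pos_of_pos hs _
    by_contra hcon
    nlinarith [not_le.1 hcon]
  have key : ∀ ε ∈ Set.Ioo 0 s, |Ψ s - Ψ ε| ≤ B * s ^ α / α := fun ε hε => by
    have h1 := ell_ftc_aux (Ψ := Ψ) (Ψ' := Ψ') (B := B) hε.1 hε.2.le hα.ne'
      (fun σ hσ => hd σ ⟨hε.1.trans_le hσ.1, hσ.2⟩) (fun σ hσ => hb σ ⟨hε.1.trans_le hσ.1, hσ.2⟩)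
    refine h1.trans ?_
    have h2 : 0 ≤ ε ^ α := Real.rpow_nonneg hε.1.le _
    gcongr
    linarith
  have ht : Filter.Tendsto (fun ε => |Ψ s - Ψ ε|) (nhdsWithin 0 (Set.Ioi 0)) (nhds |Ψ s - L|) :=
    (tendsto_const_nhds.sub hl).abs
  refine le_of_tendsto ht ?_
  filter_upwards [Ioo_mem_nhdsGT hs] with ε hε
  exact key ε hε

/-- `|Ψ'(σ)| ≤ B σ^{-β-1}` on `[s,s₀]`, `β > 0`  ⟹  `|Ψ(s) - Ψ(s₀)| ≤ B s^{-β} / β`. -/
theorem ell_ftc_pow_neg {Ψ Ψ' : ℝ → ℝ} {s s₀ β B : ℝ} (hs : 0 < s) (hss : s ≤ s₀) (hβ : 0 < β)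
    (hd : ∀ σ ∈ Set.Icc s s₀, HasDerivAt Ψ (Ψ' σ) σ) (hb : ∀ σ ∈ Set.Icc s s₀, |Ψ' σ| ≤ B * σ ^ (-β - 1)) :
    |Ψ s - Ψ s₀| ≤ B * s ^ (-β) / β := by
  have hB : 0 ≤ B := by
    have h1 := (abs_nonneg _).trans (hb s ⟨le_rfl, hss⟩)
    have h2 : 0 < s ^ (-β - 1) := Real.rpow_pos_of_pos hs _
    by_contra hcon
    nlinarith [not_le.1 hcon]
  have h1 := ell_ftc_aux (Ψ := Ψ) (Ψ' := Ψ') (B := B) (p := -β) hs hss (neg_ne_zero.2 hβ.ne') hd hb
  rw [abs_sub_comm]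
  refine h1.trans ?_
  have h2 : 0 ≤ s₀ ^ (-β) := Real.rpow_nonneg (hs.le.trans hss) _
  have e : B * (s₀ ^ (-β) - s ^ (-β)) / -β = B * (s ^ (-β) - s₀ ^ (-β)) / β := by
    field_simp
    ring
  rw [e]
  gcongr
  linarith

end Claimed.Agent.Lib.Ell
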