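/-
Lib/Ell, package L-ell-cc (architect helper232): CONSTANT COEFFICIENTS, all scales, "centred" form:
data on `ball x₁ ϱ`, conclusion on `ball x₁ (θ ϱ)`, `θ = θ(lam, Lam)`.  Natural scaling: `M ≥ sup|u|, ϱ^{1+α}[F]_α, ϱ² sup|g|`.

PROOF of `ell_cc_smooth`: `S` symmetric with `S² = A` (`ell_exists_sqrt`), `L = (ϱ/√Lam) S`, `T y = x₁ + L y` maps `ball 0 1` into
`ball x₁ ϱ` and `T (ball 0 (1/8)) ⊇ ball x₁ (ϱ √(lam/Lam)/8)`.  `v = u ∘ T` solves `Δv = div F̂ + ĝ`, `F̂ = (ϱ²/Lam) L⁻¹ F∘T`,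
`ĝ = (ϱ²/Lam) g∘T`, with `sup|v| ≤ M`, `[F̂]_α ≤ M/√(lam Lam)`, `sup|ĝ| ≤ M/Lam`.  Apply `ell_lapdiv_unit`, transform back:
`Du(x) = Dv(T⁻¹x) ∘ L⁻¹`, `‖L⁻¹‖ ≤ √Lam/(ϱ √lam)`.
PROOF of `ell_cc_weak`: `u^ε = ellMol ellRho ε u`, `ε < ϱ/2`, is a smooth solution on `ball x₁ (ϱ/2)` with data `F^ε, g^ε`
(`ell_weak_mol`), same bounds (`ell_mol_bdOn`, `ell_molV_holOn`, `ellRho_kerL1`); let `ε → 0` (`ell_mol_fderiv_tendsto`, `HolOn.of_tendsto`).
-/
import Claimed.Agent.Lib.Ell.LapDiv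

set_option autoImplicit false

namespace Claimed.Agent.Lib.Ell

open MeasureTheory Metric Filter
open scoped ContDiff RealInnerProductSpace Gradient Topology

universe u

variable {W : Type u} [NormedAddCommGroup W] [InnerProductSpace ℝ W] [FiniteDimensional ℝ W]

/-- the square root of a positive symmetric matrix (`LinearMap.IsSymmetric.eigenvectorBasis`). -/
theorem ell_exists_sqrt {A : W →L[ℝ] W} {lam Lam : ℝ} (hlam : 0 < lam) (hA : EllMat lam Lam A) :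
    ∃ S : W ≃L[ℝ] W, (∀ ξ η : W, ⟪S ξ, η⟫ = ⟪ξ, S η⟫) ∧ (∀ ξ, S (S ξ) = A ξ) ∧
      (∀ ξ, Real.sqrt lam * ‖ξ‖ ≤ ‖S ξ‖) ∧ (∀ ξ, ‖S ξ‖ ≤ Real.sqrt Lam * ‖ξ‖) := by
  obtain ⟨hsym, hlow, hup⟩ := hA
  have hs : (A : W →ₗ[ℝ] W).IsSymmetric := fun ξ η => hsym ξ η
  set b := hs.eigenvectorBasis rfl with hb
  set μ := hs.eigenvalues rfl with hμ
  have hAb : ∀ i, A (b i) = μ i • b i := fun i => hs.apply_eigenvectorBasis rfl i
  have hbn : ∀ i, ‖b i‖ = 1 := fun i => b.orthonormal.1 i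
  have hμpos : ∀ i, 0 ≤ μ i := by
    intro i
    have h1 := hlow (b i)
    rw [hAb, inner_smul_left, real_inner_self_eq_norm_sq, hbn] at h1
    simp only [conj_trivial] at h1
    nlinarith
  set S₀ : W →L[ℝ] W := ∑ i, Real.sqrt (μ i) • (innerSL ℝ (b i)).smulRight (b i) with hS₀
  have hS₀a : ∀ ξ, S₀ ξ = ∑ i, (Real.sqrt (μ i) * ⟪b i, ξ⟫) • b i := by
    intro ξ
    simp only [hS₀, sum_apply, smul_apply, ContinuousLinearMap.smulRight_apply,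
      innerSL_apply_apply, smul_smul]
  have hin : ∀ ξ i, ⟪b i, S₀ ξ⟫ = Real.sqrt (μ i) * ⟪b i, ξ⟫ := by
    intro ξ i
    rw [hS₀a, inner_sum]
    rw [Finset.sum_eq_single i]
    · rw [inner_smul_right, real_inner_self_eq_norm_sq, hbn]; ring
    · intro j _ hj
      rw [inner_smul_right, b.orthonormal.2 (Ne.symm hj), mul_zero]
    · intro h; exact absurd (Finset.mem_univ i) h
  have hS₀sym : ∀ ξ η : W, ⟪S₀ ξ, η⟫ = ⟪ξ, S₀ η⟫ := by
    intro ξ η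
    rw [hS₀a, hS₀a, sum_inner, inner_sum]
    refine Finset.sum_congr rfl fun i _ => ?_
    rw [inner_smul_left, inner_smul_right, real_inner_comm (b i) ξ]
    simp only [conj_trivial]
    ring
  have hS₀sq : ∀ ξ, S₀ (S₀ ξ) = A ξ := by
    intro ξ
    rw [hS₀a (S₀ ξ)]
    conv_rhs => rw [← b.sum_repr' ξ]
    rw [map_sum]
    refine Finset.sum_congr rfl fun i _ => ?_
    rw [hin, map_smul, hAb, smul_smul, ← mul_assoc, Real.mul_self_sqrt (hμpos i), mul_comm]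
  have hnorm : ∀ ξ, ‖S₀ ξ‖ ^ 2 = ⟪A ξ, ξ⟫ := by
    intro ξ
    rw [← real_inner_self_eq_norm_sq, hS₀sym, hS₀sq, real_inner_comm]
  have hlo : ∀ ξ, Real.sqrt lam * ‖ξ‖ ≤ ‖S₀ ξ‖ := by
    intro ξ
    apply le_of_sq_le_sq _ (norm_nonneg _) |>.trans le_rfl
    rw [mul_pow, Real.sq_sqrt hlam.le, hnorm]
    exact hlow ξ
  have hLam0 : 0 ≤ Lam := (norm_nonneg _).trans hup
  have hhi : ∀ ξ, ‖S₀ ξ‖ ≤ Real.sqrt Lam * ‖ξ‖ := by
    intro ξ
    apply le_of_sq_le_sq _ (by positivity) |>.trans le_rfl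
    rw [mul_pow, Real.sq_sqrt hLam0, hnorm]
    calc ⟪A ξ, ξ⟫ ≤ ‖A ξ‖ * ‖ξ‖ := real_inner_le_norm _ _
      _ ≤ (‖A‖ * ‖ξ‖) * ‖ξ‖ := by gcongr; exact A.le_opNorm ξ
      _ ≤ (Lam * ‖ξ‖) * ‖ξ‖ := by gcongr
      _ = Lam * ‖ξ‖ ^ 2 := by ring
  have hinj : Function.Injective (S₀ : W →ₗ[ℝ] W) := by
    rw [← LinearMap.ker_eq_bot, LinearMap.ker_eq_bot']
    intro ξ hξ
    have h1 := hlo ξ
    have h2 : S₀ ξ = 0 := hξ
    rw [h2, norm_zero] at h1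
    have h3 : 0 < Real.sqrt lam := Real.sqrt_pos.2 hlam
    have h4 : ‖ξ‖ ≤ 0 := by
      by_contra hcon
      rw [not_le] at hcon
      have := mul_pos h3 hcon
      linarith
    exact norm_le_zero_iff.1 h4
  set S : W ≃L[ℝ] W := (LinearEquiv.ofInjectiveEndo (S₀ : W →ₗ[ℝ] W) hinj).toContinuousLinearEquiv with hS
  have hSS : ∀ ξ, S ξ = S₀ ξ := fun ξ => rfl
  refine ⟨S, ?_, ?_, ?_, ?_⟩
  · intro ξ η; rw [hSS, hSS]; exact hS₀sym ξ η
  · intro ξ; rw [hSS, hSS]; exact hS₀sq ξ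
  · intro ξ; rw [hSS]; exact hlo ξ
  · intro ξ; rw [hSS]; exact hhi ξ

/-! ### affine changes of variables `T y = x₁ + L y` -/

theorem ell_affine_hasFDerivAt (x₁ : W) (L : W →L[ℝ] W) (y : W) : HasFDerivAt (fun y => x₁ + L y) L y :=
  L.hasFDerivAt.const_add x₁

theorem ell_dd_comp_affine {w : W → ℝ} {x₁ y : W} (L : W →L[ℝ] W) (hw : DifferentiableAt ℝ w (x₁ + L y)) (h : W) :
    dd h (fun y => w (x₁ + L y)) y = dd (L h) w (x₁ + L y) := by
  unfold dd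
  have h1 : fderiv ℝ (fun y => w (x₁ + L y)) y = (fderiv ℝ w (x₁ + L y)).comp L :=
    (hw.hasFDerivAt.comp y (ell_affine_hasFDerivAt x₁ L y)).fderiv
  rw [h1]
  rfl

theorem ell_fderiv_comp_affine {w : W → ℝ} {x₁ y : W} (L : W →L[ℝ] W) (hw : DifferentiableAt ℝ w (x₁ + L y)) :
    fderiv ℝ (fun y => w (x₁ + L y)) y = (fderiv ℝ w (x₁ + L y)).comp L := by
  exact (hw.hasFDerivAt.comp y (ell_affine_hasFDerivAt x₁ L y)).fderiv

theorem ell_affine_preimage_isOpen {U : Set W} (hU : IsOpen U) (x₁ : W) (L : W →L[ℝ] W) :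
    IsOpen {y | x₁ + L y ∈ U} :=
  hU.preimage (continuous_const.add L.continuous)

theorem ell_contDiffOn_comp_affine {G : Type*} [NormedAddCommGroup G] [NormedSpace ℝ G] {U : Set W} {w : W → G}
    {n : WithTop ℕ∞} (hw : ContDiffOn ℝ n w U) (x₁ : W) (L : W →L[ℝ] W) :
    ContDiffOn ℝ n (fun y => w (x₁ + L y)) {y | x₁ + L y ∈ U} :=
  hw.comp (contDiff_const.add L.contDiff).contDiffOn (fun _ hy => hy)

theorem ell_d2_comp_affine {U : Set W} (hU : IsOpen U) {w : W → ℝ} (hw : ContDiffOn ℝ 2 w U) {x₁ y : W}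
    (L : W →L[ℝ] W) (hy : x₁ + L y ∈ U) (h k : W) :
    ellD2 (fun y => w (x₁ + L y)) y h k = ellD2 w (x₁ + L y) (L h) (L k) := by
  have hV := ell_affine_preimage_isOpen hU x₁ L
  rw [ell_d2_apply hV (ell_contDiffOn_comp_affine hw x₁ L) hy, ell_d2_apply hU hw hy]
  have h1 : dd k (fun y => w (x₁ + L y)) =ᶠ[𝓝 y] fun z => dd (L k) w (x₁ + L z) := by
    filter_upwards [hV.mem_nhds hy] with z hz
    exact ell_dd_comp_affine L ((hw.contDiffAt (hU.mem_nhds hz)).differentiableAt (by norm_num)) k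
  have h2 : dd h (dd k (fun y => w (x₁ + L y))) y = dd h (fun z => dd (L k) w (x₁ + L z)) y := by
    unfold dd at h1 ⊢
    rw [h1.fderiv_eq]
  rw [h2]
  have h3 : ContDiffOn ℝ 1 (dd (L k) w) U := ContDiffOn.ell_dd (n := 1) hU (by exact_mod_cast hw) (L k)
  exact ell_dd_comp_affine L ((h3.contDiffAt (hU.mem_nhds hy)).differentiableAt (by norm_num)) h

/-- `Δ(u ∘ T) = tr(L Lᵀ D²u) ∘ T`. -/
theorem ell_lap_comp_affine {U : Set W} (hU : IsOpen U) {w : W → ℝ} (hw : ContDiffOn ℝ 2 w U) {x₁ y : W}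
    (L : W →L[ℝ] W) (hy : x₁ + L y ∈ U) :
    ellLap (fun y => w (x₁ + L y)) y = ellTr (L ∘L ContinuousLinearMap.adjoint L) (ellD2 w (x₁ + L y)) := by
  rw [ellTr_comp_adjoint L _ (ell_d2_symm hU hw hy)]
  simp only [ellLap, ellTr, ContinuousLinearMap.id_apply]
  exact Finset.sum_congr rfl fun i _ => ell_d2_comp_affine hU hw L hy _ _

/-- invariance of the trace under conjugation. -/
theorem ell_trace_conj (L : W ≃L[ℝ] W) (D : W →L[ℝ] W) :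
    ∑ i, ⟪L.symm (D (L (stdOrthonormalBasis ℝ W i))), stdOrthonormalBasis ℝ W i⟫
      = ∑ i, ⟪D (stdOrthonormalBasis ℝ W i), stdOrthonormalBasis ℝ W i⟫ := by
  have h1 := LinearMap.trace_conj' (D : W →ₗ[ℝ] W) (L.symm.toLinearEquiv)
  rw [LinearMap.trace_eq_sum_inner _ (stdOrthonormalBasis ℝ W),
    LinearMap.trace_eq_sum_inner _ (stdOrthonormalBasis ℝ W)] at h1
  have e1 : ∀ i, ⟪L.symm (D (L (stdOrthonormalBasis ℝ W i))), stdOrthonormalBasis ℝ W i⟫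
      = ⟪stdOrthonormalBasis ℝ W i, (L.symm.toLinearEquiv.conj (D : W →ₗ[ℝ] W)) (stdOrthonormalBasis ℝ W i)⟫ := by
    intro i
    rw [real_inner_comm]
    rfl
  have e2 : ∀ i, ⟪D (stdOrthonormalBasis ℝ W i), stdOrthonormalBasis ℝ W i⟫
      = ⟪stdOrthonormalBasis ℝ W i, (D : W →ₗ[ℝ] W) (stdOrthonormalBasis ℝ W i)⟫ := by
    intro i
    rw [real_inner_comm]
    rfl
  simp_rw [e1, e2]
  exact h1

/-- `div(L⁻¹ F ∘ T) = (div F) ∘ T` (`LinearMap.trace_conj'`, `LinearMap.trace_eq_sum_inner`). -/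
theorem ell_div_comp_affine {F : W → W} {x₁ y : W} (L : W ≃L[ℝ] W) (hF : DifferentiableAt ℝ F (x₁ + L y)) :
    ellDiv (fun y => L.symm (F (x₁ + L y))) y = ellDiv F (x₁ + L y) := by
  have h1 : HasFDerivAt (fun y => F (x₁ + L y)) ((fderiv ℝ F (x₁ + L y)).comp (L : W →L[ℝ] W)) y :=
    hF.hasFDerivAt.comp y (ell_affine_hasFDerivAt x₁ (L : W →L[ℝ] W) y)
  have h2 := (L.symm : W →L[ℝ] W).hasFDerivAt.comp y h1
  unfold ellDiv
  have h3 : fderiv ℝ (fun y => L.symm (F (x₁ + L y))) y = _ := h2.fderiv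
  rw [h3]
  exact ell_trace_conj L (fderiv ℝ F (x₁ + L y))

theorem ell_div_const_smul {F : W → W} {y : W} (c : ℝ) (hF : DifferentiableAt ℝ F y) :
    ellDiv (fun y => c • F y) y = c * ellDiv F y := by
  unfold ellDiv
  rw [fderiv_fun_const_smul hF, Finset.mul_sum]
  refine Finset.sum_congr rfl fun i _ => ?_
  rw [smul_apply, inner_smul_left]
  simp

variable [MeasurableSpace W] [BorelSpace W]

theorem ellTr_smul_left (t : ℝ) (A : W →L[ℝ] W) (H : W →L[ℝ] W →L[ℝ] ℝ) : ellTr (t • A) H = t * ellTr A H := by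
  simp [ellTr, Finset.mul_sum]

/-- the transformed problem. -/
theorem ell_cc_transform {A : W →L[ℝ] W} {x₁ : W} {ϱ τ : ℝ} {u : W → ℝ} {F : W → W} {g : W → ℝ}
    (S : W ≃L[ℝ] W) (hS : ∀ ξ η : W, ⟪S ξ, η⟫ = ⟪ξ, S η⟫) (hSA : ∀ ξ, S (S ξ) = A ξ) (hτ : 0 < τ)
    (hmap : ∀ y ∈ ball (0 : W) 1, x₁ + τ • S y ∈ ball x₁ ϱ)
    (hu : ContDiffOn ℝ ∞ u (ball x₁ ϱ)) (hF : ContDiffOn ℝ ∞ F (ball x₁ ϱ)) (hg : ContDiffOn ℝ ∞ g (ball x₁ ϱ))
    (heq : ∀ x ∈ ball x₁ ϱ, ellTr A (ellD2 u x) = ellDiv F x + g x) :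
    LapSm (ball 0 1) (fun y => u (x₁ + τ • S y)) (fun y => τ • S.symm (F (x₁ + τ • S y)))
      (fun y => τ ^ 2 * g (x₁ + τ • S y)) := by
  have hT : ContDiff ℝ ∞ (fun y : W => x₁ + τ • S y) :=
    contDiff_const.add (contDiff_const.smul (S : W →L[ℝ] W).contDiff)
  refine ⟨isOpen_ball, hu.comp hT.contDiffOn hmap, ?_, contDiffOn_const.mul (hg.comp hT.contDiffOn hmap), ?_⟩
  · exact contDiffOn_const.smul ((S.symm : W →L[ℝ] W).contDiff.comp_contDiffOn (hF.comp hT.contDiffOn hmap))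
  intro y hy
  set L : W →L[ℝ] W := τ • (S : W →L[ℝ] W) with hL
  have hLy : ∀ z, x₁ + L z = x₁ + τ • S z := fun z => rfl
  have hTy := hmap y hy
  have hadj : ContinuousLinearMap.adjoint (S : W →L[ℝ] W) = (S : W →L[ℝ] W) := by
    symm
    rw [ContinuousLinearMap.eq_adjoint_iff]
    exact hS
  have hLL : L ∘L ContinuousLinearMap.adjoint L = (τ ^ 2) • A := by
    rw [hL, map_smulₛₗ, hadj]
    ext ξ
    simp only [ContinuousLinearMap.comp_apply, smul_apply, ContinuousLinearEquiv.coe_coe, map_smul, conj_trivial,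
      hSA, smul_smul]
    congr 1
    ring
  have h1 := ell_lap_comp_affine isOpen_ball (hu.of_le (by norm_cast)) (x₁ := x₁) (y := y) L hTy
  have h1' : ellLap (fun y => u (x₁ + τ • S y)) y = τ ^ 2 * ellTr A (ellD2 u (x₁ + τ • S y)) := by
    rw [← ellTr_smul_left, ← hLL]
    exact h1
  rw [h1', heq _ hTy]
  have hFd : DifferentiableAt ℝ F (x₁ + τ • S y) :=
    (hF.contDiffAt (isOpen_ball.mem_nhds hTy)).differentiableAt (by simp)
  have h2 : HasFDerivAt (fun y => F (x₁ + τ • S y)) ((fderiv ℝ F (x₁ + τ • S y)).comp L) y :=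
    hFd.hasFDerivAt.comp y (ell_affine_hasFDerivAt x₁ L y)
  have h3 := ((S.symm : W →L[ℝ] W).hasFDerivAt.comp y h2).const_smul τ
  have h4 : fderiv ℝ (fun y => τ • S.symm (F (x₁ + τ • S y))) y = _ := h3.fderiv
  have h5 : ellDiv (fun y => τ • S.symm (F (x₁ + τ • S y))) y = τ ^ 2 * ellDiv F (x₁ + τ • S y) := by
    unfold ellDiv
    rw [h4, ← ell_trace_conj S (fderiv ℝ F (x₁ + τ • S y)), Finset.mul_sum]
    refine Finset.sum_congr rfl fun i _ => ?_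
    simp only [hL, smul_apply, ContinuousLinearMap.comp_apply, ContinuousLinearEquiv.coe_coe, map_smul,
      inner_smul_left, conj_trivial]
    ring
  rw [h5]
  ring

/-- **constant coefficients, smooth solutions**. -/
theorem ell_cc_smooth (W : Type u) [NormedAddCommGroup W] [InnerProductSpace ℝ W] [FiniteDimensional ℝ W]
    [MeasurableSpace W] [BorelSpace W] {α lam Lam : ℝ} (hα : 0 < α) (hα1 : α < 1) (hlam : 0 < lam)
    (hLam : lam ≤ Lam) :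
    ∃ C θ : ℝ, 0 ≤ C ∧ 0 < θ ∧ θ ≤ 1 / 2 ∧ ∀ (A : W →L[ℝ] W) (x₁ : W) (ϱ M : ℝ) (u : W → ℝ) (F : W → W)
      (g : W → ℝ), EllMat lam Lam A → 0 < ϱ → 0 ≤ M →
      ContDiffOn ℝ ∞ u (ball x₁ ϱ) → ContDiffOn ℝ ∞ F (ball x₁ ϱ) → ContDiffOn ℝ ∞ g (ball x₁ ϱ) →
      (∀ x ∈ ball x₁ ϱ, ellTr A (ellD2 u x) = ellDiv F x + g x) →
      BdOn M (ball x₁ ϱ) u → HolOn α (M / ϱ ^ (1 + α)) (ball x₁ ϱ) F → BdOn (M / ϱ ^ 2) (ball x₁ ϱ) g →
      BdOn (C * M / ϱ) (ball x₁ (θ * ϱ)) (fderiv ℝ u) ∧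
        HolOn α (C * M / ϱ ^ (1 + α)) (ball x₁ (θ * ϱ)) (fderiv ℝ u) := by
  obtain ⟨C₀, hC₀, hunit⟩ := ell_lapdiv_unit W hα hα1
  set a : ℝ := Real.sqrt lam with ha
  set b : ℝ := Real.sqrt Lam with hb
  have ha0 : 0 < a := Real.sqrt_pos.2 hlam
  have hab : a ≤ b := Real.sqrt_le_sqrt hLam
  have hb0 : 0 < b := lt_of_lt_of_le ha0 hab
  have hb2 : b ^ 2 = Lam := Real.sq_sqrt (hlam.le.trans hLam)
  set κ₀ : ℝ := 1 + 1 / (a * b) + 1 / b ^ 2 with hκ₀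
  have hκ₀pos : 0 < κ₀ := by positivity
  set q : ℝ := b / a with hq
  have hq1 : 1 ≤ q := by rw [hq, le_div_iff₀ ha0]; linarith
  refine ⟨C₀ * κ₀ * q ^ 2, a / (8 * b), by positivity, by positivity, ?_, ?_⟩
  · rw [div_le_iff₀ (by positivity)]; linarith
  intro A x₁ ϱ M u F g hA hϱ hM hu hF hg heq bu bF bg
  obtain ⟨S, hSs, hSA, hSlo, hShi⟩ := ell_exists_sqrt hlam hA
  set τ : ℝ := ϱ / b with hτ
  have hτ0 : 0 < τ := by positivity
  have hτb : τ * b = ϱ := by rw [hτ]; field_simp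
  have hSinv : ∀ k : W, ‖S.symm k‖ ≤ ‖k‖ / a := by
    intro k
    rw [le_div_iff₀ ha0, mul_comm]
    have := hSlo (S.symm k)
    rwa [S.apply_symm_apply] at this
  have hnT : ∀ y : W, ‖τ • S y‖ ≤ ϱ * ‖y‖ := by
    intro y
    rw [norm_smul, Real.norm_of_nonneg hτ0.le, ← hτb, mul_assoc]
    exact mul_le_mul_of_nonneg_left (hShi y) hτ0.le
  have hmap : ∀ y ∈ ball (0 : W) 1, x₁ + τ • S y ∈ ball x₁ ϱ := by
    intro y hy
    rw [mem_ball_zero_iff] at hy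
    rw [mem_ball, dist_eq_norm, add_sub_cancel_left]
    refine lt_of_le_of_lt (hnT y) ?_
    nlinarith
  have hLap := ell_cc_transform S hSs hSA hτ0 hmap hu hF hg heq
  set M' : ℝ := κ₀ * M with hM'
  have hM'0 : 0 ≤ M' := by positivity
  have hMM' : M ≤ M' := by
    rw [hM', hκ₀]
    have : 0 ≤ (1 / (a * b) + 1 / b ^ 2) * M := by positivity
    nlinarith
  have b1 : BdOn M' (ball 0 1) (fun y => u (x₁ + τ • S y)) := fun y hy => (bu _ (hmap y hy)).trans hMM'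
  have b2 : HolOn α M' (ball 0 1) (fun y => τ • S.symm (F (x₁ + τ • S y))) := by
    intro y hy y' hy'
    have h1 := bF _ (hmap y hy) _ (hmap y' hy')
    have e1 : x₁ + τ • S y - (x₁ + τ • S y') = τ • S (y - y') := by
      rw [map_sub, smul_sub]; abel
    rw [e1] at h1
    have h2 : ‖τ • S (y - y')‖ ^ α ≤ ϱ ^ α * ‖y - y'‖ ^ α := by
      rw [← Real.mul_rpow hϱ.le (norm_nonneg _)]
      exact Real.rpow_le_rpow (norm_nonneg _) (hnT _) hα.le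
    have hc : 0 ≤ M / ϱ ^ (1 + α) := by positivity
    have h3 : ‖F (x₁ + τ • S y) - F (x₁ + τ • S y')‖ ≤ M / ϱ * ‖y - y'‖ ^ α := by
      refine h1.trans ((mul_le_mul_of_nonneg_left h2 hc).trans (le_of_eq ?_))
      rw [Real.rpow_add hϱ, Real.rpow_one]
      have : ϱ ^ α ≠ 0 := (Real.rpow_pos_of_pos hϱ α).ne'
      field_simp
    rw [← smul_sub, ← map_sub, norm_smul, Real.norm_of_nonneg hτ0.le]
    have hp : 0 ≤ ‖y - y'‖ ^ α := by positivity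
    calc τ * ‖S.symm (F (x₁ + τ • S y) - F (x₁ + τ • S y'))‖
        ≤ τ * (‖F (x₁ + τ • S y) - F (x₁ + τ • S y')‖ / a) := mul_le_mul_of_nonneg_left (hSinv _) hτ0.le
      _ ≤ τ * ((M / ϱ * ‖y - y'‖ ^ α) / a) := by gcongr
      _ = (1 / (a * b) * M) * ‖y - y'‖ ^ α := by rw [hτ]; field_simp
      _ ≤ M' * ‖y - y'‖ ^ α := by
          apply mul_le_mul_of_nonneg_right _ hp
          rw [hM', hκ₀]
          have : 0 ≤ (1 + 1 / b ^ 2) * M := by positivity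
          nlinarith
  have b3 : BdOn M' (ball 0 1) (fun y => τ ^ 2 * g (x₁ + τ • S y)) := by
    intro y hy
    have h1 := bg _ (hmap y hy)
    rw [norm_mul, Real.norm_of_nonneg (by positivity)]
    calc τ ^ 2 * ‖g (x₁ + τ • S y)‖ ≤ τ ^ 2 * (M / ϱ ^ 2) := by gcongr
      _ = (1 / b ^ 2) * M := by rw [hτ]; field_simp
      _ ≤ M' := by
          rw [hM', hκ₀]
          have : 0 ≤ (1 + 1 / (a * b)) * M := by positivity
          nlinarith
  obtain ⟨B1, B2⟩ := hunit _ _ _ M' hLap hM'0 b1 b2 b3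
  -- back to `u`
  set p : ℝ := q / ϱ with hp
  have hp0 : 0 < p := by positivity
  set Y : W → W := fun x => τ⁻¹ • S.symm (x - x₁) with hY
  have hLinv : ∀ k : W, ‖τ⁻¹ • S.symm k‖ ≤ p * ‖k‖ := by
    intro k
    rw [norm_smul, Real.norm_of_nonneg (by positivity)]
    calc τ⁻¹ * ‖S.symm k‖ ≤ τ⁻¹ * (‖k‖ / a) := mul_le_mul_of_nonneg_left (hSinv k) (by positivity)
      _ = p * ‖k‖ := by rw [hp, hq, hτ]; field_simp
  have hTY : ∀ x, x₁ + τ • S (Y x) = x := by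
    intro x
    simp only [hY, map_smul, S.apply_symm_apply, smul_smul, mul_inv_cancel₀ hτ0.ne', one_smul]
    abel
  have hYmem : ∀ x ∈ ball x₁ (a / (8 * b) * ϱ), Y x ∈ ball (0 : W) (1 / 8) := by
    intro x hx
    rw [mem_ball, dist_eq_norm] at hx
    rw [mem_ball_zero_iff]
    refine lt_of_le_of_lt (hLinv _) ?_
    calc p * ‖x - x₁‖ < p * (a / (8 * b) * ϱ) := mul_lt_mul_of_pos_left hx hp0
      _ = 1 / 8 := by rw [hp, hq]; field_simp
  have hsub : ball x₁ (a / (8 * b) * ϱ) ⊆ ball x₁ ϱ := by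
    apply ball_subset_ball
    have : a / (8 * b) ≤ 1 := by rw [div_le_one (by positivity)]; linarith
    nlinarith
  set L : W →L[ℝ] W := τ • (S : W →L[ℝ] W) with hL
  have hDu : ∀ x ∈ ball x₁ (a / (8 * b) * ϱ), ∀ k : W,
      fderiv ℝ u x k = fderiv ℝ (fun y => u (x₁ + τ • S y)) (Y x) (τ⁻¹ • S.symm k) := by
    intro x hx k
    have hd : DifferentiableAt ℝ u (x₁ + L (Y x)) := by
      have e : x₁ + L (Y x) = x := hTY x
      rw [e]
      exact (hu.contDiffAt (isOpen_ball.mem_nhds (hsub hx))).differentiableAt (by simp)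
    have h1 := ell_fderiv_comp_affine L hd
    have h2 : fderiv ℝ (fun y => u (x₁ + τ • S y)) (Y x) = (fderiv ℝ u (x₁ + L (Y x))).comp L := h1
    rw [h2]
    have e : x₁ + L (Y x) = x := hTY x
    rw [e]
    simp only [ContinuousLinearMap.comp_apply, hL, smul_apply, ContinuousLinearEquiv.coe_coe, map_smul,
      S.apply_symm_apply, smul_smul, inv_mul_cancel₀ hτ0.ne', one_smul]
  constructor
  · intro x hx
    refine ContinuousLinearMap.opNorm_le_bound _ (by positivity) fun k => ?_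
    rw [hDu x hx k]
    have h1 := B1 _ (hYmem x hx)
    calc ‖fderiv ℝ (fun y => u (x₁ + τ • S y)) (Y x) (τ⁻¹ • S.symm k)‖
        ≤ ‖fderiv ℝ (fun y => u (x₁ + τ • S y)) (Y x)‖ * ‖τ⁻¹ • S.symm k‖ := ContinuousLinearMap.le_opNorm _ _
      _ ≤ (C₀ * M') * (p * ‖k‖) := mul_le_mul h1 (hLinv k) (norm_nonneg _) (by positivity)
      _ = (C₀ * κ₀ * q * M / ϱ) * ‖k‖ := by rw [hM', hp]; ring
      _ ≤ (C₀ * κ₀ * q ^ 2 * M / ϱ) * ‖k‖ := by
          apply mul_le_mul_of_nonneg_right _ (norm_nonneg _)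
          apply div_le_div_of_nonneg_right _ hϱ.le
          apply mul_le_mul_of_nonneg_right _ hM
          apply mul_le_mul_of_nonneg_left _ (by positivity)
          nlinarith
  · intro x hx x' hx'
    refine ContinuousLinearMap.opNorm_le_bound _ (by positivity) fun k => ?_
    rw [sub_apply, hDu x hx k, hDu x' hx' k, ← sub_apply]
    have h1 := B2 _ (hYmem x hx) _ (hYmem x' hx')
    have e1 : Y x - Y x' = τ⁻¹ • S.symm (x - x') := by
      simp only [hY]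
      rw [← smul_sub, ← map_sub]
      congr 2
      abel
    have h2 : ‖Y x - Y x'‖ ^ α ≤ p ^ α * ‖x - x'‖ ^ α := by
      rw [e1, ← Real.mul_rpow hp0.le (norm_nonneg _)]
      exact Real.rpow_le_rpow (norm_nonneg _) (hLinv _) hα.le
    have hxx : 0 ≤ ‖x - x'‖ ^ α := by positivity
    have h3 : p ^ α * p ≤ q ^ 2 / ϱ ^ (1 + α) := by
      have e2 : p ^ α * p = p ^ (1 + α) := by
        rw [Real.rpow_add hp0, Real.rpow_one, mul_comm]
      rw [e2, hp, Real.div_rpow (by positivity) hϱ.le]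
      apply div_le_div_of_nonneg_right _ (by positivity)
      calc q ^ (1 + α) ≤ q ^ (2 : ℝ) := Real.rpow_le_rpow_of_exponent_le hq1 (by linarith)
        _ = q ^ 2 := Real.rpow_two q
    calc ‖(fderiv ℝ (fun y => u (x₁ + τ • S y)) (Y x) - fderiv ℝ (fun y => u (x₁ + τ • S y)) (Y x')) (τ⁻¹ • S.symm k)‖
        ≤ ‖fderiv ℝ (fun y => u (x₁ + τ • S y)) (Y x) - fderiv ℝ (fun y => u (x₁ + τ • S y)) (Y x')‖
            * ‖τ⁻¹ • S.symm k‖ := ContinuousLinearMap.le_opNorm _ _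
      _ ≤ (C₀ * M' * ‖Y x - Y x'‖ ^ α) * (p * ‖k‖) := mul_le_mul h1 (hLinv k) (norm_nonneg _) (by positivity)
      _ ≤ (C₀ * M' * (p ^ α * ‖x - x'‖ ^ α)) * (p * ‖k‖) := by gcongr
      _ = (C₀ * M') * (p ^ α * p) * ‖x - x'‖ ^ α * ‖k‖ := by ring
      _ ≤ (C₀ * M') * (q ^ 2 / ϱ ^ (1 + α)) * ‖x - x'‖ ^ α * ‖k‖ := by gcongr
      _ = C₀ * κ₀ * q ^ 2 * M / ϱ ^ (1 + α) * ‖x - x'‖ ^ α * ‖k‖ := by rw [hM']; ring

/-- **constant coefficients, weak `C¹` solutions of `div(A∇u) = div F + g`**. -/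
theorem ell_cc_weak (W : Type u) [NormedAddCommGroup W] [InnerProductSpace ℝ W] [FiniteDimensional ℝ W]
    [MeasurableSpace W] [BorelSpace W] {α lam Lam : ℝ} (hα : 0 < α) (hα1 : α < 1) (hlam : 0 < lam)
    (hLam : lam ≤ Lam) :
    ∃ C θ : ℝ, 0 ≤ C ∧ 0 < θ ∧ θ ≤ 1 / 2 ∧ ∀ (A : W →L[ℝ] W) (x₁ : W) (ϱ M : ℝ) (u : W → ℝ) (F : W → W)
      (g : W → ℝ), EllMat lam Lam A → 0 < ϱ → 0 ≤ M →
      ContDiffOn ℝ 1 u (ball x₁ ϱ) → ContinuousOn g (ball x₁ ϱ) →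
      WeakDiv (ball x₁ ϱ) (fun _ => A) 0 0 u F g →
      BdOn M (ball x₁ ϱ) u → HolOn α (M / ϱ ^ (1 + α)) (ball x₁ ϱ) F → BdOn (M / ϱ ^ 2) (ball x₁ ϱ) g →
      BdOn (C * M / ϱ) (ball x₁ (θ * ϱ)) (fderiv ℝ u) ∧
        HolOn α (C * M / ϱ ^ (1 + α)) (ball x₁ (θ * ϱ)) (fderiv ℝ u) := by
  obtain ⟨C₁, θ₁, hC₁, hθ₁, hθ₁', hsm⟩ := ell_cc_smooth W hα hα1 hlam hLam
  refine ⟨4 * C₁, θ₁ / 2, by positivity, by positivity, by linarith, ?_⟩
  intro A x₁ ϱ M u F g hA hϱ hM hu hg hw bu bF bg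
  have hU : IsOpen (ball x₁ ϱ) := isOpen_ball
  have hFc : ContinuousOn F (ball x₁ ϱ) := bF.continuousOn hα
  have hϱ2 : 0 < ϱ / 2 := by positivity
  have hθball : ball x₁ (θ₁ / 2 * ϱ) = ball x₁ (θ₁ * (ϱ / 2)) := by congr 1; ring
  have hsubU : ball x₁ (θ₁ / 2 * ϱ) ⊆ ball x₁ ϱ := by
    apply ball_subset_ball
    nlinarith
  -- the estimate for the mollified solutions
  have key : ∀ ε : ℝ, 0 < ε → ε < ϱ / 2 →
      BdOn (4 * C₁ * M / ϱ) (ball x₁ (θ₁ / 2 * ϱ)) (fderiv ℝ (ellMol ellRho ε u)) ∧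
        HolOn α (4 * C₁ * M / ϱ ^ (1 + α)) (ball x₁ (θ₁ / 2 * ϱ)) (fderiv ℝ (ellMol ellRho ε u)) := by
    intro ε hε hε2
    have hV : ∀ x ∈ ball x₁ (ϱ / 2), closedBall x ε ⊆ ball x₁ ϱ := by
      intro x hx z hz
      rw [mem_ball] at hx ⊢
      rw [mem_closedBall] at hz
      have := dist_triangle z x x₁
      linarith
    have s1 : ContDiffOn ℝ ∞ (ellMol ellRho ε u) (ball x₁ (ϱ / 2)) :=
      (ell_mol_contDiffOn ellRho_isKer hU hu.continuousOn hε).mono hV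
    have s2 : ContDiffOn ℝ ∞ (ellMolV ellRho ε F) (ball x₁ (ϱ / 2)) :=
      (ell_molV_contDiffOn ellRho_isKer hU hFc hε).mono hV
    have s3 : ContDiffOn ℝ ∞ (ellMol ellRho ε g) (ball x₁ (ϱ / 2)) :=
      (ell_mol_contDiffOn ellRho_isKer hU hg hε).mono hV
    have e1 : ∀ x ∈ ball x₁ (ϱ / 2), ellTr A (ellD2 (ellMol ellRho ε u) x)
        = ellDiv (ellMolV ellRho ε F) x + ellMol ellRho ε g x :=
      fun x hx => ell_weak_mol hA.1 hU hu hFc hg hw hε (hV x hx)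
    have c1 : BdOn M (ball x₁ (ϱ / 2)) (ellMol ellRho ε u) := by
      have := ell_mol_bdOn ellRho_isKer hε.le hV hu.continuousOn bu
      rwa [ellRho_kerL1, one_mul] at this
    have hpow : (ϱ / 2) ^ (1 + α) ≤ ϱ ^ (1 + α) :=
      Real.rpow_le_rpow hϱ2.le (by linarith) (by linarith)
    have c2 : HolOn α (M / (ϱ / 2) ^ (1 + α)) (ball x₁ (ϱ / 2)) (ellMolV ellRho ε F) := by
      have := ell_molV_holOn ellRho_isKer hε.le hV hFc bF
      rw [ellRho_kerL1, one_mul] at this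
      exact this.mono subset_rfl (div_le_div_of_nonneg_left hM (by positivity) hpow)
    have c3 : BdOn (M / (ϱ / 2) ^ 2) (ball x₁ (ϱ / 2)) (ellMol ellRho ε g) := by
      have := ell_mol_bdOn ellRho_isKer hε.le hV hg bg
      rw [ellRho_kerL1, one_mul] at this
      refine this.mono subset_rfl (div_le_div_of_nonneg_left hM (by positivity) ?_)
      nlinarith
    obtain ⟨r1, r2⟩ := hsm A x₁ (ϱ / 2) M _ _ _ hA hϱ2 hM s1 s2 s3 e1 c1 c2 c3
    rw [hθball]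
    constructor
    · refine r1.mono subset_rfl (le_of_eq_of_le ?_ ?_ (b := 2 * C₁ * M / ϱ))
      · field_simp
      · apply div_le_div_of_nonneg_right _ hϱ.le
        have : 0 ≤ C₁ * M := by positivity
        nlinarith
    · refine r2.mono subset_rfl ?_
      have h2 : (ϱ / 2) ^ (1 + α) = ϱ ^ (1 + α) / 2 ^ (1 + α) := Real.div_rpow hϱ.le (by norm_num) _
      have h3 : (2 : ℝ) ^ (1 + α) ≤ 4 := by
        calc (2 : ℝ) ^ (1 + α) ≤ 2 ^ (2 : ℝ) := Real.rpow_le_rpow_of_exponent_le (by norm_num) (by linarith)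
          _ = 4 := by rw [Real.rpow_two]; norm_num
      rw [h2, div_div_eq_mul_div]
      apply div_le_div_of_nonneg_right _ (by positivity)
      have : 0 ≤ C₁ * M := by positivity
      nlinarith
  have hev : ∀ᶠ ε in 𝓝[>] (0 : ℝ), 0 < ε ∧ ε < ϱ / 2 := Ioo_mem_nhdsGT hϱ2
  have hlim : ∀ x ∈ ball x₁ (θ₁ / 2 * ϱ),
      Tendsto (fun ε => fderiv ℝ (ellMol ellRho ε u) x) (𝓝[>] 0) (𝓝 (fderiv ℝ u x)) :=
    fun x hx => ell_mol_fderiv_tendsto hU hu (hsubU hx)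
  exact ⟨BdOn.of_tendsto (hev.mono fun ε h => (key ε h.1 h.2).1) hlim,
    HolOn.of_tendsto (hev.mono fun ε h => (key ε h.1 h.2).2) hlim⟩

end Claimed.Agent.Lib.Ell
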