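/-
Lib/Ell, package L-ell-interp (architect helper232): interpolation inequalities, the least Hoelder constant `holSemi`, the iteration
lemma, limits of `C^{1,α}`-bounded sequences.   Mathlib + Basic only; no measure theory.
All interpolation inequalities are "interior": the function lives on `U`, the point `x` satisfies `closedBall x ε ⊆ U`.
-/
import Claimed.Agent.Lib.Ell.Basic

set_option autoImplicit false

namespace Claimed.Agent.Lib.Ell

open Metric Filter
open scoped ContDiff RealInnerProductSpace Gradient Topology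

universe u v

variable {W : Type u} [NormedAddCommGroup W] [InnerProductSpace ℝ W] [FiniteDimensional ℝ W]

/-! ### interpolation -/

/-- Taylor estimate of order `1 + α` along a segment contained in an open set. -/
theorem ell_taylor_seg {V : Type v} [NormedAddCommGroup V] [NormedSpace ℝ V] {U : Set W} (hU : IsOpen U)
    {w : W → V} {α K : ℝ} (hα : 0 < α) (hw : DifferentiableOn ℝ w U)
    (hK : HolOn α K U (fderiv ℝ w)) {x y : W} (hseg : segment ℝ x y ⊆ U) :
    ‖w y - w x - fderiv ℝ w x (y - x)‖ ≤ K * ‖y - x‖ ^ (1 + α) := by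
  have hx : x ∈ U := hseg (left_mem_segment ℝ x y)
  have hy : y ∈ U := hseg (right_mem_segment ℝ x y)
  by_cases hxy : x = y
  · subst hxy
    simp only [sub_self, map_zero, norm_zero]
    rw [Real.zero_rpow (by linarith), mul_zero]
  have hpos : 0 < ‖y - x‖ := norm_pos_iff.2 (sub_ne_zero.2 (Ne.symm hxy))
  have hK0 : 0 ≤ K := by
    have h1 := hK y hy x hx
    have h2 : 0 < ‖y - x‖ ^ α := Real.rpow_pos_of_pos hpos _
    by_contra hneg
    push Not at hneg
    have : K * ‖y - x‖ ^ α < 0 := mul_neg_of_neg_of_pos hneg h2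
    linarith [norm_nonneg (fderiv ℝ w y - fderiv ℝ w x)]
  have hmv := Convex.norm_image_sub_le_of_norm_hasFDerivWithin_le (𝕜 := ℝ)
    (f := fun z => w z - fderiv ℝ w x z) (f' := fun z => fderiv ℝ w z - fderiv ℝ w x)
    (s := segment ℝ x y) (C := K * ‖y - x‖ ^ α) (x := x) (y := y)
    (by
      intro z hz
      have h1 : HasFDerivAt w (fderiv ℝ w z) z :=
        ((hw z (hseg hz)).differentiableAt (hU.mem_nhds (hseg hz))).hasFDerivAt
      exact (h1.sub (fderiv ℝ w x).hasFDerivAt).hasFDerivWithinAt)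
    (by
      intro z hz
      refine (hK z (hseg hz) x hx).trans ?_
      refine mul_le_mul_of_nonneg_left ?_ hK0
      refine Real.rpow_le_rpow (norm_nonneg _) ?_ hα.le
      obtain ⟨a, b, ha, hb, hab, rfl⟩ := hz
      have e : a • x + b • y - x = b • (y - x) := by
        have : a = 1 - b := by linarith
        subst this
        module
      rw [e, norm_smul, Real.norm_eq_abs, abs_of_nonneg hb]
      have : b ≤ 1 := by linarith
      nlinarith [norm_nonneg (y - x)])
    (convex_segment x y) (left_mem_segment ℝ x y) (right_mem_segment ℝ x y)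
  have e1 : w y - fderiv ℝ w x y - (w x - fderiv ℝ w x x) = w y - w x - fderiv ℝ w x (y - x) := by
    rw [map_sub]; abel
  rw [e1] at hmv
  refine hmv.trans (le_of_eq ?_)
  rw [add_comm 1 α, Real.rpow_add hpos, Real.rpow_one, mul_assoc]

/-- a linear map bounded by `C` on the sphere of radius `ε` has norm `≤ C / ε`. -/
theorem ell_opNorm_le_of_sphere {V : Type v} [NormedAddCommGroup V] [NormedSpace ℝ V] {L : W →L[ℝ] V}
    {ε C : ℝ} (hε : 0 < ε) (hC : 0 ≤ C) (h : ∀ k : W, ‖k‖ = ε → ‖L k‖ ≤ C) : ‖L‖ ≤ C / ε := by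
  refine ContinuousLinearMap.opNorm_le_bound _ (by positivity) ?_
  intro w
  by_cases hw : w = 0
  · subst hw; simp
  have hn : 0 < ‖w‖ := norm_pos_iff.2 hw
  have hkn : ‖(ε / ‖w‖) • w‖ = ε := by
    rw [norm_smul, Real.norm_eq_abs, abs_of_pos (by positivity)]
    field_simp
  have h1 := h _ hkn
  rw [map_smul, norm_smul, Real.norm_eq_abs, abs_of_pos (by positivity)] at h1
  have h2 : ‖L w‖ = ‖w‖ / ε * (ε / ‖w‖ * ‖L w‖) := by field_simp
  rw [h2]
  calc ‖w‖ / ε * (ε / ‖w‖ * ‖L w‖) ≤ ‖w‖ / ε * C := mul_le_mul_of_nonneg_left h1 (by positivity)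
    _ = C / ε * ‖w‖ := by ring

/-- a quadratic form bounded by `C` on the sphere of radius `ε`. -/
theorem ell_quad_le_of_sphere {H : W →L[ℝ] W →L[ℝ] ℝ}
    {ε C : ℝ} (hε : 0 < ε) (h : ∀ k : W, ‖k‖ = ε → |H k k| ≤ C) (w : W) :
    |H w w| ≤ C / ε ^ 2 * ‖w‖ ^ 2 := by
  by_cases hw : w = 0
  · subst hw; simp
  have hn : 0 < ‖w‖ := norm_pos_iff.2 hw
  have hkn : ‖(ε / ‖w‖) • w‖ = ε := by
    rw [norm_smul, Real.norm_eq_abs, abs_of_pos (by positivity)]
    field_simp
  have h1 := h _ hkn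
  simp only [map_smul, smul_apply, smul_eq_mul] at h1
  rw [← mul_assoc, abs_mul, abs_of_pos (by positivity)] at h1
  have h2 : |H w w| = (‖w‖ / ε) ^ 2 * (ε / ‖w‖ * (ε / ‖w‖) * |H w w|) := by field_simp
  rw [h2]
  calc (‖w‖ / ε) ^ 2 * (ε / ‖w‖ * (ε / ‖w‖) * |H w w|) ≤ (‖w‖ / ε) ^ 2 * C :=
        mul_le_mul_of_nonneg_left h1 (by positivity)
    _ = C / ε ^ 2 * ‖w‖ ^ 2 := by rw [div_pow]; ring

/-- derivative along a line. -/
theorem ell_line_deriv {V : Type v} [NormedAddCommGroup V] [NormedSpace ℝ V] {U : Set W} (hU : IsOpen U)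
    {u : W → V} (hu : DifferentiableOn ℝ u U) {x k : W} {t : ℝ} (h : x + t • k ∈ U) :
    HasDerivAt (fun τ : ℝ => u (x + τ • k)) (fderiv ℝ u (x + t • k) k) t := by
  have h1 : HasFDerivAt u (fderiv ℝ u (x + t • k)) (x + t • k) :=
    ((hu _ h).differentiableAt (hU.mem_nhds h)).hasFDerivAt
  have h2 : HasDerivAt (fun τ : ℝ => x + τ • k) k t := by
    simpa using ((hasDerivAt_id t).smul_const k).const_add x
  exact h1.comp_hasDerivAt t h2

/-- second derivative along a line. -/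
theorem ell_line_deriv2 {U : Set W} (hU : IsOpen U) {u : W → ℝ} (hu : ContDiffOn ℝ 2 u U) {x k : W} {t : ℝ}
    (h : x + t • k ∈ U) :
    HasDerivAt (fun τ : ℝ => fderiv ℝ u (x + τ • k) k) (ellD2 u (x + t • k) k k) t := by
  have hd : DifferentiableOn ℝ (fderiv ℝ u) U :=
    (hu.fderiv_of_isOpen hU (m := 1) (by norm_num)).differentiableOn (by simp)
  have h1 := ell_line_deriv hU hd h
  have h2 := h1.clm_apply (hasDerivAt_const t k)
  simpa [ellD2] using h2

/-- second order Taylor estimate in one variable. -/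
theorem ell_second_order_1d {f f' f'' : ℝ → ℝ} {c E : ℝ}
    (h1 : ∀ t ∈ Set.Icc (0 : ℝ) 1, HasDerivAt f (f' t) t)
    (h2 : ∀ t ∈ Set.Icc (0 : ℝ) 1, HasDerivAt f' (f'' t) t)
    (hb : ∀ t ∈ Set.Icc (0 : ℝ) 1, |f'' t - c| ≤ E) :
    |f 1 - f 0 - f' 0 - c / 2| ≤ E / 2 := by
  have hχ : ∀ t ∈ Set.Icc (0 : ℝ) 1, |f' t - f' 0 - c * t| ≤ E * t := by
    intro t ht
    have := Convex.norm_image_sub_le_of_norm_hasDerivWithin_le (f := fun τ => f' τ - c * τ)
      (f' := fun τ => f'' τ - c) (s := Set.Icc (0 : ℝ) 1) (C := E)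
      (fun τ hτ => by
        have h3 : HasDerivAt (fun τ => f' τ - c * τ) (f'' τ - c * 1) τ :=
          (h2 τ hτ).sub ((hasDerivAt_id' τ).const_mul c)
        exact (h3.congr_deriv (by ring)).hasDerivWithinAt)
      (fun τ hτ => by simpa using hb τ hτ) (convex_Icc 0 1) (x := 0) (y := t)
      ⟨le_rfl, zero_le_one⟩ ht
    simp only [mul_zero, sub_zero, Real.norm_eq_abs, abs_of_nonneg ht.1] at this
    have e : f' t - f' 0 - c * t = f' t - c * t - f' 0 := by ring
    rw [e]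
    exact this
  have hΨ : ∀ t ∈ Set.Icc (0 : ℝ) 1, HasDerivAt (fun t => f t - f 0 - f' 0 * t - c * t ^ 2 / 2)
      (f' t - f' 0 - c * t) t := by
    intro t ht
    have a1 : HasDerivAt (fun t => f t - f 0 - f' 0 * t) (f' t - f' 0 * 1) t :=
      ((h1 t ht).sub_const (f 0)).sub ((hasDerivAt_id' t).const_mul (f' 0))
    have a2 : HasDerivAt (fun t : ℝ => c * t ^ 2 / 2) (c * ((2 : ℕ) * t ^ (2 - 1)) / 2) t :=
      ((hasDerivAt_pow 2 t).const_mul c).div_const 2
    have a3 : HasDerivAt (fun t => f t - f 0 - f' 0 * t - c * t ^ 2 / 2)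
        (f' t - f' 0 * 1 - c * ((2 : ℕ) * t ^ (2 - 1)) / 2) t := a1.sub a2
    exact a3.congr_deriv (by norm_num; ring)
  have key := ell_ftc_pow (Ψ := fun t => f t - f 0 - f' 0 * t - c * t ^ 2 / 2)
    (Ψ' := fun t => f' t - f' 0 - c * t) (s := 1) (α := 2) (B := E) (L := 0) one_pos two_pos
    (fun σ hσ => hΨ σ ⟨hσ.1.le, hσ.2⟩)
    (fun σ hσ => by
      have := hχ σ ⟨hσ.1.le, hσ.2⟩
      have e : σ ^ ((2 : ℝ) - 1) = σ := by norm_num
      rw [e]
      exact this)
    (by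
      have hc : ContinuousAt (fun t => f t - f 0 - f' 0 * t - c * t ^ 2 / 2) 0 :=
        (hΨ 0 ⟨le_rfl, zero_le_one⟩).continuousAt
      have h0 : Tendsto (fun t => f t - f 0 - f' 0 * t - c * t ^ 2 / 2) (𝓝 0) (𝓝 0) := by
        simpa using hc.tendsto
      exact h0.mono_left nhdsWithin_le_nhds)
  simp only [mul_one, one_pow, sub_zero, Real.one_rpow] at key
  exact key

/-- `|Du(x)| ≤ 2 sup|u| / ε + ε^α [Du]_α`  (mean value theorem on `[x, x + ε h]`). -/
theorem ell_interp_c1a {V : Type v} [NormedAddCommGroup V] [NormedSpace ℝ V] {U : Set W} (hU : IsOpen U)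
    {u : W → V} {x : W} {ε α M Z : ℝ}
    (hε : 0 < ε) (hα : 0 < α) (hx : closedBall x ε ⊆ U) (hu : DifferentiableOn ℝ u U) (hM : BdOn M U u)
    (hZ0 : 0 ≤ Z) (hZ : HolOn α Z U (fderiv ℝ u)) : ‖fderiv ℝ u x‖ ≤ 2 * M / ε + ε ^ α * Z := by
  have hxU : x ∈ U := hx (mem_closedBall_self hε.le)
  have hM0 : 0 ≤ M := (norm_nonneg _).trans (hM x hxU)
  have key := ell_opNorm_le_of_sphere (L := fderiv ℝ u x) (C := 2 * M + Z * ε ^ (1 + α)) hε
    (by positivity) (by
      intro k hkn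
      have hxk : x + k ∈ closedBall x ε := by
        rw [mem_closedBall, dist_eq_norm]; simp [hkn]
      have hseg : segment ℝ x (x + k) ⊆ U :=
        ((convex_closedBall x ε).segment_subset (mem_closedBall_self hε.le) hxk).trans hx
      have ht := ell_taylor_seg hU hα hu hZ hseg
      rw [add_sub_cancel_left, hkn] at ht
      have h2 : ‖u (x + k) - u x‖ ≤ 2 * M := by
        calc ‖u (x + k) - u x‖ ≤ ‖u (x + k)‖ + ‖u x‖ := norm_sub_le _ _
          _ ≤ M + M := add_le_add (hM _ (hx hxk)) (hM _ hxU)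
          _ = 2 * M := by ring
      have e : fderiv ℝ u x k = (u (x + k) - u x) - (u (x + k) - u x - fderiv ℝ u x k) := by abel
      rw [e]
      exact (norm_sub_le _ _).trans (add_le_add h2 ht))
  refine key.trans (le_of_eq ?_)
  rw [add_comm 1 α, Real.rpow_add hε, Real.rpow_one]
  field_simp

/-- `|Du(x)| ≤ 2 sup|u| / ε + (ε/2) sup|D²u|`. -/
theorem ell_interp_c2 {U : Set W} (hU : IsOpen U) {u : W → ℝ} {x : W} {ε M D : ℝ}
    (hε : 0 < ε) (hx : closedBall x ε ⊆ U) (hu : ContDiffOn ℝ 2 u U) (hM : BdOn M U u)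
    (hD : BdOn D U (ellD2 u)) : ‖fderiv ℝ u x‖ ≤ 2 * M / ε + ε / 2 * D := by
  have hxU : x ∈ U := hx (mem_closedBall_self hε.le)
  have hM0 : 0 ≤ M := (norm_nonneg _).trans (hM x hxU)
  have hD0 : 0 ≤ D := le_trans (norm_nonneg (ellD2 u x)) (hD x hxU)
  have hdu : DifferentiableOn ℝ u U := hu.differentiableOn (by norm_num)
  have key := ell_opNorm_le_of_sphere (L := fderiv ℝ u x) (C := 2 * M + D * ε ^ 2 / 2) hε
    (by positivity) (by
      intro k hkn
      have hmem : ∀ t ∈ Set.Icc (0 : ℝ) 1, x + t • k ∈ U := by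
        intro t ht
        apply hx
        rw [mem_closedBall, dist_eq_norm, add_sub_cancel_left, norm_smul, hkn, Real.norm_eq_abs,
          abs_of_nonneg ht.1]
        nlinarith [ht.2]
      have h1 := ell_second_order_1d (f := fun t => u (x + t • k))
        (f' := fun t => fderiv ℝ u (x + t • k) k) (f'' := fun t => ellD2 u (x + t • k) k k)
        (c := 0) (E := D * ε ^ 2)
        (fun t ht => ell_line_deriv hU hdu (hmem t ht))
        (fun t ht => ell_line_deriv2 hU hu (hmem t ht))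
        (by
          intro t ht
          rw [sub_zero, ← Real.norm_eq_abs]
          calc ‖ellD2 u (x + t • k) k k‖ ≤ ‖ellD2 u (x + t • k) k‖ * ‖k‖ :=
                ContinuousLinearMap.le_opNorm _ _
            _ ≤ ‖ellD2 u (x + t • k)‖ * ‖k‖ * ‖k‖ :=
                mul_le_mul_of_nonneg_right (ContinuousLinearMap.le_opNorm _ _) (norm_nonneg _)
            _ ≤ D * ‖k‖ * ‖k‖ := by
                have := hD _ (hmem t ht)
                gcongr
            _ = D * ε ^ 2 := by rw [hkn]; ring)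
      simp only [one_smul, zero_smul, add_zero, zero_div, sub_zero] at h1
      have hxk : x + k ∈ U := by simpa using hmem 1 ⟨zero_le_one, le_rfl⟩
      have h2 : |u (x + k) - u x| ≤ 2 * M := by
        have a1 := hM _ hxk
        have a2 := hM _ hxU
        rw [Real.norm_eq_abs] at a1 a2
        calc |u (x + k) - u x| ≤ |u (x + k)| + |u x| := abs_sub _ _
          _ ≤ 2 * M := by linarith
      rw [Real.norm_eq_abs]
      have e : fderiv ℝ u x k = (u (x + k) - u x) - (u (x + k) - u x - fderiv ℝ u x k) := by ring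
      rw [e]
      exact (abs_sub _ _).trans (add_le_add h2 h1))
  refine key.trans (le_of_eq ?_)
  field_simp

/-- `|D²u(x)| ≤ 8 sup|u| / ε² + 2 ε^α [D²u]_α`  (second difference `u(x+εh) + u(x-εh) - 2u(x) = ε² D²u(ξ)(h,h)`,
then `ell_norm_d2_le_of_quadratic`). -/
theorem ell_interp_c2a {U : Set W} (hU : IsOpen U) {u : W → ℝ} {x : W} {ε α M Z : ℝ}
    (hε : 0 < ε) (hα : 0 < α) (hx : closedBall x ε ⊆ U) (hu : ContDiffOn ℝ 2 u U) (hM : BdOn M U u)
    (hZ0 : 0 ≤ Z) (hZ : HolOn α Z U (ellD2 u)) : ‖ellD2 u x‖ ≤ 8 * M / ε ^ 2 + 2 * ε ^ α * Z := by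
  have hxU : x ∈ U := hx (mem_closedBall_self hε.le)
  have hM0 : 0 ≤ M := (norm_nonneg _).trans (hM x hxU)
  have hdu : DifferentiableOn ℝ u U := hu.differentiableOn (by norm_num)
  have hεα : 0 < ε ^ α := Real.rpow_pos_of_pos hε _
  have hq : ∀ k : W, ‖k‖ = ε → |ellD2 u x k k| ≤ 4 * M + Z * ε ^ α * ε ^ 2 := by
    intro k hkn
    have hmem : ∀ (k' : W), ‖k'‖ = ε → ∀ t ∈ Set.Icc (0 : ℝ) 1, x + t • k' ∈ U := by
      intro k' hk' t ht
      apply hx
      rw [mem_closedBall, dist_eq_norm, add_sub_cancel_left, norm_smul, hk', Real.norm_eq_abs,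
        abs_of_nonneg ht.1]
      nlinarith [ht.2]
    have hnk : ‖-k‖ = ε := by rw [norm_neg, hkn]
    have hest : ∀ (k' : W), ‖k'‖ = ε → ∀ t ∈ Set.Icc (0 : ℝ) 1,
        |ellD2 u (x + t • k') k' k' - ellD2 u x k' k'| ≤ Z * ε ^ α * ε ^ 2 := by
      intro k' hk' t ht
      have a1 := hZ _ (hmem k' hk' t ht) _ hxU
      rw [add_sub_cancel_left, norm_smul, hk', Real.norm_eq_abs, abs_of_nonneg ht.1] at a1
      have a2 : (t * ε) ^ α ≤ ε ^ α :=
        Real.rpow_le_rpow (mul_nonneg ht.1 hε.le) (by nlinarith [ht.2]) hα.le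
      have a3 : ‖ellD2 u (x + t • k') - ellD2 u x‖ ≤ Z * ε ^ α :=
        a1.trans (mul_le_mul_of_nonneg_left a2 hZ0)
      have e : ellD2 u (x + t • k') k' k' - ellD2 u x k' k' = (ellD2 u (x + t • k') - ellD2 u x) k' k' := by
        simp
      rw [e, ← Real.norm_eq_abs]
      calc ‖(ellD2 u (x + t • k') - ellD2 u x) k' k'‖
          ≤ ‖(ellD2 u (x + t • k') - ellD2 u x) k'‖ * ‖k'‖ := ContinuousLinearMap.le_opNorm _ _
        _ ≤ ‖ellD2 u (x + t • k') - ellD2 u x‖ * ‖k'‖ * ‖k'‖ :=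
            mul_le_mul_of_nonneg_right (ContinuousLinearMap.le_opNorm _ _) (norm_nonneg _)
        _ ≤ Z * ε ^ α * ‖k'‖ * ‖k'‖ := by gcongr
        _ = Z * ε ^ α * ε ^ 2 := by rw [hk']; ring
    have h1 := ell_second_order_1d (f := fun t => u (x + t • k) + u (x + t • (-k)))
      (f' := fun t => fderiv ℝ u (x + t • k) k + fderiv ℝ u (x + t • (-k)) (-k))
      (f'' := fun t => ellD2 u (x + t • k) k k + ellD2 u (x + t • (-k)) (-k) (-k))
      (c := 2 * ellD2 u x k k) (E := 2 * (Z * ε ^ α * ε ^ 2))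
      (fun t ht => (ell_line_deriv hU hdu (hmem k hkn t ht)).add
        (ell_line_deriv hU hdu (hmem (-k) hnk t ht)))
      (fun t ht => (ell_line_deriv2 hU hu (hmem k hkn t ht)).add
        (ell_line_deriv2 hU hu (hmem (-k) hnk t ht)))
      (by
        intro t ht
        have b1 := hest k hkn t ht
        have b2 := hest (-k) hnk t ht
        have e0 : ellD2 u x (-k) (-k) = ellD2 u x k k := by simp
        rw [e0] at b2
        have e : ellD2 u (x + t • k) k k + ellD2 u (x + t • (-k)) (-k) (-k) - 2 * ellD2 u x k k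
            = (ellD2 u (x + t • k) k k - ellD2 u x k k)
              + (ellD2 u (x + t • (-k)) (-k) (-k) - ellD2 u x k k) := by ring
        rw [e]
        exact (abs_add_le _ _).trans (by linarith))
    simp only [one_smul, zero_smul, add_zero, map_neg, add_neg_cancel, sub_zero] at h1
    have hxk : x + k ∈ U := by simpa using hmem k hkn 1 ⟨zero_le_one, le_rfl⟩
    have hxk' : x + -k ∈ U := by simpa using hmem (-k) hnk 1 ⟨zero_le_one, le_rfl⟩
    have a1 := hM _ hxk
    have a2 := hM _ hxk'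
    have a3 := hM _ hxU
    rw [Real.norm_eq_abs] at a1 a2 a3
    have a1' := abs_le.1 a1
    have a2' := abs_le.1 a2
    have a3' := abs_le.1 a3
    have h1' := abs_le.1 h1
    rw [abs_le]
    constructor <;> linarith [a1'.1, a1'.2, a2'.1, a2'.2, a3'.1, a3'.2, h1'.1, h1'.2]
  have h2 := ell_norm_d2_le_of_quadratic (H := ellD2 u x) (K := (4 * M + Z * ε ^ α * ε ^ 2) / ε ^ 2)
    (by positivity) (ell_d2_symm hU hu hxU) (ell_quad_le_of_sphere hε hq)
  refine h2.trans (le_of_eq ?_)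
  field_simp
  ring

/-! ### the least Hoelder constant -/

section semi

variable {X : Type u} {F : Type v} [NormedAddCommGroup X] [NormedAddCommGroup F] {α K : ℝ} {s t : Set X} {f : X → F}

/-- the least nonnegative Hoelder constant (junk `0` if there is none). -/
noncomputable def holSemi (α : ℝ) (s : Set X) (f : X → F) : ℝ := sInf {K | 0 ≤ K ∧ HolOn α K s f}

theorem holSemi_nonneg (α : ℝ) (s : Set X) (f : X → F) : 0 ≤ holSemi α s f := by
  exact Real.sInf_nonneg (fun K hK => hK.1)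

theorem holSemi_le (hK : 0 ≤ K) (h : HolOn α K s f) : holSemi α s f ≤ K := by
  exact csInf_le ⟨0, fun K' hK' => hK'.1⟩ ⟨hK, h⟩

theorem holOn_holSemi (h : HolOn α K s f) : HolOn α (holSemi α s f) s f := by
  intro x hx y hy
  have hne : {K | 0 ≤ K ∧ HolOn α K s f}.Nonempty :=
    ⟨max K 0, le_max_right _ _, h.mono subset_rfl (le_max_left _ _)⟩
  have hp : 0 ≤ ‖x - y‖ ^ α := Real.rpow_nonneg (norm_nonneg _) _
  rcases hp.eq_or_lt with h0 | h0
  · obtain ⟨K', hK'⟩ := hne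
    have := hK'.2 x hx y hy
    rw [← h0, mul_zero] at this ⊢
    exact this
  · rw [← div_le_iff₀ h0]
    refine le_csInf hne ?_
    intro K' hK'
    rw [div_le_iff₀ h0]
    exact hK'.2 x hx y hy

theorem holSemi_mono (h : HolOn α K s f) (hts : t ⊆ s) : holSemi α t f ≤ holSemi α s f := by
  exact holSemi_le (holSemi_nonneg α s f) ((holOn_holSemi h).mono hts le_rfl)

end semi

/-! ### the iteration lemma -/

/-- `Z(t) ≤ Z(s)/2 + A (s-t)^{-γ} + B` for `r ≤ t < s ≤ R`, `Z` bounded  ⟹  `Z(r) ≤ C (A (R-r)^{-γ} + B)`.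
(`t₀ = r`, `t_{i+1} = t_i + (1-τ) τ^i (R-r)` with `τ^γ = 3/4`, say; `Z(t₀) ≤ 2^{-k} Z(t_k) + Σ_{i<k} 2^{-i}(...)`.) -/
theorem ell_iter {γ : ℝ} (hγ : 0 < γ) :
    ∃ C : ℝ, 0 ≤ C ∧ ∀ (Z : ℝ → ℝ) (r R A B Zmax : ℝ), r < R → 0 ≤ A → 0 ≤ B →
      (∀ t ∈ Set.Icc r R, Z t ≤ Zmax) →
      (∀ t s, r ≤ t → t < s → s ≤ R → Z t ≤ Z s / 2 + A / (s - t) ^ γ + B) →
      Z r ≤ C * (A / (R - r) ^ γ + B) := by
  set τ : ℝ := (3 / 4 : ℝ) ^ (1 / γ) with hτ
  have hτ0 : 0 < τ := Real.rpow_pos_of_pos (by norm_num) _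
  have hτ1 : τ < 1 := Real.rpow_lt_one (by norm_num) (by norm_num) (by positivity)
  have hτγ : τ ^ γ = 3 / 4 := by
    rw [hτ, ← Real.rpow_mul (by norm_num)]
    rw [one_div, inv_mul_cancel₀ hγ.ne', Real.rpow_one]
  set c : ℝ := (1 - τ) ^ γ with hc
  have hc0 : 0 < c := Real.rpow_pos_of_pos (by linarith) _
  refine ⟨3 / c + 2, by positivity, ?_⟩
  intro Z r R A B Zmax hrR hA hB hmax hstep
  have hd : 0 < R - r := by linarith
  set D : ℝ := (R - r) ^ γ with hD
  have hD0 : 0 < D := Real.rpow_pos_of_pos hd _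
  set a : ℝ := A / (c * D) with ha
  have ha0 : 0 ≤ a := by positivity
  set t : ℕ → ℝ := fun k => r + (1 - τ ^ k) * (R - r) with ht
  have htk0 : ∀ k : ℕ, 0 < τ ^ k := fun k => pow_pos hτ0 k
  have htk1 : ∀ k : ℕ, τ ^ k ≤ 1 := fun k => pow_le_one₀ hτ0.le hτ1.le
  have htr : ∀ k, r ≤ t k := by
    intro k
    have : 0 ≤ (1 - τ ^ k) * (R - r) := mul_nonneg (by linarith [htk1 k]) hd.le
    simp only [ht]; linarith
  have htR : ∀ k, t k ≤ R := by
    intro k
    have : (1 - τ ^ k) * (R - r) ≤ 1 * (R - r) :=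
      mul_le_mul_of_nonneg_right (by linarith [htk0 k]) hd.le
    simp only [ht]; linarith
  have hdiff : ∀ k, t (k + 1) - t k = τ ^ k * ((1 - τ) * (R - r)) := by
    intro k
    simp only [ht, pow_succ]; ring
  have hone : ∀ k, Z (t k) ≤ Z (t (k + 1)) / 2 + a * (4 / 3) ^ k + B := by
    intro k
    have hpos : 0 < t (k + 1) - t k := by
      rw [hdiff]
      exact mul_pos (htk0 k) (mul_pos (by linarith) hd)
    have h1 := hstep (t k) (t (k + 1)) (htr k) (by linarith) (htR (k + 1))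
    have e : (t (k + 1) - t k) ^ γ = (3 / 4) ^ k * (c * D) := by
      rw [hdiff, Real.mul_rpow (htk0 k).le (mul_nonneg (by linarith) hd.le),
        Real.mul_rpow (by linarith) hd.le, ← Real.rpow_natCast τ k, ← Real.rpow_mul hτ0.le,
        mul_comm (k : ℝ) γ, Real.rpow_mul hτ0.le, hτγ, Real.rpow_natCast]
    rw [e] at h1
    have e2 : A / ((3 / 4) ^ k * (c * D)) = a * (4 / 3) ^ k := by
      rw [ha]
      have : ((4 : ℝ) / 3) ^ k = 1 / (3 / 4) ^ k := by
        rw [one_div, ← inv_pow]; norm_num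
      rw [this]
      field_simp
    rw [e2] at h1
    exact h1
  have hind : ∀ k : ℕ, Z r ≤ Z (t k) / 2 ^ k
      + ∑ i ∈ Finset.range k, (a * (2 / 3) ^ i + B * (1 / 2) ^ i) := by
    intro k
    induction k with
    | zero => simp [ht]
    | succ k ih =>
      rw [Finset.sum_range_succ]
      have h2 : (0 : ℝ) < 2 ^ k := by positivity
      have h1 : Z (t k) / 2 ^ k ≤ (Z (t (k + 1)) / 2 + a * (4 / 3) ^ k + B) / 2 ^ k :=
        div_le_div_of_nonneg_right (hone k) h2.le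
      have e : (Z (t (k + 1)) / 2 + a * (4 / 3) ^ k + B) / 2 ^ k
          = Z (t (k + 1)) / 2 ^ (k + 1) + (a * (2 / 3) ^ k + B * (1 / 2) ^ k) := by
        have e1 : ((2 : ℝ) / 3) ^ k = (4 / 3) ^ k / 2 ^ k := by
          rw [← div_pow]; norm_num
        have e2 : ((1 : ℝ) / 2) ^ k = 1 / 2 ^ k := by
          rw [div_pow, one_pow]
        rw [e1, e2, pow_succ]
        field_simp
        ring
      rw [e] at h1
      linarith
  have hsum : ∀ k : ℕ, ∑ i ∈ Finset.range k, (a * (2 / 3) ^ i + B * (1 / 2) ^ i) ≤ 3 * a + 2 * B := by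
    intro k
    rw [Finset.sum_add_distrib, ← Finset.mul_sum, ← Finset.mul_sum]
    have g1 : ∑ i ∈ Finset.range k, ((2 : ℝ) / 3) ^ i ≤ 3 := by
      have := geom_sum_mul_neg ((2 : ℝ) / 3) k
      have hp : (0 : ℝ) ≤ (2 / 3) ^ k := by positivity
      linarith
    have g2 : ∑ i ∈ Finset.range k, ((1 : ℝ) / 2) ^ i ≤ 2 := by
      have := geom_sum_mul_neg ((1 : ℝ) / 2) k
      have hp : (0 : ℝ) ≤ (1 / 2) ^ k := by positivity
      linarith
    nlinarith
  have hall : ∀ k : ℕ, Z r ≤ Zmax * (1 / 2) ^ k + (3 * a + 2 * B) := by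
    intro k
    have h1 := hind k
    have h2 := hsum k
    have h3 : Z (t k) / 2 ^ k ≤ Zmax * (1 / 2) ^ k := by
      rw [div_pow, one_pow, mul_one_div]
      exact div_le_div_of_nonneg_right (hmax _ ⟨htr k, htR k⟩) (by positivity)
    linarith
  have hlim : Tendsto (fun k : ℕ => Zmax * (1 / 2 : ℝ) ^ k + (3 * a + 2 * B)) atTop
      (𝓝 (Zmax * 0 + (3 * a + 2 * B))) :=
    ((tendsto_pow_atTop_nhds_zero_of_lt_one (by norm_num) (by norm_num)).const_mul Zmax).add_const _
  have hfin : Z r ≤ Zmax * 0 + (3 * a + 2 * B) := ge_of_tendsto' hlim hall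
  have e3 : 3 * a = 3 / c * (A / D) := by
    rw [ha]; field_simp
  have hAD : 0 ≤ A / D := by positivity
  have h3c : 0 ≤ 3 / c := by positivity
  calc Z r ≤ 3 * a + 2 * B := by linarith
    _ = 3 / c * (A / D) + 2 * B := by rw [e3]
    _ ≤ (3 / c + 2) * (A / D + B) := by nlinarith [mul_nonneg h3c hB]

/-! ### limits -/

/-- Taylor estimate of order `1 + α` on a convex open set. -/
theorem ell_taylor_c1a {V : Type v} [NormedAddCommGroup V] [NormedSpace ℝ V] {B : Set W} (hB : IsOpen B)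
    (hc : Convex ℝ B) {w : W → V} {α K : ℝ} (hα : 0 < α) (hw : DifferentiableOn ℝ w B)
    (hK : HolOn α K B (fderiv ℝ w)) {x y : W} (hx : x ∈ B) (hy : y ∈ B) :
    ‖w y - w x - fderiv ℝ w x (y - x)‖ ≤ K * ‖y - x‖ ^ (1 + α) := by
  exact ell_taylor_seg hB hα hw hK (hc.segment_subset hx hy)

/-- a Taylor estimate of order `1 + α` identifies the derivative. -/
theorem ell_hasFDerivAt_of_taylor {V : Type v} [NormedAddCommGroup V] [NormedSpace ℝ V] {B : Set W}
    (hB : IsOpen B) {w : W → V} {L : W →L[ℝ] V} {α K : ℝ} (hα : 0 < α) {x : W} (hx : x ∈ B)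
    (h : ∀ y ∈ B, ‖w y - w x - L (y - x)‖ ≤ K * ‖y - x‖ ^ (1 + α)) : HasFDerivAt w L x := by
  rw [hasFDerivAt_iff_isLittleO, Asymptotics.isLittleO_iff]
  intro c hc
  have hK1 : 0 < |K| + 1 := by positivity
  set δ : ℝ := (c / (|K| + 1)) ^ (1 / α) with hδdef
  have hδ : 0 < δ := Real.rpow_pos_of_pos (by positivity) _
  have hδα : δ ^ α = c / (|K| + 1) := by
    rw [hδdef, ← Real.rpow_mul (by positivity), one_div, inv_mul_cancel₀ hα.ne', Real.rpow_one]
  filter_upwards [hB.mem_nhds hx, Metric.ball_mem_nhds x hδ] with y hyB hyδ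
  have h1 := h y hyB
  have hn : ‖y - x‖ < δ := by rwa [mem_ball, dist_eq_norm] at hyδ
  by_cases hyx : y = x
  · subst hyx
    simp
  have hpos : 0 < ‖y - x‖ := norm_pos_iff.2 (sub_ne_zero.2 hyx)
  have h2 : ‖y - x‖ ^ α ≤ δ ^ α := Real.rpow_le_rpow hpos.le hn.le hα.le
  have h3 : ‖y - x‖ ^ (1 + α) = ‖y - x‖ ^ α * ‖y - x‖ := by
    rw [add_comm 1 α, Real.rpow_add hpos, Real.rpow_one]
  have h4 : 0 ≤ ‖y - x‖ ^ α := Real.rpow_nonneg hpos.le _
  calc ‖w y - w x - L (y - x)‖ ≤ K * ‖y - x‖ ^ (1 + α) := h1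
    _ ≤ |K| * (‖y - x‖ ^ α * ‖y - x‖) := by
        rw [h3]
        exact mul_le_mul_of_nonneg_right (le_abs_self K) (by positivity)
    _ ≤ |K| * (c / (|K| + 1) * ‖y - x‖) := by
        rw [← hδα]
        gcongr
    _ = (|K| / (|K| + 1)) * (c * ‖y - x‖) := by field_simp
    _ ≤ 1 * (c * ‖y - x‖) := by
        refine mul_le_mul_of_nonneg_right ?_ (by positivity)
        rw [div_le_one hK1]
        linarith
    _ = c * ‖y - x‖ := one_mul _

/-- **pointwise limits of `C^{1,α}`-bounded sequences are `C^{1,α}`, and the derivatives converge** (no Arzela-Ascoli: at a fixed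
`x` every subsequence of `D w_n(x)` has a convergent subsequence (finite dimension), its limit `L` satisfies the Taylor estimate, so
`L` is the derivative of `w` at `x`; `tendsto_of_subseq_tendsto`). -/
theorem ell_c1a_limit {V : Type v} [NormedAddCommGroup V] [NormedSpace ℝ V] [FiniteDimensional ℝ V] {B : Set W}
    (hB : IsOpen B) (hc : Convex ℝ B) {wn : ℕ → W → V} {w : W → V} {α K : ℝ} (hα : 0 < α)
    (hw : ∀ n, DifferentiableOn ℝ (wn n) B) (hb : ∀ n, BdOn K B (fderiv ℝ (wn n)))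
    (hK : ∀ n, HolOn α K B (fderiv ℝ (wn n)))
    (hlim : ∀ x ∈ B, Tendsto (fun n => wn n x) atTop (𝓝 (w x))) :
    DifferentiableOn ℝ w B ∧ BdOn K B (fderiv ℝ w) ∧ HolOn α K B (fderiv ℝ w) ∧
      ∀ x ∈ B, Tendsto (fun n => fderiv ℝ (wn n) x) atTop (𝓝 (fderiv ℝ w x)) := by
  -- every subsequence has a further subsequence whose derivatives converge to a derivative of `w`
  have hsub : ∀ x ∈ B, ∀ ns : ℕ → ℕ, Tendsto ns atTop atTop →
      ∃ (L : W →L[ℝ] V) (ms : ℕ → ℕ), HasFDerivAt w L x ∧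
        Tendsto (fun n => fderiv ℝ (wn (ns (ms n))) x) atTop (𝓝 L) := by
    intro x hx ns hns
    obtain ⟨L, _, φ, hφ, hL⟩ := (isCompact_closedBall (0 : W →L[ℝ] V) K).tendsto_subseq
      (x := fun n => fderiv ℝ (wn (ns n)) x) (fun n => by
        rw [mem_closedBall, dist_zero_right]
        exact hb (ns n) x hx)
    refine ⟨L, φ, ?_, hL⟩
    refine ell_hasFDerivAt_of_taylor hB hα hx (K := K) ?_
    intro y hy
    have hsubseq : Tendsto (fun n => ns (φ n)) atTop atTop := hns.comp hφ.tendsto_atTop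
    have t1 : Tendsto (fun n => wn (ns (φ n)) y) atTop (𝓝 (w y)) := (hlim y hy).comp hsubseq
    have t2 : Tendsto (fun n => wn (ns (φ n)) x) atTop (𝓝 (w x)) := (hlim x hx).comp hsubseq
    have t3 : Tendsto (fun n => fderiv ℝ (wn (ns (φ n))) x (y - x)) atTop (𝓝 (L (y - x))) :=
      ((ContinuousLinearMap.apply ℝ V (y - x)).continuous.tendsto L).comp hL
    have t4 := ((t1.sub t2).sub t3).norm
    exact le_of_tendsto' t4 (fun n => ell_taylor_c1a hB hc hα (hw _) (hK _) hx hy)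
  have hdiff : ∀ x ∈ B, DifferentiableAt ℝ w x := by
    intro x hx
    obtain ⟨L, _, hL, _⟩ := hsub x hx id tendsto_id
    exact hL.differentiableAt
  have hconv : ∀ x ∈ B, Tendsto (fun n => fderiv ℝ (wn n) x) atTop (𝓝 (fderiv ℝ w x)) := by
    intro x hx
    refine tendsto_of_subseq_tendsto ?_
    intro ns hns
    obtain ⟨L, ms, hL, hms⟩ := hsub x hx ns hns
    refine ⟨ms, ?_⟩
    rw [hL.fderiv]
    exact hms
  exact ⟨fun x hx => (hdiff x hx).differentiableWithinAt,
    BdOn.of_tendsto (Eventually.of_forall hb) hconv,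
    HolOn.of_tendsto (Eventually.of_forall hK) hconv, hconv⟩

/-- difference quotients of a `C^{1,α}` function are uniformly `C^α`:
`‖(G(x+v) - G(x)) - (G(y+v) - G(y))‖ ≤ [DG]_α ‖x-y‖^α ‖v‖`  (mean value inequality for `z ↦ G(x+z) - G(y+z)` on `[0,v]`). -/
theorem ell_dq_hol {V : Type v} [NormedAddCommGroup V] [NormedSpace ℝ V] {B : Set W} (hB : IsOpen B)
    (hc : Convex ℝ B) {G : W → V} {α K : ℝ} (hG : DifferentiableOn ℝ G B) (hK : HolOn α K B (fderiv ℝ G))
    {x y v : W} (hx : x ∈ B) (hy : y ∈ B) (hxv : x + v ∈ B) (hyv : y + v ∈ B) :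
    ‖(G (x + v) - G x) - (G (y + v) - G y)‖ ≤ K * ‖x - y‖ ^ α * ‖v‖ := by
  have hmem : ∀ p : W, p ∈ B → p + v ∈ B → ∀ z ∈ segment ℝ (0 : W) v, p + z ∈ B := by
    intro p hp hpv z hz
    obtain ⟨a, b, ha, hb, hab, rfl⟩ := hz
    have e : p + (a • (0 : W) + b • v) = a • p + b • (p + v) := by
      have : a = 1 - b := by linarith
      subst this
      module
    rw [e]
    exact hc hp hpv ha hb hab
  have hd : ∀ p : W, p ∈ B → p + v ∈ B → ∀ z ∈ segment ℝ (0 : W) v,
      HasFDerivAt (fun z => G (p + z)) (fderiv ℝ G (p + z)) z := by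
    intro p hp hpv z hz
    have h1 : HasFDerivAt G (fderiv ℝ G (p + z)) (p + z) :=
      ((hG _ (hmem p hp hpv z hz)).differentiableAt (hB.mem_nhds (hmem p hp hpv z hz))).hasFDerivAt
    have h2 : HasFDerivAt (fun z : W => p + z) (ContinuousLinearMap.id ℝ W) z :=
      (hasFDerivAt_id z).const_add p
    have h3 := h1.comp z h2
    rw [ContinuousLinearMap.comp_id] at h3
    exact h3
  have hmv := Convex.norm_image_sub_le_of_norm_hasFDerivWithin_le (𝕜 := ℝ)
    (f := fun z => G (x + z) - G (y + z)) (f' := fun z => fderiv ℝ G (x + z) - fderiv ℝ G (y + z))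
    (s := segment ℝ (0 : W) v) (C := K * ‖x - y‖ ^ α) (x := 0) (y := v)
    (fun z hz => ((hd x hx hxv z hz).sub (hd y hy hyv z hz)).hasFDerivWithinAt)
    (by
      intro z hz
      have := hK _ (hmem x hx hxv z hz) _ (hmem y hy hyv z hz)
      rwa [add_sub_add_right_eq_sub] at this)
    (convex_segment 0 v) (left_mem_segment ℝ 0 v) (right_mem_segment ℝ 0 v)
  simp only [add_zero, sub_zero] at hmv
  have e : G (x + v) - G x - (G (y + v) - G y) = G (x + v) - G (y + v) - (G x - G y) := by abel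
  rw [e]
  exact hmv

/-- `‖G(x+v) - G(x) - DG(x) v‖ ≤ [DG]_α ‖v‖^{1+α}` is `ell_taylor_c1a`; sup bound of difference quotients: -/
theorem ell_dq_bd {V : Type v} [NormedAddCommGroup V] [NormedSpace ℝ V] {B : Set W} (hB : IsOpen B)
    (hc : Convex ℝ B) {G : W → V} {K : ℝ} (hG : DifferentiableOn ℝ G B) (hK : BdOn K B (fderiv ℝ G))
    {x v : W} (hx : x ∈ B) (hxv : x + v ∈ B) : ‖G (x + v) - G x‖ ≤ K * ‖v‖ := by
  have := Convex.norm_image_sub_le_of_norm_fderiv_le (𝕜 := ℝ) (f := G) (s := B) (C := K)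
    (fun z hz => (hG z hz).differentiableAt (hB.mem_nhds hz)) hK hc hx hxv
  simpa using this

end Claimed.Agent.Lib.Ell
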