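/-
Lib/Ell, package L-ell-schdiv (architect helper232): INTERIOR SCHAUDER ESTIMATE, DIVERGENCE FORM (a priori form):
   div(a∇u) + b·∇u + c u = div F + g   weakly in `ball x₀ R`,   `u ∈ C¹`, `Du` Hoelder on every smaller ball (any constant)
   ⟹  `sup|Du| + [Du]_α ≤ C M` on `ball x₀ r`,  `M ≥ sup|u|, [F]_α, sup|g|`,  `C = C(W, α, lam, Lam, K, r, R)`.

PROOF.  `B_t = ball x₀ t`.  Fix `t < s`, `d = s - t`, `s' = (t+s)/2`, `Z` a Hoelder constant of `Du` on `B_s`, `D₁` a bound of `|Du|` on `B_{s'}`.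
(S1) freezing at `x₁ ∈ B_t`: on `ball x₁ ϱ ⊆ B_{s'}` (`ϱ ≤ d/2`) `u` solves `div(a(x₁)∇u) = div F̃ + g̃`, `F̃ = F + (a(x₁) - a)∇u`,
     `g̃ = g - b·∇u - c u`;  `[F̃]_α ≤ M + K D₁ + K ϱ^α Z` (`HolOn.clm_apply`),  `sup|g̃| ≤ M + K D₁ + K M`.
(S2) `ell_cc_weak` with `M_cc = ϱ^{1+α}(M + K D₁ + K ϱ^α Z) + ϱ²(M + K D₁ + K M) + M` gives a Hoelder constant on `ball x₁ (θϱ)`.
(S3) `holOn_of_local` with radius `θϱ`;  (S4) `D₁ = 2M/ε + ε^α Z`, `ε ≤ d/2` (`ell_interp_c1a`).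
(S5) choice `ϱ = min (d/2) r⋆`, `ε = η ϱ` (pure inequality `ell_schdiv_choice`):  `Z(t) ≤ Z(s)/2 + C₁ M (1 + d^{-1-α})`.
(S6) `ell_iter` for `Z(t) = holSemi α B_t Du` on `[r, (r+R)/2]`; sup bound by `ell_interp_c1a` once more.
-/
import Claimed.Agent.Lib.Ell.Cc
import Claimed.Agent.Lib.Ell.Interp

set_option autoImplicit false

namespace Claimed.Agent.Lib.Ell

open MeasureTheory Metric Filter
open scoped ContDiff RealInnerProductSpace Gradient Topology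

universe u

variable {W : Type u} [NormedAddCommGroup W] [InnerProductSpace ℝ W] [FiniteDimensional ℝ W]
  [MeasurableSpace W] [BorelSpace W]

/-- the data of a divergence form problem on a set `B` (open in all uses). -/
structure DivData (α lam Lam K M : ℝ) (B : Set W) (a : W → W →L[ℝ] W) (b : W → W) (c : W → ℝ) (u : W → ℝ)
    (F : W → W) (g : W → ℝ) : Prop where
  ell : EllOn lam Lam B a
  a_hol : HolOn α K B a
  b_cont : ContinuousOn b B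
  b_bd : BdOn K B b
  c_cont : ContinuousOn c B
  c_bd : BdOn K B c
  u_c1 : ContDiffOn ℝ 1 u B
  u_bd : BdOn M B u
  F_hol : HolOn α M B F
  g_cont : ContinuousOn g B
  g_bd : BdOn M B g
  weak : WeakDiv B a b c u F g

theorem IsTest.mono {U V : Set W} {φ : W → ℝ} (h : IsTest V φ) (hVU : V ⊆ U) : IsTest U φ := by
  exact ⟨h.1, h.2.1, h.2.2.trans hVU⟩

theorem WeakDiv.mono {U V : Set W} {a : W → W →L[ℝ] W} {b : W → W} {c : W → ℝ} {u : W → ℝ} {F : W → W}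
    {g : W → ℝ} (h : WeakDiv U a b c u F g) (hVU : V ⊆ U) : WeakDiv V a b c u F g := by
  exact fun φ hφ => h φ (hφ.mono hVU)

theorem DivData.mono {α lam Lam K M : ℝ} {U V : Set W} {a : W → W →L[ℝ] W} {b : W → W} {c : W → ℝ} {u : W → ℝ}
    {F : W → W} {g : W → ℝ} (h : DivData α lam Lam K M U a b c u F g) (hVU : V ⊆ U) :
    DivData α lam Lam K M V a b c u F g := by
  exact
    { ell := fun x hx => h.ell x (hVU hx)
      a_hol := h.a_hol.mono hVU le_rfl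
      b_cont := h.b_cont.mono hVU
      b_bd := h.b_bd.mono hVU le_rfl
      c_cont := h.c_cont.mono hVU
      c_bd := h.c_bd.mono hVU le_rfl
      u_c1 := h.u_c1.mono hVU
      u_bd := h.u_bd.mono hVU le_rfl
      F_hol := h.F_hol.mono hVU le_rfl
      g_cont := h.g_cont.mono hVU
      g_bd := h.g_bd.mono hVU le_rfl
      weak := h.weak.mono hVU }

/-- continuous on the open set `U`, zero outside a compact subset of `U`. -/
theorem ell_integrable_of_cont_supp {U : Set W} (hU : IsOpen U) {G : W → ℝ} {K : Set W} (hK : IsCompact K)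
    (hKU : K ⊆ U) (hG : ContinuousOn G U) (h0 : ∀ x, x ∉ K → G x = 0) : Integrable G := by
  have hcont : Continuous G := by
    rw [continuous_iff_continuousAt]
    intro x
    by_cases hx : x ∈ K
    · exact hG.continuousAt (hU.mem_nhds (hKU hx))
    · have : G =ᶠ[𝓝 x] fun _ => 0 := by
        filter_upwards [hK.isClosed.isOpen_compl.mem_nhds hx] with y hy
        exact h0 y hy
      exact continuousAt_const.congr this.symm
  exact hcont.integrable_of_hasCompactSupport (HasCompactSupport.intro hK h0)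

/-- integrability of `continuous on U` times `compactly supported in U`. -/
theorem ell_integrable_mul_test {U : Set W} (hU : IsOpen U) {f φ : W → ℝ} (hf : ContinuousOn f U)
    (hφ : Continuous φ) (hc : HasCompactSupport φ) (hs : tsupport φ ⊆ U) : Integrable (fun x => f x * φ x) := by
  exact ell_integrable_of_cont_supp hU hc hs (hf.mul hφ.continuousOn) fun x hx => by
    rw [image_eq_zero_of_notMem_tsupport hx, mul_zero]

theorem ell_integrable_inner_test {U : Set W} (hU : IsOpen U) {f : W → W} {φ : W → ℝ} (hf : ContinuousOn f U)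
    (hφ : IsTest U φ) : Integrable (fun x => ⟪f x, ∇ φ x⟫) := by
  have hg : Continuous (fun x => ∇ φ x) :=
    (LinearIsometryEquiv.continuous _).comp (hφ.1.continuous_fderiv (by simp))
  refine ell_integrable_of_cont_supp hU hφ.2.1 hφ.2.2 (hf.inner hg.continuousOn) fun x hx => ?_
  have h1 : fderiv ℝ φ x = 0 := image_eq_zero_of_notMem_tsupport fun h => hx (tsupport_fderiv_subset ℝ h)
  have h2 : ∇ φ x = 0 := by rw [gradient, h1, map_zero]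
  rw [h2, inner_zero_right]

/-- (S1) freezing the coefficients. -/
theorem ell_freeze_div {U : Set W} (hU : IsOpen U) {a : W → W →L[ℝ] W} {b : W → W} {c : W → ℝ} {u : W → ℝ}
    {F : W → W} {g : W → ℝ} (ha : ContinuousOn a U) (hb : ContinuousOn b U) (hc : ContinuousOn c U)
    (hu : ContDiffOn ℝ 1 u U) (hF : ContinuousOn F U) (hg : ContinuousOn g U) (hw : WeakDiv U a b c u F g)
    (x₁ : W) :
    WeakDiv U (fun _ => a x₁) 0 0 u (fun x => F x + (a x₁ - a x) (∇ u x))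
      (fun x => g x - ⟪b x, ∇ u x⟫ - c x * u x) := by
  intro φ hφ
  have hGu := ell_gradient_continuousOn hU hu
  have i1 := ell_integrable_inner_test hU hF hφ
  have i2 : Integrable (fun x => ⟪a x₁ (∇ u x), ∇ φ x⟫) :=
    ell_integrable_inner_test hU ((a x₁).continuous.comp_continuousOn hGu) hφ
  have i3 : Integrable (fun x => ⟪a x (∇ u x), ∇ φ x⟫) := ell_integrable_inner_test hU (ha.clm_apply hGu) hφ
  have e1 : ∫ x, ⟪F x + (a x₁ - a x) (∇ u x), ∇ φ x⟫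
      = (∫ x, ⟪F x, ∇ φ x⟫) + (∫ x, ⟪a x₁ (∇ u x), ∇ φ x⟫) - ∫ x, ⟪a x (∇ u x), ∇ φ x⟫ := by
    have i12 : Integrable (fun x => ⟪F x, ∇ φ x⟫ + ⟪a x₁ (∇ u x), ∇ φ x⟫) := i1.add i2
    rw [← integral_add i1 i2, ← integral_sub i12 i3]
    refine integral_congr_ae (Eventually.of_forall fun x => ?_)
    simp only [ContinuousLinearMap.sub_apply, inner_add_left, inner_sub_left, Pi.add_apply]
    ring
  have e2 : ∫ x, (⟪(0 : W → W) x, ∇ u x⟫ + (0 : W → ℝ) x * u x - (g x - ⟪b x, ∇ u x⟫ - c x * u x)) * φ x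
      = ∫ x, (⟪b x, ∇ u x⟫ + c x * u x - g x) * φ x := by
    refine integral_congr_ae (Eventually.of_forall fun x => ?_)
    simp only [Pi.zero_apply, inner_zero_left, zero_mul]
    ring
  rw [e1, e2, hw φ hφ]
  ring

/-- (S1)+(S2) the local estimate; `C₀, θ` are the constants of `ell_cc_weak`. -/
theorem ell_schdiv_local (W : Type u) [NormedAddCommGroup W] [InnerProductSpace ℝ W] [FiniteDimensional ℝ W]
    [MeasurableSpace W] [BorelSpace W] {α lam Lam : ℝ} (hα : 0 < α) (hα1 : α < 1) (hlam : 0 < lam)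
    (hLam : lam ≤ Lam) :
    ∃ C₀ θ : ℝ, 0 ≤ C₀ ∧ 0 < θ ∧ θ ≤ 1 / 2 ∧ ∀ (K M Z D₁ ϱ : ℝ) (x₁ : W) (a : W → W →L[ℝ] W) (b : W → W)
      (c : W → ℝ) (u : W → ℝ) (F : W → W) (g : W → ℝ), 0 ≤ K → 0 ≤ M → 0 ≤ Z → 0 < ϱ →
      DivData α lam Lam K M (ball x₁ ϱ) a b c u F g → BdOn D₁ (ball x₁ ϱ) (fderiv ℝ u) →
      HolOn α Z (ball x₁ ϱ) (fderiv ℝ u) →
      HolOn α (C₀ * (M + K * D₁ + K * ϱ ^ α * Z) + C₀ * ϱ ^ (1 - α) * (M + K * D₁ + K * M) + C₀ * M / ϱ ^ (1 + α))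
        (ball x₁ (θ * ϱ)) (fderiv ℝ u) := by
  obtain ⟨C, θ, hC, hθ, hθ1, H⟩ := ell_cc_weak W hα hα1 hlam hLam
  refine ⟨C, θ, hC, hθ, hθ1, ?_⟩
  intro K M Z D₁ ϱ x₁ a b c u F g hK hM hZ hϱ hD hD₁ hZ'
  have hx₁ : x₁ ∈ ball x₁ ϱ := mem_ball_self hϱ
  have hD₁0 : 0 ≤ D₁ := (norm_nonneg _).trans (hD₁ x₁ hx₁)
  have ho : IsOpen (ball x₁ ϱ) := isOpen_ball
  have hGu := ell_gradient_continuousOn ho hD.u_c1
  have hw := ell_freeze_div ho (hD.a_hol.continuousOn hα) hD.b_cont hD.c_cont hD.u_c1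
    (hD.F_hol.continuousOn hα) hD.g_cont hD.weak x₁
  have hp1 : 0 < ϱ ^ (1 + α) := Real.rpow_pos_of_pos hϱ _
  have hp2 : 0 < ϱ ^ (1 - α) := Real.rpow_pos_of_pos hϱ _
  have hp3 : 0 < ϱ ^ α := Real.rpow_pos_of_pos hϱ _
  have hp4 : ϱ ^ 2 = ϱ ^ (1 + α) * ϱ ^ (1 - α) := by
    rw [← Real.rpow_add hϱ, ← Real.rpow_natCast]; congr 1; push_cast; ring
  obtain ⟨P, hP⟩ : ∃ P, P = M + K * D₁ + K * ϱ ^ α * Z := ⟨_, rfl⟩
  obtain ⟨Q, hQ⟩ : ∃ Q, Q = M + K * D₁ + K * M := ⟨_, rfl⟩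
  have hP0 : 0 ≤ P := by rw [hP]; positivity
  have hQ0 : 0 ≤ Q := by rw [hQ]; positivity
  obtain ⟨Mcc, hMcc⟩ : ∃ Mcc, Mcc = ϱ ^ (1 + α) * P + ϱ ^ 2 * Q + M := ⟨_, rfl⟩
  have hMcc0 : 0 ≤ Mcc := by rw [hMcc]; positivity
  have gB : BdOn D₁ (ball x₁ ϱ) (fun x => ∇ u x) := fun x hx => by
    rw [ell_norm_gradient]; exact hD₁ x hx
  have gH : HolOn α Z (ball x₁ ϱ) (fun x => ∇ u x) := fun x hx y hy => by
    rw [ell_norm_gradient_sub]; exact hZ' x hx y hy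
  have aH : HolOn α K (ball x₁ ϱ) (fun x => a x₁ - a x) := fun x hx y hy => by
    have : (a x₁ - a x) - (a x₁ - a y) = -(a x - a y) := by abel
    rw [this, norm_neg]; exact hD.a_hol x hx y hy
  have aB : BdOn (K * ϱ ^ α) (ball x₁ ϱ) (fun x => a x₁ - a x) := fun x hx => by
    refine (hD.a_hol x₁ hx₁ x hx).trans
      (mul_le_mul_of_nonneg_left (Real.rpow_le_rpow (norm_nonneg _) ?_ hα.le) hK)
    rw [← dist_eq_norm, dist_comm]; exact (mem_ball.1 hx).le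
  have FH : HolOn α P (ball x₁ ϱ) (fun x => F x + (a x₁ - a x) (∇ u x)) :=
    (hD.F_hol.add (aH.clm_apply gH aB gB)).mono subset_rfl (by rw [hP]; linarith)
  have gBd : BdOn Q (ball x₁ ϱ) (fun x => g x - ⟪b x, ∇ u x⟫ - c x * u x) := fun x hx => by
    have h1 : ‖⟪b x, ∇ u x⟫‖ ≤ K * D₁ :=
      (norm_inner_le_norm _ _).trans (mul_le_mul (hD.b_bd x hx) (gB x hx) (norm_nonneg _) hK)
    have h2 : ‖c x * u x‖ ≤ K * M := by
      rw [norm_mul]; exact mul_le_mul (hD.c_bd x hx) (hD.u_bd x hx) (norm_nonneg _) hK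
    have h3 := hD.g_bd x hx
    have h4 := norm_sub_le (g x - ⟪b x, ∇ u x⟫) (c x * u x)
    have h5 := norm_sub_le (g x) ⟪b x, ∇ u x⟫
    rw [hQ]; linarith
  have hgc : ContinuousOn (fun x => g x - ⟪b x, ∇ u x⟫ - c x * u x) (ball x₁ ϱ) :=
    (hD.g_cont.sub (hD.b_cont.inner hGu)).sub (hD.c_cont.mul hD.u_c1.continuousOn)
  have k1 : M ≤ Mcc := by
    rw [hMcc]; nlinarith [mul_nonneg hp1.le hP0, mul_nonneg (sq_nonneg ϱ) hQ0]
  have k2 : P ≤ Mcc / ϱ ^ (1 + α) := by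
    rw [le_div_iff₀ hp1, hMcc]; nlinarith [mul_nonneg (sq_nonneg ϱ) hQ0]
  have k3 : Q ≤ Mcc / ϱ ^ 2 := by
    rw [le_div_iff₀ (by positivity), hMcc]; nlinarith [mul_nonneg hp1.le hP0]
  have res := (H (a x₁) x₁ ϱ Mcc u _ _ (hD.ell x₁ hx₁) hϱ hMcc0 hD.u_c1 hgc hw (hD.u_bd.mono subset_rfl k1)
    (FH.mono subset_rfl k2) (gBd.mono subset_rfl k3)).2
  refine res.mono subset_rfl (le_of_eq ?_)
  rw [hMcc, hp4, ← hP, ← hQ]
  field_simp

/-- (S5) the choice of the parameters: a pure inequality. -/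
theorem ell_schdiv_choice {α C₀ θ K : ℝ} (hα : 0 < α) (hα1 : α < 1) (hC₀ : 0 ≤ C₀) (hθ : 0 < θ) (hθ1 : θ ≤ 1 / 2)
    (hK : 0 ≤ K) :
    ∃ rs η C₁ : ℝ, 0 < rs ∧ rs ≤ 1 ∧ 0 < η ∧ η ≤ 1 ∧ 0 ≤ C₁ ∧ ∀ d M Z ϱ ε D₁ : ℝ, 0 < d → 0 ≤ M → 0 ≤ Z →
      ϱ = min (d / 2) rs → ε = η * ϱ → D₁ = 2 * M / ε + ε ^ α * Z →
      max (C₀ * (M + K * D₁ + K * ϱ ^ α * Z) + C₀ * ϱ ^ (1 - α) * (M + K * D₁ + K * M) + C₀ * M / ϱ ^ (1 + α))
          (2 * D₁ / (θ * ϱ) ^ α)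
        ≤ Z / 2 + C₁ * M * (1 + 1 / d ^ (1 + α)) := by
  have hCK : 0 ≤ C₀ * K := mul_nonneg hC₀ hK
  obtain ⟨q, hq⟩ : ∃ q, q = 1 / (6 * (C₀ * K) + 1) := ⟨_, rfl⟩
  have hq0 : 0 < q := by rw [hq]; positivity
  have hq1 : q ≤ 1 := by rw [hq, div_le_one (by positivity)]; linarith
  have hq6 : 6 * (C₀ * K) * q ≤ 1 := by
    rw [hq, mul_one_div, div_le_one (by positivity)]; linarith
  obtain ⟨rs, hrs⟩ : ∃ rs, rs = q ^ (1 / α) := ⟨_, rfl⟩
  have hrs0 : 0 < rs := by rw [hrs]; exact Real.rpow_pos_of_pos hq0 _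
  have hrs1 : rs ≤ 1 := by rw [hrs]; exact Real.rpow_le_one hq0.le hq1 (by positivity)
  have hrsα : rs ^ α = q := by
    rw [hrs, ← Real.rpow_mul hq0.le, one_div, inv_mul_cancel₀ hα.ne', Real.rpow_one]
  obtain ⟨ta, hta⟩ : ∃ ta, ta = θ ^ α := ⟨_, rfl⟩
  have hta0 : 0 < ta := by rw [hta]; exact Real.rpow_pos_of_pos hθ _
  have hta1 : ta ≤ 1 := by rw [hta]; exact Real.rpow_le_one hθ.le (by linarith) hα.le
  obtain ⟨η, hη⟩ : ∃ η, η = θ * (1 / 4 : ℝ) ^ (1 / α) := ⟨_, rfl⟩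
  have h4 : 0 < (1 / 4 : ℝ) ^ (1 / α) := Real.rpow_pos_of_pos (by norm_num) _
  have h41 : (1 / 4 : ℝ) ^ (1 / α) ≤ 1 := Real.rpow_le_one (by norm_num) (by norm_num) (by positivity)
  have hη0 : 0 < η := by rw [hη]; positivity
  have hη1 : η ≤ 1 := by
    rw [hη]
    calc θ * (1 / 4 : ℝ) ^ (1 / α) ≤ 1 / 2 * 1 := mul_le_mul hθ1 h41 h4.le (by norm_num)
      _ ≤ 1 := by norm_num
  have hηα : η ^ α = ta / 4 := by
    rw [hη, Real.mul_rpow hθ.le h4.le, ← Real.rpow_mul (by norm_num), one_div α, inv_mul_cancel₀ hα.ne',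
      Real.rpow_one, hta]
    ring
  have hrp : 0 < rs ^ (1 + α) := Real.rpow_pos_of_pos hrs0 _
  obtain ⟨cN, hcN⟩ : ∃ cN, cN = 4 + 1 / rs ^ (1 + α) := ⟨_, rfl⟩
  obtain ⟨c₁, hc₁⟩ : ∃ c₁, c₁ = 3 * C₀ + C₀ * K + 4 * (C₀ * K / η) + 4 / (η * ta) := ⟨_, rfl⟩
  have hcN0 : 0 ≤ cN := by rw [hcN]; positivity
  have hc₁0 : 0 ≤ c₁ := by rw [hc₁]; positivity
  refine ⟨rs, η, c₁ * cN, hrs0, hrs1, hη0, hη1, by positivity, ?_⟩
  intro d M Z ϱ ε D₁ hd hM hZ hϱ hε hD₁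
  have hϱ0 : 0 < ϱ := by rw [hϱ]; exact lt_min (by linarith) hrs0
  have hϱrs : ϱ ≤ rs := by rw [hϱ]; exact min_le_right _ _
  have hϱ1 : ϱ ≤ 1 := hϱrs.trans hrs1
  obtain ⟨p, hp⟩ : ∃ p, p = ϱ ^ α := ⟨_, rfl⟩
  have hp0 : 0 < p := by rw [hp]; exact Real.rpow_pos_of_pos hϱ0 _
  have hpq : p ≤ q := by rw [hp, ← hrsα]; exact Real.rpow_le_rpow hϱ0.le hϱrs hα.le
  have hp1 : p ≤ 1 := hpq.trans hq1
  obtain ⟨w, hw⟩ : ∃ w, w = ϱ ^ (1 - α) := ⟨_, rfl⟩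
  have hw0 : 0 ≤ w := by rw [hw]; exact Real.rpow_nonneg hϱ0.le _
  have hw1 : w ≤ 1 := by rw [hw]; exact Real.rpow_le_one hϱ0.le hϱ1 (by linarith)
  have hϱp : ϱ ^ (1 + α) = ϱ * p := by rw [Real.rpow_add hϱ0, Real.rpow_one, hp]
  have hεα : ε ^ α = ta / 4 * p := by rw [hε, Real.mul_rpow hη0.le hϱ0.le, hηα, hp]
  have hθϱ : (θ * ϱ) ^ α = ta * p := by rw [Real.mul_rpow hθ.le hϱ0.le, hta, hp]
  obtain ⟨N, hN⟩ : ∃ N, N = 1 / (ϱ * p) := ⟨_, rfl⟩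
  have hN1 : 1 ≤ N := by
    rw [hN, le_div_iff₀ (by positivity), one_mul]; exact mul_le_one₀ hϱ1 hp0.le hp1
  have hdp : 0 < d ^ (1 + α) := Real.rpow_pos_of_pos hd _
  have h5 : 0 ≤ 1 / rs ^ (1 + α) := by positivity
  have h6 : 0 ≤ 1 / d ^ (1 + α) := by positivity
  have hNd : N ≤ cN * (1 + 1 / d ^ (1 + α)) := by
    rw [hN, ← hϱp]
    rcases le_total (d / 2) rs with h | h
    · have h7 : ϱ = d / 2 := by rw [hϱ]; exact min_eq_left h
      have h2 : (2 : ℝ) ^ (1 + α) ≤ 4 := by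
        calc (2 : ℝ) ^ (1 + α) ≤ 2 ^ (2 : ℝ) := Real.rpow_le_rpow_of_exponent_le (by norm_num) (by linarith)
          _ = 4 := by rw [Real.rpow_two]; norm_num
      have h8 : (2 : ℝ) ^ (1 + α) / d ^ (1 + α) ≤ 4 * (1 / d ^ (1 + α)) := by
        rw [mul_one_div]; gcongr
      rw [h7, Real.div_rpow hd.le (by norm_num), one_div_div, hcN]
      linarith [mul_nonneg h5 h6]
    · have h7 : ϱ = rs := by rw [hϱ]; exact min_eq_right h
      rw [h7, hcN]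
      linarith [mul_nonneg h5 h6]
  have hMN0 : 0 ≤ M * N := mul_nonneg hM (by linarith)
  have key : c₁ * (M * N) ≤ c₁ * cN * M * (1 + 1 / d ^ (1 + α)) := by
    calc c₁ * (M * N) ≤ c₁ * (M * (cN * (1 + 1 / d ^ (1 + α)))) :=
          mul_le_mul_of_nonneg_left (mul_le_mul_of_nonneg_left hNd hM) hc₁0
      _ = _ := by ring
  have hD : D₁ = 2 * M / (η * ϱ) + ta / 4 * p * Z := by rw [hD₁, hεα, hε]
  have hD0 : 0 ≤ D₁ := by rw [hD]; positivity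
  have hMN : 2 * M / (η * ϱ) ≤ 2 * (M * N) / η := by
    have h9 : 2 * M / (η * ϱ) = 2 * (M * N) / η * p := by rw [hN]; field_simp
    rw [h9]
    exact mul_le_of_le_one_right (by positivity) hp1
  have hpZ : 0 ≤ p * Z := mul_nonneg hp0.le hZ
  have hDB : D₁ ≤ 2 * (M * N) / η + p * Z := by
    have h11 := mul_le_mul_of_nonneg_right (show ta / 4 ≤ 1 by linarith) hpZ
    rw [hD]; linarith
  rw [hϱp, hθϱ, ← hp, ← hw]
  refine (max_le ?_ ?_).trans (add_le_add_right key _)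
  · have a1 : C₀ * w * (M + K * D₁ + K * M) ≤ C₀ * (M + K * D₁ + K * M) :=
      mul_le_mul_of_nonneg_right (mul_le_of_le_one_right hC₀ hw1) (by positivity)
    have a2 : C₀ * M / (ϱ * p) = C₀ * (M * N) := by rw [hN]; ring
    have b1 : C₀ * K * D₁ ≤ C₀ * K * (2 * (M * N) / η + p * Z) := mul_le_mul_of_nonneg_left hDB hCK
    have b2 : C₀ * K * (2 * (M * N) / η + p * Z) = 2 * (C₀ * K / η) * (M * N) + C₀ * K * (p * Z) := by ring
    have b3 : C₀ * K * (p * Z) ≤ Z / 6 := by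
      have h10 : C₀ * K * p ≤ 1 / 6 := by
        have := mul_le_mul_of_nonneg_left hpq hCK
        linarith
      have := mul_le_mul_of_nonneg_right h10 hZ
      linarith
    have b4 : M ≤ M * N := le_mul_of_one_le_right hM hN1
    have b5 : 0 ≤ 4 / (η * ta) * (M * N) := by positivity
    have b6 : C₀ * M ≤ C₀ * (M * N) := mul_le_mul_of_nonneg_left b4 hC₀
    have b7 : C₀ * K * M ≤ C₀ * K * (M * N) := mul_le_mul_of_nonneg_left b4 hCK
    rw [a2, hc₁]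
    linarith
  · have c1 : 2 * D₁ / (ta * p) = Z / 2 + 4 / (η * ta) * (M * N) := by
      rw [hD, hN]; field_simp; ring
    have c2 : 0 ≤ (3 * C₀ + C₀ * K + 4 * (C₀ * K / η)) * (M * N) := by positivity
    rw [c1, hc₁]
    linarith

/-- (S1)-(S5) one step. -/
theorem ell_schdiv_step (W : Type u) [NormedAddCommGroup W] [InnerProductSpace ℝ W] [FiniteDimensional ℝ W]
    [MeasurableSpace W] [BorelSpace W] {α lam Lam K : ℝ} (hα : 0 < α) (hα1 : α < 1) (hlam : 0 < lam)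
    (hLam : lam ≤ Lam) (hK : 0 ≤ K) :
    ∃ C₁ : ℝ, 0 ≤ C₁ ∧ ∀ (M Z t s : ℝ) (x₀ : W) (a : W → W →L[ℝ] W) (b : W → W)
      (c : W → ℝ) (u : W → ℝ) (F : W → W) (g : W → ℝ), 0 ≤ M → 0 ≤ Z → 0 < t → t < s →
      DivData α lam Lam K M (ball x₀ s) a b c u F g → HolOn α Z (ball x₀ s) (fderiv ℝ u) →
      HolOn α (Z / 2 + C₁ * M * (1 + 1 / (s - t) ^ (1 + α))) (ball x₀ t) (fderiv ℝ u) := by
  obtain ⟨C₀, θ, hC₀, hθ, hθ1, Hloc⟩ := ell_schdiv_local W hα hα1 hlam hLam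
  obtain ⟨rs, η, C₁, hrs, hrs1, hη, hη1, hC₁, Hch⟩ := ell_schdiv_choice hα hα1 hC₀ hθ hθ1 hK
  refine ⟨C₁, hC₁, ?_⟩
  intro M Z t s x₀ a b c u F g hM hZ ht hts hD hZ'
  have hd0 : 0 < s - t := sub_pos.2 hts
  obtain ⟨ϱ, hϱ⟩ : ∃ ϱ, ϱ = min ((s - t) / 2) rs := ⟨_, rfl⟩
  have hϱ0 : 0 < ϱ := by rw [hϱ]; exact lt_min (by linarith) hrs
  have hϱd : ϱ ≤ (s - t) / 2 := by rw [hϱ]; exact min_le_left _ _
  obtain ⟨ε, hε⟩ : ∃ ε, ε = η * ϱ := ⟨_, rfl⟩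
  have hε0 : 0 < ε := by rw [hε]; exact mul_pos hη hϱ0
  have hεd : ε ≤ (s - t) / 2 := by
    rw [hε]; exact (mul_le_of_le_one_left hϱ0.le hη1).trans hϱd
  obtain ⟨D₁, hD₁⟩ : ∃ D₁, D₁ = 2 * M / ε + ε ^ α * Z := ⟨_, rfl⟩
  have hch := Hch (s - t) M Z ϱ ε D₁ hd0 hM hZ hϱ hε hD₁
  have hb : BdOn D₁ (ball x₀ ((t + s) / 2)) (fderiv ℝ u) := fun x hx => by
    rw [hD₁]
    refine ell_interp_c1a isOpen_ball hε0 hα ?_ (hD.u_c1.differentiableOn one_ne_zero) hD.u_bd hZ hZ'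
    intro y hy
    rw [mem_ball] at hx ⊢
    rw [mem_closedBall] at hy
    have := dist_triangle y x x₀
    linarith
  have hsub2 : ball x₀ ((t + s) / 2) ⊆ ball x₀ s := ball_subset_ball (by linarith)
  have hl : ∀ x ∈ ball x₀ t, HolOn α
      (C₀ * (M + K * D₁ + K * ϱ ^ α * Z) + C₀ * ϱ ^ (1 - α) * (M + K * D₁ + K * M) + C₀ * M / ϱ ^ (1 + α))
      (ball x₀ t ∩ ball x (θ * ϱ)) (fderiv ℝ u) := fun x hx => by
    have hsub : ball x ϱ ⊆ ball x₀ ((t + s) / 2) := fun y hy => by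
      rw [mem_ball] at hx hy ⊢
      have := dist_triangle y x x₀
      linarith
    exact (Hloc K M Z D₁ ϱ x a b c u F g hK hM hZ hϱ0 (hD.mono (hsub.trans hsub2)) (hb.mono hsub le_rfl)
      (hZ'.mono (hsub.trans hsub2) le_rfl)).mono Set.inter_subset_right le_rfl
  exact (holOn_of_local (mul_pos hθ hϱ0) hα.le (hb.mono (ball_subset_ball (by linarith)) le_rfl) hl).mono
    subset_rfl hch

/-- **Interior Schauder estimate, divergence form.** -/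
theorem ell_sch_div (W : Type u) [NormedAddCommGroup W] [InnerProductSpace ℝ W] [FiniteDimensional ℝ W]
    [MeasurableSpace W] [BorelSpace W] {α lam Lam K r R : ℝ} (hα : 0 < α) (hα1 : α < 1) (hlam : 0 < lam)
    (hLam : lam ≤ Lam) (hK : 0 ≤ K) (hr : 0 < r) (hrR : r < R) :
    ∃ C : ℝ, 0 ≤ C ∧ ∀ (M : ℝ) (x₀ : W) (a : W → W →L[ℝ] W) (b : W → W)
      (c : W → ℝ) (u : W → ℝ) (F : W → W) (g : W → ℝ), 0 ≤ M →
      DivData α lam Lam K M (ball x₀ R) a b c u F g →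
      (∀ t < R, ∃ K', HolOn α K' (ball x₀ t) (fderiv ℝ u)) →
      BdOn (C * M) (ball x₀ r) (fderiv ℝ u) ∧ HolOn α (C * M) (ball x₀ r) (fderiv ℝ u) := by
  obtain ⟨C₁, hC₁, Hstep⟩ := ell_schdiv_step W hα hα1 hlam hLam hK
  obtain ⟨Ci, hCi, Hit⟩ := ell_iter (γ := 1 + α) (by linarith)
  obtain ⟨δ, hδ⟩ : ∃ δ, δ = (R - r) / 4 := ⟨_, rfl⟩
  have hδ0 : 0 < δ := by rw [hδ]; linarith
  have hδp : 0 < δ ^ (1 + α) := Real.rpow_pos_of_pos hδ0 _
  have hδa : 0 < (δ / 2) ^ α := Real.rpow_pos_of_pos (by linarith) _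
  obtain ⟨CZ, hCZ⟩ : ∃ CZ, CZ = Ci * (C₁ / δ ^ (1 + α) + C₁) := ⟨_, rfl⟩
  have hCZ0 : 0 ≤ CZ := by rw [hCZ]; positivity
  refine ⟨CZ + (4 / δ + (δ / 2) ^ α * CZ), by positivity, ?_⟩
  intro M x₀ a b c u F g hM hD hloc
  have hex : ∀ t ≤ r + 2 * δ, ∃ K', HolOn α K' (ball x₀ t) (fderiv ℝ u) := fun t ht =>
    hloc t (by rw [hδ] at ht; linarith)
  have hmono : ∀ t ≤ r + 2 * δ, ball x₀ t ⊆ ball x₀ R := fun t ht =>
    ball_subset_ball (by rw [hδ] at ht; linarith)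
  have hZr := Hit (fun t => holSemi α (ball x₀ t) (fderiv ℝ u)) (r + δ) (r + 2 * δ) (C₁ * M) (C₁ * M)
    (holSemi α (ball x₀ (r + 2 * δ)) (fderiv ℝ u)) (by linarith) (by positivity) (by positivity)
    (fun t ht => by
      obtain ⟨K', hK'⟩ := hex (r + 2 * δ) le_rfl
      exact holSemi_mono hK' (ball_subset_ball ht.2))
    (fun t s hrt hts hsR => by
      obtain ⟨K', hK'⟩ := hex s hsR
      have h1 := Hstep M (holSemi α (ball x₀ s) (fderiv ℝ u)) t s x₀ a b c u F g hM (holSemi_nonneg _ _ _)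
        (by linarith) hts (hD.mono (hmono s hsR)) (holOn_holSemi hK')
      have hp : 0 < (s - t) ^ (1 + α) := Real.rpow_pos_of_pos (sub_pos.2 hts) _
      have h0 := holSemi_nonneg α (ball x₀ s) (fderiv ℝ u)
      refine (holSemi_le (by positivity) h1).trans (le_of_eq ?_)
      ring)
  have hZr' : holSemi α (ball x₀ (r + δ)) (fderiv ℝ u) ≤ CZ * M := by
    refine hZr.trans (le_of_eq ?_)
    rw [hCZ, show r + 2 * δ - (r + δ) = δ by ring]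
    ring
  obtain ⟨K', hK'⟩ := hex (r + δ) (by linarith)
  have hH : HolOn α (CZ * M) (ball x₀ (r + δ)) (fderiv ℝ u) := (holOn_holSemi hK').mono subset_rfl hZr'
  have hD' := hD.mono (hmono (r + δ) (by linarith))
  constructor
  · intro x hx
    have h1 : ‖fderiv ℝ u x‖ ≤ 2 * M / (δ / 2) + (δ / 2) ^ α * (CZ * M) := by
      refine ell_interp_c1a isOpen_ball (by linarith) hα ?_ (hD'.u_c1.differentiableOn one_ne_zero) hD'.u_bd
        (by positivity) hH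
      intro y hy
      rw [mem_ball] at hx ⊢
      rw [mem_closedBall] at hy
      have := dist_triangle y x x₀
      linarith
    have h2 : 2 * M / (δ / 2) + (δ / 2) ^ α * (CZ * M) = (4 / δ + (δ / 2) ^ α * CZ) * M := by
      field_simp; ring
    have h3 : 0 ≤ CZ * M := by positivity
    rw [h2] at h1
    linarith
  · refine hH.mono (ball_subset_ball (by linarith)) ?_
    have h3 : 0 ≤ (4 / δ + (δ / 2) ^ α * CZ) * M := by positivity
    linarith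

end Claimed.Agent.Lib.Ell
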