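/-
Lib/Ell, package L-ell-sys (architect helper232): SYSTEMS WITH SCALAR PRINCIPAL PART: definitions, and the vector valued form of the
divergence form Schauder estimate.

`V` = finite dimensional real normed space (values), `Jet W V = W × V × (W →L[ℝ] V)`, `jet U x = (x, U x, DU x)`.
A quasilinear system:   `∫ 𝒜(jet U x)(∇φ x) dx + ∫ φ x • ℬ(jet U x) dx = 0`  for all tests `φ`     (`WeakSys`),
with SCALAR PRINCIPAL PART `𝒶`:  `∂_Q 𝒜(ξ)[Q'] = Q' ∘ 𝒶(ξ)`, `𝒶(ξ)` symmetric positive definite.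
Scalar quasilinear equations `div A(x,u,∇u) = B(x,u,∇u)` are the case `V = ℝ` (file Quasi).
A linear system with the same operator on all components: `∫ Dw(x)(a(x)∇φ x) dx = ∫ F(x)(∇φ x) dx`                   (`WeakDivV`).
-/
import Claimed.Agent.Lib.Ell.SchDiv

set_option autoImplicit false

namespace Claimed.Agent.Lib.Ell

open MeasureTheory Metric Filter
open scoped ContDiff RealInnerProductSpace Gradient Topology

universe u

variable {W : Type u} [NormedAddCommGroup W] [InnerProductSpace ℝ W] [FiniteDimensional ℝ W]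
variable {V : Type u} [NormedAddCommGroup V] [NormedSpace ℝ V]

/-- the space of 1-jets. -/
abbrev Jet (W V : Type u) [NormedAddCommGroup W] [InnerProductSpace ℝ W] [NormedAddCommGroup V] [NormedSpace ℝ V] :=
  W × V × (W →L[ℝ] V)

/-- the 1-jet of a map. -/
noncomputable def jet (U : W → V) (x : W) : Jet W V := (x, U x, fderiv ℝ U x)

/-- the jet box `{x ∈ ball x₀ R, ‖z‖ < K, ‖Q‖ < K}`: open and convex. -/
def jbox (x₀ : W) (R K : ℝ) : Set (Jet W V) := {ξ | ξ.1 ∈ ball x₀ R ∧ ‖ξ.2.1‖ < K ∧ ‖ξ.2.2‖ < K}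

/-- `C²` bounds on a set. -/
structure C2Le {X Y : Type u} [NormedAddCommGroup X] [NormedSpace ℝ X] [NormedAddCommGroup Y] [NormedSpace ℝ Y]
    (Lam : ℝ) (Ω : Set X) (f : X → Y) : Prop where
  c2 : ContDiffOn ℝ 2 f Ω
  b0 : BdOn Lam Ω f
  b1 : BdOn Lam Ω (fderiv ℝ f)
  b2 : BdOn Lam Ω (fderiv ℝ (fderiv ℝ f))

variable [MeasurableSpace W] [BorelSpace W]

/-- weak form of the quasilinear system. -/
def WeakSys (B : Set W) (𝒜 : Jet W V → W →L[ℝ] V) (ℬ : Jet W V → V) (U : W → V) : Prop :=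
  ∀ φ : W → ℝ, IsTest B φ → (∫ x, 𝒜 (jet U x) (∇ φ x)) + ∫ x, φ x • ℬ (jet U x) = 0

/-- weak form of the linear system `div(a ∇w) = div F` (the same scalar operator on all components). -/
def WeakDivV (B : Set W) (a : W → W →L[ℝ] W) (w : W → V) (F : W → W →L[ℝ] V) : Prop :=
  ∀ φ : W → ℝ, IsTest B φ → ∫ x, fderiv ℝ w x (a x (∇ φ x)) = ∫ x, F x (∇ φ x)

/-- the hypotheses of the step theorem.  `Ω` = an open convex set of jets on which the structure functions live; it contains the jets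
of `U` and bounds the derivative component by `K`.  (No constant will depend on `Ω`, `x₀`.) -/
structure SysData (α lam Lam K : ℝ) (Ω : Set (Jet W V)) (x₀ : W) (R : ℝ) (𝒜 : Jet W V → W →L[ℝ] V) (ℬ : Jet W V → V)
    (𝒶 : Jet W V → W →L[ℝ] W) (U : W → V) : Prop where
  Ω_open : IsOpen Ω
  Ω_convex : Convex ℝ Ω
  Ω_bd : ∀ ξ ∈ Ω, ‖ξ.2.2‖ ≤ K
  A_c2 : C2Le Lam Ω 𝒜
  B_c2 : C2Le Lam Ω ℬ
  a_c2 : C2Le Lam Ω 𝒶
  a_ell : ∀ ξ ∈ Ω, EllMat lam Lam (𝒶 ξ)
  str : ∀ ξ ∈ Ω, ∀ Q' : W →L[ℝ] V, fderiv ℝ 𝒜 ξ (0, 0, Q') = Q' ∘L 𝒶 ξ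
  U_c1 : ContDiffOn ℝ 1 U (ball x₀ R)
  U_jet : ∀ x ∈ ball x₀ R, jet U x ∈ Ω
  U_hol : HolOn α K (ball x₀ R) (fderiv ℝ U)
  weak : WeakSys (ball x₀ R) 𝒜 ℬ U

omit [FiniteDimensional ℝ W] [MeasurableSpace W] [BorelSpace W] in
theorem jbox_isOpen (x₀ : W) (R K : ℝ) : IsOpen (jbox x₀ R K : Set (Jet W V)) := by
  have h1 : IsOpen {ξ : Jet W V | ξ.1 ∈ ball x₀ R} := isOpen_ball.preimage continuous_fst
  have h2 : IsOpen {ξ : Jet W V | ‖ξ.2.1‖ < K} := isOpen_lt (by fun_prop) continuous_const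
  have h3 : IsOpen {ξ : Jet W V | ‖ξ.2.2‖ < K} := isOpen_lt (by fun_prop) continuous_const
  exact h1.inter (h2.inter h3)

omit [FiniteDimensional ℝ W] [MeasurableSpace W] [BorelSpace W] in
theorem jbox_convex (x₀ : W) (R K : ℝ) : Convex ℝ (jbox x₀ R K : Set (Jet W V)) := by
  have h : (jbox x₀ R K : Set (Jet W V)) = ball x₀ R ×ˢ (ball (0 : V) K ×ˢ ball (0 : W →L[ℝ] V) K) := by
    ext ξ
    simp [jbox, Set.mem_prod]
  rw [h]
  exact (convex_ball _ _).prod ((convex_ball _ _).prod (convex_ball _ _))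

/-! ### duality: from scalar to vector valued bounds -/

omit [MeasurableSpace W] [BorelSpace W] [FiniteDimensional ℝ W] [InnerProductSpace ℝ W] in
/-- a bound for all `ℓ ∘ f`, `‖ℓ‖ ≤ 1`, is a bound for `f` (`exists_dual_vector''`). -/
theorem bdOn_of_dual {K : ℝ} {s : Set W} {f : W → V} (h : ∀ ℓ : V →L[ℝ] ℝ, ‖ℓ‖ ≤ 1 → BdOn K s (fun x => ℓ (f x))) :
    BdOn K s f := by
  intro x hx
  obtain ⟨ℓ, hℓ, hℓx⟩ := exists_dual_vector'' ℝ (f x)
  have : ‖ℓ (f x)‖ ≤ K := h ℓ hℓ x hx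
  rw [hℓx] at this
  simpa using this

omit [MeasurableSpace W] [BorelSpace W] [FiniteDimensional ℝ W] [InnerProductSpace ℝ W] in
theorem holOn_of_dual {α K : ℝ} {s : Set W} {f : W → V}
    (h : ∀ ℓ : V →L[ℝ] ℝ, ‖ℓ‖ ≤ 1 → HolOn α K s (fun x => ℓ (f x))) : HolOn α K s f := by
  intro x hx y hy
  obtain ⟨ℓ, hℓ, hℓx⟩ := exists_dual_vector'' ℝ (f x - f y)
  have := h ℓ hℓ x hx y hy
  rw [← map_sub, hℓx] at this
  simpa using this

omit [MeasurableSpace W] [BorelSpace W] [FiniteDimensional ℝ W] in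
/-- the same for operator valued maps. -/
theorem bdOn_clm_of_dual {K : ℝ} (hK : 0 ≤ K) {s : Set W} {f : W → W →L[ℝ] V}
    (h : ∀ ℓ : V →L[ℝ] ℝ, ‖ℓ‖ ≤ 1 → BdOn K s (fun x => ℓ ∘L f x)) : BdOn K s f := by
  intro x hx
  refine ContinuousLinearMap.opNorm_le_bound _ hK fun v => ?_
  obtain ⟨ℓ, hℓ, hℓx⟩ := exists_dual_vector'' ℝ (f x v)
  have h1 := h ℓ hℓ x hx
  have h2 : ‖(ℓ ∘L f x) v‖ ≤ K * ‖v‖ := (ContinuousLinearMap.le_opNorm _ _).trans (by gcongr)
  rw [ContinuousLinearMap.comp_apply, hℓx] at h2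
  simpa using h2

omit [MeasurableSpace W] [BorelSpace W] [FiniteDimensional ℝ W] in
theorem holOn_clm_of_dual {α K : ℝ} (hK : 0 ≤ K) {s : Set W} {f : W → W →L[ℝ] V}
    (h : ∀ ℓ : V →L[ℝ] ℝ, ‖ℓ‖ ≤ 1 → HolOn α K s (fun x => ℓ ∘L f x)) : HolOn α K s f := by
  intro x hx y hy
  refine ContinuousLinearMap.opNorm_le_bound _ (by positivity) fun v => ?_
  obtain ⟨ℓ, hℓ, hℓx⟩ := exists_dual_vector'' ℝ ((f x - f y) v)
  have h1 := h ℓ hℓ x hx y hy
  have h2 : ‖(ℓ ∘L f x - ℓ ∘L f y) v‖ ≤ K * ‖x - y‖ ^ α * ‖v‖ :=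
    (ContinuousLinearMap.le_opNorm _ _).trans (by gcongr)
  rw [← ContinuousLinearMap.comp_sub, ContinuousLinearMap.comp_apply, hℓx] at h2
  simpa using h2

omit [InnerProductSpace ℝ W] [FiniteDimensional ℝ W] [MeasurableSpace W] [BorelSpace W] [NormedSpace ℝ V] in
/-- continuous on an open set and zero off a closed subset: continuous. -/
theorem ell_sys_continuous_of_zero_off {B T : Set W} (hB : IsOpen B) (hT : IsClosed T) (hTB : T ⊆ B) {g : W → V}
    (hg : ContinuousOn g B) (h0 : ∀ x, x ∉ T → g x = 0) : Continuous g := by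
  rw [continuous_iff_continuousAt]
  intro x
  by_cases hx : x ∈ B
  · exact hg.continuousAt (hB.mem_nhds hx)
  · have hxT : x ∈ Tᶜ := fun h => hx (hTB h)
    have : g =ᶠ[𝓝 x] fun _ => (0 : V) := by
      filter_upwards [hT.isOpen_compl.mem_nhds hxT] with y hy using h0 y hy
    exact continuousAt_const.congr this.symm

omit [MeasurableSpace W] [BorelSpace W] in
theorem ell_sys_gradient_zero_off {φ : W → ℝ} {x : W} (hx : x ∉ tsupport φ) : ∇ φ x = 0 := by
  have h : fderiv ℝ φ x = 0 := by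
    have := support_fderiv_subset ℝ (f := φ)
    by_contra hne
    exact hx (this (Function.mem_support.2 hne))
  simp [gradient, h]

/-- integrability of `G x (∇ φ x)`, `G` continuous on `B`, `φ` a test function. -/
theorem ell_sys_integrable_clm_test {B : Set W} (hB : IsOpen B) {G : W → W →L[ℝ] V} (hG : ContinuousOn G B)
    {φ : W → ℝ} (hφ : IsTest B φ) : Integrable (fun x => G x (∇ φ x)) := by
  have hgrad : Continuous (fun x => ∇ φ x) := by
    have h1 : Continuous (fderiv ℝ φ) := hφ.1.continuous_fderiv (by simp)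
    exact (InnerProductSpace.toDual ℝ W).symm.continuous.comp h1
  have hc : Continuous (fun x => G x (∇ φ x)) := by
    refine ell_sys_continuous_of_zero_off hB (isClosed_tsupport φ) hφ.2.2 ?_ ?_
    · exact hG.clm_apply hgrad.continuousOn
    · intro x hx
      rw [ell_sys_gradient_zero_off hx, map_zero]
  refine hc.integrable_of_hasCompactSupport ?_
  refine HasCompactSupport.intro hφ.2.1 ?_
  intro x hx
  rw [ell_sys_gradient_zero_off hx, map_zero]

/-- the scalar problem solved by `ℓ ∘ w`; the right hand side is the vector representing `ℓ ∘ F x`. -/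
theorem WeakDivV.scalar [CompleteSpace V] {B : Set W} (hB : IsOpen B) {a : W → W →L[ℝ] W} {w : W → V}
    {F : W → W →L[ℝ] V} (hw : WeakDivV B a w F) (ha : ContinuousOn a B)
    (hsym : ∀ x ∈ B, ∀ ξ η : W, ⟪a x ξ, η⟫ = ⟪ξ, a x η⟫) (hw1 : ContDiffOn ℝ 1 w B) (hF : ContinuousOn F B)
    (ℓ : V →L[ℝ] ℝ) :
    WeakDiv B a 0 0 (fun x => ℓ (w x)) (fun x => (InnerProductSpace.toDual ℝ W).symm (ℓ ∘L F x)) 0 := by
  intro φ hφ
  have hDw : ContinuousOn (fderiv ℝ w) B := hw1.continuousOn_fderiv_of_isOpen hB le_rfl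
  have hG : ContinuousOn (fun x => fderiv ℝ w x ∘L a x) B := hDw.clm_comp ha
  have hI1 : Integrable (fun x => fderiv ℝ w x (a x (∇ φ x))) := ell_sys_integrable_clm_test hB hG hφ
  have hI2 : Integrable (fun x => F x (∇ φ x)) := ell_sys_integrable_clm_test hB hF hφ
  have hL : ∀ x, ⟪a x (∇ (fun x => ℓ (w x)) x), ∇ φ x⟫ = ℓ (fderiv ℝ w x (a x (∇ φ x))) := by
    intro x
    by_cases hx : x ∈ tsupport φ
    · have hxB : x ∈ B := hφ.2.2 hx
      have hd : DifferentiableAt ℝ w x := (hw1.differentiableOn one_ne_zero).differentiableAt (hB.mem_nhds hxB)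
      have hfd : fderiv ℝ (fun x => ℓ (w x)) x = ℓ ∘L fderiv ℝ w x :=
        (ℓ.hasFDerivAt.comp x hd.hasFDerivAt).fderiv
      rw [hsym x hxB, gradient, hfd, InnerProductSpace.toDual_symm_apply]
      rfl
    · rw [ell_sys_gradient_zero_off hx]
      simp
  have hR : ∀ x, ⟪(InnerProductSpace.toDual ℝ W).symm (ℓ ∘L F x), ∇ φ x⟫ = ℓ (F x (∇ φ x)) := by
    intro x
    rw [InnerProductSpace.toDual_symm_apply]
    rfl
  simp only [hL, hR]
  rw [ContinuousLinearMap.integral_comp_comm ℓ hI1, ContinuousLinearMap.integral_comp_comm ℓ hI2, hw φ hφ]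
  simp

/-- **Interior Schauder estimate, divergence form, vector valued.** -/
theorem ell_sch_div_V (W V : Type u) [NormedAddCommGroup W] [InnerProductSpace ℝ W] [FiniteDimensional ℝ W]
    [MeasurableSpace W] [BorelSpace W] [NormedAddCommGroup V] [NormedSpace ℝ V] [CompleteSpace V]
    {α lam Lam K r R : ℝ} (hα : 0 < α) (hα1 : α < 1) (hlam : 0 < lam)
    (hLam : lam ≤ Lam) (hK : 0 ≤ K) (hr : 0 < r) (hrR : r < R) :
    ∃ C : ℝ, 0 ≤ C ∧ ∀ (M : ℝ) (x₀ : W) (a : W → W →L[ℝ] W) (w : W → V) (F : W → W →L[ℝ] V), 0 ≤ M →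
      EllOn lam Lam (ball x₀ R) a → HolOn α K (ball x₀ R) a → ContDiffOn ℝ 1 w (ball x₀ R) →
      BdOn M (ball x₀ R) w → HolOn α M (ball x₀ R) F → WeakDivV (ball x₀ R) a w F →
      (∀ t < R, ∃ K', HolOn α K' (ball x₀ t) (fderiv ℝ w)) →
      BdOn (C * M) (ball x₀ r) (fderiv ℝ w) ∧ HolOn α (C * M) (ball x₀ r) (fderiv ℝ w) := by
  obtain ⟨C, hC, H⟩ := ell_sch_div W hα hα1 hlam hLam hK hr hrR
  refine ⟨C, hC, ?_⟩
  intro M x₀ a w F hM hell ha hw1 hwb hF hweak hloc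
  have hopen : IsOpen (ball x₀ R) := isOpen_ball
  have hfd : ∀ (ℓ : V →L[ℝ] ℝ), ∀ x ∈ ball x₀ R, fderiv ℝ (fun x => ℓ (w x)) x = ℓ ∘L fderiv ℝ w x := by
    intro ℓ x hx
    have hd : DifferentiableAt ℝ w x := (hw1.differentiableOn one_ne_zero).differentiableAt (hopen.mem_nhds hx)
    exact (ℓ.hasFDerivAt.comp x hd.hasFDerivAt).fderiv
  have key : ∀ (ℓ : V →L[ℝ] ℝ), ‖ℓ‖ ≤ 1 →
      BdOn (C * M) (ball x₀ r) (fderiv ℝ (fun x => ℓ (w x))) ∧
        HolOn α (C * M) (ball x₀ r) (fderiv ℝ (fun x => ℓ (w x))) := by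
    intro ℓ hℓ
    refine H M x₀ a 0 0 (fun x => ℓ (w x)) (fun x => (InnerProductSpace.toDual ℝ W).symm (ℓ ∘L F x)) 0 hM ?_ ?_
    · refine ⟨hell, ha, continuousOn_const, ?_, continuousOn_const, ?_, ?_, ?_, ?_, continuousOn_const, ?_, ?_⟩
      · intro x _
        simpa using hK
      · intro x _
        simpa using hK
      · exact ℓ.contDiff.comp_contDiffOn hw1
      · intro x hx
        calc ‖ℓ (w x)‖ ≤ ‖ℓ‖ * ‖w x‖ := ℓ.le_opNorm _
          _ ≤ 1 * M := by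
            gcongr
            exact hwb x hx
          _ = M := one_mul _
      · intro x hx y hy
        rw [← map_sub, LinearIsometryEquiv.norm_map, ← ContinuousLinearMap.comp_sub]
        calc ‖ℓ ∘L (F x - F y)‖ ≤ ‖ℓ‖ * ‖F x - F y‖ := ContinuousLinearMap.opNorm_comp_le _ _
          _ ≤ 1 * ‖F x - F y‖ := by gcongr
          _ = ‖F x - F y‖ := one_mul _
          _ ≤ _ := hF x hx y hy
      · intro x _
        simpa using hM
      · exact hweak.scalar hopen (ha.continuousOn hα) (fun x hx => (hell x hx).1) hw1 (hF.continuousOn hα) ℓ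
    · intro t ht
      obtain ⟨K', hK'⟩ := hloc t ht
      refine ⟨K', ?_⟩
      intro x hx y hy
      have hsub : ball x₀ t ⊆ ball x₀ R := ball_subset_ball ht.le
      rw [hfd ℓ x (hsub hx), hfd ℓ y (hsub hy), ← ContinuousLinearMap.comp_sub]
      calc ‖ℓ ∘L (fderiv ℝ w x - fderiv ℝ w y)‖ ≤ ‖ℓ‖ * ‖fderiv ℝ w x - fderiv ℝ w y‖ :=
            ContinuousLinearMap.opNorm_comp_le _ _
        _ ≤ 1 * ‖fderiv ℝ w x - fderiv ℝ w y‖ := by gcongr
        _ = ‖fderiv ℝ w x - fderiv ℝ w y‖ := one_mul _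
        _ ≤ _ := hK' x hx y hy
  have hsub : ball x₀ r ⊆ ball x₀ R := ball_subset_ball hrR.le
  have hCM : 0 ≤ C * M := mul_nonneg hC hM
  constructor
  · refine bdOn_clm_of_dual hCM fun ℓ hℓ => ?_
    intro x hx
    have := (key ℓ hℓ).1 x hx
    rwa [hfd ℓ x (hsub hx)] at this
  · refine holOn_clm_of_dual hCM fun ℓ hℓ => ?_
    intro x hx y hy
    have := (key ℓ hℓ).2 x hx y hy
    rwa [hfd ℓ x (hsub hx), hfd ℓ y (hsub hy)] at this

end Claimed.Agent.Lib.Ell
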