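/-
Lib/Ell, package L-ell-cb (architect helper232): SMOOTH MAPS WITH BOUNDS ON ALL DERIVATIVES.   Mathlib + Sys (definition `C2Le`) only.
`CbLe Λ Ω f`: `f` is smooth on `Ω` (open in all uses) and `‖D^j f‖ ≤ Λ j` on `Ω` for all `j`.  The calculus below has EXPLICIT bound
sequences, so that "the new bounds depend only on the old bounds" is visible in the statements.
MATHLIB: `norm_iteratedFDeriv_fderiv`, `ContinuousLinearMap.norm_iteratedFDerivWithin_le_of_bilinear`,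
`ContinuousLinearMap.iteratedFDeriv_comp_right` / `iteratedFDerivWithin_comp_right`, `ContinuousLinearMap.iteratedFDeriv_comp_left`,
`iteratedFDerivWithin_of_isOpen`, `norm_iteratedFDeriv_zero`, `norm_iteratedFDeriv_one`.
-/
import Claimed.Agent.Lib.Ell.Sys

set_option autoImplicit false

namespace Claimed.Agent.Lib.Ell

open Metric Filter
open scoped ContDiff Topology

universe u

variable {X X' Y Y₁ Y₂ Y₃ : Type u} [NormedAddCommGroup X] [NormedSpace ℝ X] [NormedAddCommGroup X'] [NormedSpace ℝ X']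
  [NormedAddCommGroup Y] [NormedSpace ℝ Y] [NormedAddCommGroup Y₁] [NormedSpace ℝ Y₁]
  [NormedAddCommGroup Y₂] [NormedSpace ℝ Y₂] [NormedAddCommGroup Y₃] [NormedSpace ℝ Y₃]

/-- smooth on `Ω` with `‖D^j f‖ ≤ Λ j`. -/
structure CbLe (Λ : ℕ → ℝ) (Ω : Set X) (f : X → Y) : Prop where
  smooth : ContDiffOn ℝ ∞ f Ω
  bd : ∀ j : ℕ, ∀ x ∈ Ω, ‖iteratedFDeriv ℝ j f x‖ ≤ Λ j

variable {Λ Λ' Λ₁ Λ₂ : ℕ → ℝ} {Ω Ω₀ : Set X} {f g : X → Y}

theorem CbLe.mono (h : CbLe Λ Ω f) (hΩ : Ω₀ ⊆ Ω) (hΛ : ∀ j, Λ j ≤ Λ' j) : CbLe Λ' Ω₀ f := by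
  exact ⟨h.smooth.mono hΩ, fun j x hx => (h.bd j x (hΩ hx)).trans (hΛ j)⟩

theorem CbLe.congr (hΩ : IsOpen Ω) (h : CbLe Λ Ω f) (hfg : ∀ x ∈ Ω, g x = f x) : CbLe Λ Ω g := by
  refine ⟨h.smooth.congr hfg, fun j x hx => ?_⟩
  have h1 : g =ᶠ[𝓝 x] f := by
    filter_upwards [hΩ.mem_nhds hx] with y hy using hfg y hy
  rw [(h1.iteratedFDeriv (𝕜 := ℝ) j).self_of_nhds]
  exact h.bd j x hx

/-- smoothness at a point of the open set. -/
theorem CbLe.ell_at (hΩ : IsOpen Ω) (h : CbLe Λ Ω f) {x : X} (hx : x ∈ Ω) (j : ℕ) : ContDiffAt ℝ j f x :=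
  (h.smooth.contDiffAt (hΩ.mem_nhds hx)).of_le (by exact_mod_cast le_top)

theorem CbLe.fd (hΩ : IsOpen Ω) (h : CbLe Λ Ω f) : CbLe (fun j => Λ (j + 1)) Ω (fderiv ℝ f) := by
  refine ⟨h.smooth.fderiv_of_isOpen hΩ (m := ∞) (by simp), fun j x hx => ?_⟩
  rw [norm_iteratedFDeriv_fderiv]
  exact h.bd (j + 1) x hx

theorem CbLe.add (hΩ : IsOpen Ω) (hf : CbLe Λ₁ Ω f) (hg : CbLe Λ₂ Ω g) :
    CbLe (fun j => Λ₁ j + Λ₂ j) Ω (fun x => f x + g x) := by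
  refine ⟨hf.smooth.add hg.smooth, fun j x hx => ?_⟩
  have e : iteratedFDeriv ℝ j (fun x => f x + g x) x = iteratedFDeriv ℝ j f x + iteratedFDeriv ℝ j g x :=
    iteratedFDeriv_add_apply (hf.ell_at hΩ hx j) (hg.ell_at hΩ hx j)
  rw [e]
  exact (norm_add_le _ _).trans (add_le_add (hf.bd j x hx) (hg.bd j x hx))

theorem CbLe.sub (hΩ : IsOpen Ω) (hf : CbLe Λ₁ Ω f) (hg : CbLe Λ₂ Ω g) :
    CbLe (fun j => Λ₁ j + Λ₂ j) Ω (fun x => f x - g x) := by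
  refine ⟨hf.smooth.sub hg.smooth, fun j x hx => ?_⟩
  have e : iteratedFDeriv ℝ j (fun x => f x - g x) x = iteratedFDeriv ℝ j f x - iteratedFDeriv ℝ j g x :=
    iteratedFDeriv_sub_apply (hf.ell_at hΩ hx j) (hg.ell_at hΩ hx j)
  rw [e]
  exact (norm_sub_le _ _).trans (add_le_add (hf.bd j x hx) (hg.bd j x hx))

theorem CbLe.neg (hΩ : IsOpen Ω) (hf : CbLe Λ Ω f) : CbLe Λ Ω (fun x => - f x) := by
  refine ⟨hf.smooth.neg, fun j x hx => ?_⟩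
  have e : iteratedFDeriv ℝ j (fun x => - f x) x = - iteratedFDeriv ℝ j f x :=
    iteratedFDeriv_neg_apply
  rw [e, norm_neg]
  exact hf.bd j x hx

/-- post-composition with a continuous linear map. -/
theorem CbLe.clm_post (hΩ : IsOpen Ω) (hf : CbLe Λ Ω f) (T : Y →L[ℝ] Y₁) :
    CbLe (fun j => ‖T‖ * Λ j) Ω (fun x => T (f x)) := by
  refine ⟨T.contDiff.comp_contDiffOn hf.smooth, fun j x hx => ?_⟩
  have e : iteratedFDeriv ℝ j (fun x => T (f x)) x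
      = T.compContinuousMultilinearMap (iteratedFDeriv ℝ j f x) :=
    T.iteratedFDeriv_comp_left (hf.ell_at hΩ hx j) le_rfl
  rw [e]
  exact (T.norm_compContinuousMultilinearMap_le _).trans
    (mul_le_mul_of_nonneg_left (hf.bd j x hx) (norm_nonneg _))

/-- pre-composition with a continuous linear map. -/
theorem CbLe.comp_clm (hΩ : IsOpen Ω) (hf : CbLe Λ Ω f) {Ω' : Set X'} (hΩ' : IsOpen Ω') (π : X' →L[ℝ] X)
    (hπ : Set.MapsTo π Ω' Ω) : CbLe (fun j => Λ j * ‖π‖ ^ j) Ω' (fun x => f (π x)) := by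
  refine ⟨hf.smooth.comp π.contDiff.contDiffOn hπ, fun j x hx => ?_⟩
  have ho : IsOpen (π ⁻¹' Ω) := hΩ.preimage π.continuous
  have hx' : x ∈ π ⁻¹' Ω := hπ hx
  have e := π.iteratedFDerivWithin_comp_right (f := f) (n := ∞) hf.smooth hΩ.uniqueDiffOn
    ho.uniqueDiffOn (x := x) (hπ hx) (i := j) (by exact_mod_cast le_top)
  rw [iteratedFDerivWithin_of_isOpen j ho hx', iteratedFDerivWithin_of_isOpen j hΩ (hπ hx)] at e
  have e' : iteratedFDeriv ℝ j (fun x => f (π x)) x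
      = (iteratedFDeriv ℝ j f (π x)).compContinuousLinearMap fun _ => π := e
  rw [e']
  refine (ContinuousMultilinearMap.norm_compContinuousLinearMap_le _ _).trans ?_
  rw [Finset.prod_const, Finset.card_univ, Fintype.card_fin]
  exact mul_le_mul_of_nonneg_right (hf.bd j _ (hπ hx)) (by positivity)

/-- bilinear pairings. -/
theorem CbLe.bilin (hΩ : IsOpen Ω) {f₁ : X → Y₁} {f₂ : X → Y₂} (h₁ : CbLe Λ₁ Ω f₁) (h₂ : CbLe Λ₂ Ω f₂)
    (Bm : Y₁ →L[ℝ] Y₂ →L[ℝ] Y₃) :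
    CbLe (fun n => ‖Bm‖ * ∑ i ∈ Finset.range (n + 1), (n.choose i : ℝ) * Λ₁ i * Λ₂ (n - i)) Ω
      (fun x => Bm (f₁ x) (f₂ x)) := by
  refine ⟨Bm.isBoundedBilinearMap.contDiff.comp_contDiffOn (h₁.smooth.prodMk h₂.smooth),
    fun n x hx => ?_⟩
  have h := Bm.norm_iteratedFDerivWithin_le_of_bilinear h₁.smooth h₂.smooth hΩ.uniqueDiffOn hx
    (n := n) (by exact_mod_cast le_top)
  rw [iteratedFDerivWithin_of_isOpen n hΩ hx] at h
  refine h.trans (mul_le_mul_of_nonneg_left (Finset.sum_le_sum fun i _ => ?_) (norm_nonneg Bm))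
  rw [iteratedFDerivWithin_of_isOpen i hΩ hx, iteratedFDerivWithin_of_isOpen (n - i) hΩ hx]
  have a1 := h₁.bd i x hx
  have a2 := h₂.bd (n - i) x hx
  have a0 : (0 : ℝ) ≤ (n.choose i : ℝ) := Nat.cast_nonneg _
  exact mul_le_mul (mul_le_mul_of_nonneg_left a1 a0) a2 (norm_nonneg _)
    (mul_nonneg a0 ((norm_nonneg _).trans a1))

/-- pairs. -/
theorem CbLe.prodMk (hΩ : IsOpen Ω) {f₁ : X → Y₁} {f₂ : X → Y₂} (h₁ : CbLe Λ₁ Ω f₁) (h₂ : CbLe Λ₂ Ω f₂) :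
    CbLe (fun j => Λ₁ j + Λ₂ j) Ω (fun x => (f₁ x, f₂ x)) := by
  have h := (h₁.clm_post hΩ (ContinuousLinearMap.inl ℝ Y₁ Y₂)).add hΩ
    (h₂.clm_post hΩ (ContinuousLinearMap.inr ℝ Y₁ Y₂))
  have e : (fun x => (ContinuousLinearMap.inl ℝ Y₁ Y₂) (f₁ x) + (ContinuousLinearMap.inr ℝ Y₁ Y₂) (f₂ x))
      = fun x => (f₁ x, f₂ x) := by
    funext x
    simp
  rw [e] at h
  refine ⟨h.smooth, fun j x hx => (h.bd j x hx).trans ?_⟩
  have a1 : 0 ≤ Λ₁ j := (norm_nonneg _).trans (h₁.bd j x hx)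
  have a2 : 0 ≤ Λ₂ j := (norm_nonneg _).trans (h₂.bd j x hx)
  have b1 : ‖ContinuousLinearMap.inl ℝ Y₁ Y₂‖ * Λ₁ j ≤ 1 * Λ₁ j :=
    mul_le_mul_of_nonneg_right (ContinuousLinearMap.norm_inl_le_one ℝ Y₁ Y₂) a1
  have b2 : ‖ContinuousLinearMap.inr ℝ Y₁ Y₂‖ * Λ₂ j ≤ 1 * Λ₂ j :=
    mul_le_mul_of_nonneg_right (ContinuousLinearMap.norm_inr_le_one ℝ Y₁ Y₂) a2
  linarith

/-- a continuous linear map which is bounded by `ρ` on `Ω`. -/
theorem cbLe_clm (T : X →L[ℝ] Y) {ρ : ℝ} (hρ : ∀ x ∈ Ω, ‖T x‖ ≤ ρ) :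
    CbLe (fun j => if j = 0 then ρ else ‖T‖) Ω (fun x => T x) := by
  refine ⟨T.contDiff.contDiffOn, fun j x hx => ?_⟩
  cases j with
  | zero =>
    rw [norm_iteratedFDeriv_zero]
    simpa using hρ x hx
  | succ n =>
    rw [if_neg (Nat.succ_ne_zero n), ← norm_iteratedFDeriv_fderiv]
    have e : fderiv ℝ (fun x => T x) = fun _ => T := by
      funext y
      exact T.fderiv
    rw [e]
    rcases Nat.eq_zero_or_pos n with rfl | hn
    · rw [norm_iteratedFDeriv_zero]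
    · rw [iteratedFDeriv_const_of_ne hn.ne']
      simp

theorem cbLe_const (c : Y) : CbLe (fun _ => ‖c‖) Ω (fun _ : X => c) := by
  refine ⟨contDiffOn_const, fun j x _ => ?_⟩
  rcases Nat.eq_zero_or_pos j with rfl | hj
  · rw [norm_iteratedFDeriv_zero]
  · rw [iteratedFDeriv_const_of_ne hj.ne']
    simp

/-- the first three bounds. -/
theorem CbLe.c2Le (hΩ : IsOpen Ω) (h : CbLe Λ Ω f) {Lam : ℝ} (h0 : Λ 0 ≤ Lam) (h1 : Λ 1 ≤ Lam) (h2 : Λ 2 ≤ Lam) :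
    C2Le Lam Ω f := by
  refine ⟨h.smooth.of_le (by norm_cast), fun x hx => ?_, fun x hx => ?_, fun x hx => ?_⟩
  · rw [← norm_iteratedFDeriv_zero (𝕜 := ℝ)]
    exact (h.bd 0 x hx).trans h0
  · rw [← norm_iteratedFDeriv_one (𝕜 := ℝ)]
    exact (h.bd 1 x hx).trans h1
  · rw [← norm_iteratedFDeriv_one (𝕜 := ℝ), norm_iteratedFDeriv_fderiv]
    exact (h.bd 2 x hx).trans h2

/-- from bounds of `f` and of all derivatives of `Df` to bounds of `f`. -/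
theorem cbLe_of_fderiv (hΩ : IsOpen Ω) {K : ℝ} (hd : DifferentiableOn ℝ f Ω) (h0 : BdOn K Ω f)
    (h : CbLe Λ Ω (fderiv ℝ f)) : CbLe (fun j => if j = 0 then K else Λ (j - 1)) Ω f := by
  refine ⟨(contDiffOn_infty_iff_fderiv_of_isOpen hΩ).2 ⟨hd, h.smooth⟩, fun j x hx => ?_⟩
  cases j with
  | zero =>
    rw [norm_iteratedFDeriv_zero]
    simpa using h0 x hx
  | succ n =>
    rw [if_neg (Nat.succ_ne_zero n), ← norm_iteratedFDeriv_fderiv]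
    simpa using h.bd n x hx

end Claimed.Agent.Lib.Ell
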