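/-
Lib/Ell, package L-ell-had (architect helper232): SEGMENT AVERAGES and HADAMARD'S LEMMA.   Mathlib + Sys (definitions) only.
`avg a ξ ξ' = ∫₀¹ a(ξ + t(ξ' - ξ)) dt`.   `f ξ' - f ξ = avg (Df) ξ ξ' (ξ' - ξ)`.   Everything on a convex open set `Ω`.
Last lemma: discrete integration by parts `∫ φ (β(·+v) - β) = - ∫ (∂_v φ) avg β x (x+v) dx`
(PLAN: `G(x) = avg β̃ x (x+v)`, `β̃` = `β` times a continuous cut-off, has the line derivative `β̃(x+v) - β̃(x)` in the direction `v` by the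
fundamental theorem of calculus; `integral_bilinear_hasLineDerivAt_right_eq_neg_left_of_integrable`; no Fubini.)
-/
import Claimed.Agent.Lib.Ell.Sys

set_option autoImplicit false

namespace Claimed.Agent.Lib.Ell

open MeasureTheory Metric Filter
open scoped ContDiff RealInnerProductSpace Gradient Topology

universe u

variable {X Y Y' : Type u} [NormedAddCommGroup X] [NormedSpace ℝ X] [NormedAddCommGroup Y] [NormedSpace ℝ Y]
  [NormedAddCommGroup Y'] [NormedSpace ℝ Y']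

/-- the average of `a` over the segment `[ξ, ξ']`. -/
noncomputable def avg (a : X → Y) (ξ ξ' : X) : Y := ∫ t in (0 : ℝ)..1, a (ξ + t • (ξ' - ξ))

variable {Ω : Set X} {a : X → Y} {ξ ξ' ξ₁ ξ₁' ξ₂ ξ₂' : X} {Lam L : ℝ}

theorem avg_intervalIntegrable (hΩ : Convex ℝ Ω) (ha : ContinuousOn a Ω) (hξ : ξ ∈ Ω) (hξ' : ξ' ∈ Ω) :
    IntervalIntegrable (fun t : ℝ => a (ξ + t • (ξ' - ξ))) volume 0 1 := by
  apply ContinuousOn.intervalIntegrable
  rw [Set.uIcc_of_le zero_le_one]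
  exact ha.comp (by fun_prop) (fun t ht => hΩ.add_smul_sub_mem hξ hξ' ht)

theorem avg_self [CompleteSpace Y] (a : X → Y) (ξ : X) : avg a ξ ξ = a ξ := by
  simp [avg]

theorem avg_norm_le (hΩ : Convex ℝ Ω) (hb : BdOn Lam Ω a) (hξ : ξ ∈ Ω) (hξ' : ξ' ∈ Ω) : ‖avg a ξ ξ'‖ ≤ Lam := by
  have h := intervalIntegral.norm_integral_le_of_norm_le_const (a := (0 : ℝ)) (b := 1) (C := Lam)
    (f := fun t : ℝ => a (ξ + t • (ξ' - ξ))) (fun t ht => by
      rw [Set.uIoc_of_le zero_le_one] at ht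
      exact hb _ (hΩ.add_smul_sub_mem hξ hξ' ⟨ht.1.le, ht.2⟩))
  simpa [avg] using h

theorem avg_lip (hΩ : Convex ℝ Ω) (ha : ContinuousOn a Ω) (hL : ∀ p ∈ Ω, ∀ q ∈ Ω, ‖a p - a q‖ ≤ L * ‖p - q‖)
    (h₁ : ξ₁ ∈ Ω) (h₁' : ξ₁' ∈ Ω) (h₂ : ξ₂ ∈ Ω) (h₂' : ξ₂' ∈ Ω) :
    ‖avg a ξ₁ ξ₁' - avg a ξ₂ ξ₂'‖ ≤ L * max ‖ξ₁ - ξ₂‖ ‖ξ₁' - ξ₂'‖ := by
  by_cases hL0 : 0 ≤ L
  · unfold avg
    rw [← intervalIntegral.integral_sub (avg_intervalIntegrable hΩ ha h₁ h₁') (avg_intervalIntegrable hΩ ha h₂ h₂')]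
    have h := intervalIntegral.norm_integral_le_of_norm_le_const (a := (0 : ℝ)) (b := 1)
      (C := L * max ‖ξ₁ - ξ₂‖ ‖ξ₁' - ξ₂'‖)
      (f := fun t : ℝ => a (ξ₁ + t • (ξ₁' - ξ₁)) - a (ξ₂ + t • (ξ₂' - ξ₂))) (fun t ht => by
        rw [Set.uIoc_of_le zero_le_one] at ht
        have ht' : t ∈ Set.Icc (0 : ℝ) 1 := ⟨ht.1.le, ht.2⟩
        refine (hL _ (hΩ.add_smul_sub_mem h₁ h₁' ht') _ (hΩ.add_smul_sub_mem h₂ h₂' ht')).trans ?_
        gcongr
        have e : ξ₁ + t • (ξ₁' - ξ₁) - (ξ₂ + t • (ξ₂' - ξ₂)) = (1 - t) • (ξ₁ - ξ₂) + t • (ξ₁' - ξ₂') := by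
          module
        rw [e]
        calc ‖(1 - t) • (ξ₁ - ξ₂) + t • (ξ₁' - ξ₂')‖ ≤ ‖(1 - t) • (ξ₁ - ξ₂)‖ + ‖t • (ξ₁' - ξ₂')‖ := norm_add_le _ _
          _ = (1 - t) * ‖ξ₁ - ξ₂‖ + t * ‖ξ₁' - ξ₂'‖ := by
            rw [norm_smul, norm_smul, Real.norm_of_nonneg (sub_nonneg.2 ht.2), Real.norm_of_nonneg ht.1.le]
          _ ≤ (1 - t) * max ‖ξ₁ - ξ₂‖ ‖ξ₁' - ξ₂'‖ + t * max ‖ξ₁ - ξ₂‖ ‖ξ₁' - ξ₂'‖ := by
            have := sub_nonneg.2 ht.2
            have := ht.1.le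
            gcongr
            · exact le_max_left _ _
            · exact le_max_right _ _
          _ = max ‖ξ₁ - ξ₂‖ ‖ξ₁' - ξ₂'‖ := by ring)
    simpa using h
  · have heq : ∀ p ∈ Ω, ∀ q ∈ Ω, p = q := by
      intro p hp q hq
      have h1 := (norm_nonneg _).trans (hL p hp q hq)
      have h2 : ‖p - q‖ ≤ 0 := by
        by_contra hne
        have : L * ‖p - q‖ < 0 := mul_neg_of_neg_of_pos (not_le.1 hL0) (not_le.1 hne)
        linarith
      exact sub_eq_zero.1 (norm_le_zero_iff.1 h2)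
    rw [heq ξ₁ h₁ ξ₂ h₂, heq ξ₁' h₁' ξ₂' h₂']
    simp

/-- continuous linear maps commute with averages. -/
theorem avg_clm_comp [CompleteSpace Y] [CompleteSpace Y'] (hΩ : Convex ℝ Ω) (ha : ContinuousOn a Ω) (hξ : ξ ∈ Ω)
    (hξ' : ξ' ∈ Ω) (T : Y →L[ℝ] Y') : T (avg a ξ ξ') = avg (fun p => T (a p)) ξ ξ' := by
  exact (ContinuousLinearMap.intervalIntegral_comp_comm T (avg_intervalIntegrable hΩ ha hξ hξ')).symm

theorem avg_clm_apply [CompleteSpace Y'] {A : X → Y →L[ℝ] Y'} (hΩ : Convex ℝ Ω) (hA : ContinuousOn A Ω) (hξ : ξ ∈ Ω)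
    (hξ' : ξ' ∈ Ω) (v : Y) : avg A ξ ξ' v = avg (fun p => A p v) ξ ξ' := by
  exact ContinuousLinearMap.intervalIntegral_apply (avg_intervalIntegrable hΩ hA hξ hξ') v

theorem avg_congr (hΩ : Convex ℝ Ω) {b : X → Y} (h : ∀ p ∈ Ω, a p = b p) (hξ : ξ ∈ Ω) (hξ' : ξ' ∈ Ω) :
    avg a ξ ξ' = avg b ξ ξ' := by
  refine intervalIntegral.integral_congr fun t ht => ?_
  rw [Set.uIcc_of_le zero_le_one] at ht
  exact h _ (hΩ.add_smul_sub_mem hξ hξ' ht)

/-- **Hadamard's lemma**. -/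
theorem ell_hadamard [CompleteSpace Y] (hΩ : Convex ℝ Ω) (hΩo : IsOpen Ω) {f : X → Y} (hf : ContDiffOn ℝ 1 f Ω)
    (hξ : ξ ∈ Ω) (hξ' : ξ' ∈ Ω) : f ξ' - f ξ = avg (fderiv ℝ f) ξ ξ' (ξ' - ξ) := by
  have hDf : ContinuousOn (fderiv ℝ f) Ω := hf.continuousOn_fderiv_of_isOpen hΩo le_rfl
  rw [avg_clm_apply hΩ hDf hξ hξ']
  have hint : IntervalIntegrable (fun t : ℝ => fderiv ℝ f (ξ + t • (ξ' - ξ)) (ξ' - ξ)) volume 0 1 :=
    avg_intervalIntegrable hΩ (a := fun p => fderiv ℝ f p (ξ' - ξ)) (hDf.clm_apply continuousOn_const) hξ hξ'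
  have h := intervalIntegral.integral_eq_sub_of_hasDerivAt (a := (0 : ℝ)) (b := 1)
    (f := fun t : ℝ => f (ξ + t • (ξ' - ξ))) (f' := fun t : ℝ => fderiv ℝ f (ξ + t • (ξ' - ξ)) (ξ' - ξ))
    (fun t ht => by
      rw [Set.uIcc_of_le zero_le_one] at ht
      have hmem := hΩ.add_smul_sub_mem hξ hξ' ht
      have hd : HasFDerivAt f (fderiv ℝ f (ξ + t • (ξ' - ξ))) (ξ + t • (ξ' - ξ)) :=
        ((hf.differentiableOn one_ne_zero).differentiableAt (hΩo.mem_nhds hmem)).hasFDerivAt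
      have hl : HasDerivAt (fun t : ℝ => ξ + t • (ξ' - ξ)) (ξ' - ξ) t := by
        simpa using ((hasDerivAt_id t).smul_const (ξ' - ξ)).const_add ξ
      exact hd.comp_hasDerivAt t hl) hint
  unfold avg
  rw [h]
  simp

/-- Lipschitz bounds from `C2Le`. -/
theorem C2Le.lip (hΩ : Convex ℝ Ω) (hΩo : IsOpen Ω) {f : X → Y} (hf : C2Le Lam Ω f) :
    ∀ p ∈ Ω, ∀ q ∈ Ω, ‖f p - f q‖ ≤ Lam * ‖p - q‖ := by
  intro p hp q hq
  exact hΩ.norm_image_sub_le_of_norm_fderiv_le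
    (fun x hx => (hf.c2.differentiableOn two_ne_zero).differentiableAt (hΩo.mem_nhds hx)) hf.b1 hq hp

theorem C2Le.lip_fderiv (hΩ : Convex ℝ Ω) (hΩo : IsOpen Ω) {f : X → Y} (hf : C2Le Lam Ω f) :
    ∀ p ∈ Ω, ∀ q ∈ Ω, ‖fderiv ℝ f p - fderiv ℝ f q‖ ≤ Lam * ‖p - q‖ := by
  intro p hp q hq
  have h1 : ContDiffOn ℝ 1 (fderiv ℝ f) Ω := hf.c2.fderiv_of_isOpen hΩo (by norm_num)
  exact hΩ.norm_image_sub_le_of_norm_fderiv_le
    (fun x hx => (h1.differentiableOn one_ne_zero).differentiableAt (hΩo.mem_nhds hx)) hf.b2 hq hp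

section ell

variable {W : Type u} [NormedAddCommGroup W] [InnerProductSpace ℝ W] [FiniteDimensional ℝ W]

/-- averages of elliptic matrices are elliptic. -/
theorem avg_ellMat {𝒶 : X → W →L[ℝ] W} {lam : ℝ} (hΩ : Convex ℝ Ω) (ha : ContinuousOn 𝒶 Ω)
    (hell : ∀ p ∈ Ω, EllMat lam Lam (𝒶 p)) (hξ : ξ ∈ Ω) (hξ' : ξ' ∈ Ω) : EllMat lam Lam (avg 𝒶 ξ ξ') := by
  have hinner : ∀ x y : W, ⟪avg 𝒶 ξ ξ' x, y⟫ = ∫ t in (0 : ℝ)..1, ⟪𝒶 (ξ + t • (ξ' - ξ)) x, y⟫ := by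
    intro x y
    rw [avg_clm_apply hΩ ha hξ hξ' x, real_inner_comm]
    have := ContinuousLinearMap.intervalIntegral_comp_comm (innerSL ℝ y)
      (avg_intervalIntegrable hΩ (a := fun p => 𝒶 p x) (ha.clm_apply continuousOn_const) hξ hξ')
    rw [innerSL_apply_apply] at this
    unfold avg
    rw [← this]
    refine intervalIntegral.integral_congr fun t _ => ?_
    simp only [innerSL_apply_apply]
    rw [real_inner_comm]
  refine ⟨?_, ?_, ?_⟩
  · intro x y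
    rw [hinner x y, real_inner_comm, hinner y x]
    refine intervalIntegral.integral_congr fun t ht => ?_
    rw [Set.uIcc_of_le zero_le_one] at ht
    rw [(hell _ (hΩ.add_smul_sub_mem hξ hξ' ht)).1 x y, real_inner_comm]
  · intro x
    rw [hinner x x]
    have hc : ContinuousOn (fun p => ⟪𝒶 p x, x⟫) Ω := (ha.clm_apply continuousOn_const).inner continuousOn_const
    have hint : IntervalIntegrable (fun t : ℝ => ⟪𝒶 (ξ + t • (ξ' - ξ)) x, x⟫) volume 0 1 := by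
      apply ContinuousOn.intervalIntegrable
      rw [Set.uIcc_of_le zero_le_one]
      exact hc.comp (by fun_prop) (fun t ht => hΩ.add_smul_sub_mem hξ hξ' ht)
    have h := intervalIntegral.integral_mono_on (a := (0 : ℝ)) (b := 1) zero_le_one
      (f := fun _ : ℝ => lam * ‖x‖ ^ 2) (g := fun t : ℝ => ⟪𝒶 (ξ + t • (ξ' - ξ)) x, x⟫)
      intervalIntegrable_const hint
      (fun t ht => (hell _ (hΩ.add_smul_sub_mem hξ hξ' ht)).2.1 x)
    simpa using h
  · exact avg_norm_le hΩ (fun p hp => (hell p hp).2.2) hξ hξ'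

variable {V : Type u} [NormedAddCommGroup V] [NormedSpace ℝ V] [CompleteSpace V]

/-- the structure condition passes to averages. -/
theorem avg_str {Ω : Set (Jet W V)} {𝒜 : Jet W V → W →L[ℝ] V} {𝒶 : Jet W V → W →L[ℝ] W} {ξ ξ' : Jet W V}
    (hΩ : Convex ℝ Ω) (hA : ContinuousOn (fderiv ℝ 𝒜) Ω) (ha : ContinuousOn 𝒶 Ω)
    (hstr : ∀ p ∈ Ω, ∀ Q' : W →L[ℝ] V, fderiv ℝ 𝒜 p (0, 0, Q') = Q' ∘L 𝒶 p) (hξ : ξ ∈ Ω) (hξ' : ξ' ∈ Ω)
    (Q' : W →L[ℝ] V) : avg (fderiv ℝ 𝒜) ξ ξ' (0, 0, Q') = Q' ∘L avg 𝒶 ξ ξ' := by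
  rw [avg_clm_apply hΩ hA hξ hξ', avg_congr hΩ (fun p hp => hstr p hp Q') hξ hξ']
  exact (avg_clm_comp hΩ ha hξ hξ' (ContinuousLinearMap.compL ℝ W W V Q')).symm

variable [MeasurableSpace W] [BorelSpace W]

omit [InnerProductSpace ℝ W] [FiniteDimensional ℝ W] [CompleteSpace V] [MeasurableSpace W] [BorelSpace W] in
/-- a globally continuous map which agrees with `β` on a smaller closed ball. -/
theorem ell_had_cutoff {x₀ : W} {ρ R : ℝ} (hρR : ρ < R) {β : W → V} (hβ : ContinuousOn β (ball x₀ R)) :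
    ∃ β' : W → V, Continuous β' ∧ ∀ x ∈ closedBall x₀ ρ, β' x = β x := by
  have h1 : ρ < (ρ + R) / 2 := by linarith
  have h2 : (ρ + R) / 2 < R := by linarith
  obtain ⟨χ, h0, h1', -⟩ := exists_continuous_zero_one_of_isClosed (s := (ball x₀ ((ρ + R) / 2))ᶜ)
    (t := closedBall x₀ ρ) isOpen_ball.isClosed_compl isClosed_closedBall (by
      rw [Set.disjoint_left]
      intro x hx hx'
      exact hx (closedBall_subset_ball h1 hx'))
  refine ⟨fun x => χ x • β x, ?_, ?_⟩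
  · refine ell_sys_continuous_of_zero_off isOpen_ball (isClosed_closedBall (x := x₀) (ε := (ρ + R) / 2))
      (closedBall_subset_ball h2) (χ.continuous.continuousOn.smul hβ) ?_
    intro x hx
    have : x ∈ (ball x₀ ((ρ + R) / 2))ᶜ := fun h => hx (ball_subset_closedBall h)
    simp [h0 this]
  · intro x hx
    simp [h1' hx]

omit [InnerProductSpace ℝ W] [FiniteDimensional ℝ W] [MeasurableSpace W] [BorelSpace W] in
/-- the line derivative of the segment average. -/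
theorem ell_had_lineDeriv [NormedSpace ℝ W] {β : W → V} (hβ : Continuous β) (x v : W) :
    HasLineDerivAt ℝ (fun x => avg β x (x + v)) (β (x + v) - β x) x v := by
  unfold HasLineDerivAt
  have hc : Continuous (fun τ : ℝ => β (x + τ • v)) := by fun_prop
  have e : ∀ s : ℝ, avg β (x + s • v) (x + s • v + v) =
      (∫ τ in (0 : ℝ)..(1 + s), β (x + τ • v)) - ∫ τ in (0 : ℝ)..s, β (x + τ • v) := by
    intro s
    have h1 : avg β (x + s • v) (x + s • v + v) = ∫ t in (0 : ℝ)..1, (fun τ : ℝ => β (x + τ • v)) (t + s) := by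
      unfold avg
      refine intervalIntegral.integral_congr fun t _ => ?_
      simp only
      congr 1
      module
    rw [h1, intervalIntegral.integral_comp_add_right (fun τ : ℝ => β (x + τ • v)), zero_add,
      intervalIntegral.integral_interval_sub_left (hc.intervalIntegrable _ _) (hc.intervalIntegrable _ _)]
  simp only [e]
  have d0 : ∀ u : ℝ, HasDerivAt (fun u : ℝ => ∫ τ in (0 : ℝ)..u, β (x + τ • v)) (β (x + u • v)) u := fun u =>
    intervalIntegral.integral_hasDerivAt_right (hc.intervalIntegrable _ _)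
      (hc.stronglyMeasurableAtFilter _ _) hc.continuousAt
  have d1 : HasDerivAt (fun s : ℝ => ∫ τ in (0 : ℝ)..(1 + s), β (x + τ • v)) (β (x + (1 + 0 : ℝ) • v)) 0 :=
    HasDerivAt.comp_const_add 1 0 (d0 (1 + 0))
  have d2 := d1.fun_sub (d0 0)
  simpa using d2

/-- **discrete integration by parts**. -/
theorem ell_discrete_ibp {x₀ v : W} {r R : ℝ} (hrR : r + ‖v‖ < R) {β : W → V} (hβ : ContinuousOn β (ball x₀ R))
    {φ : W → ℝ} (hφ : IsTest (ball x₀ r) φ) :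
    ∫ x, φ x • (β (x + v) - β x) = - ∫ x, fderiv ℝ φ x v • avg β x (x + v) := by
  obtain ⟨β', hβ'c, hβ'⟩ := ell_had_cutoff hrR hβ
  have hmem : ∀ x ∈ tsupport φ, ∀ t ∈ Set.Icc (0 : ℝ) 1, x + t • v ∈ closedBall x₀ (r + ‖v‖) := by
    intro x hx t ht
    have hx' : dist x x₀ < r := hφ.2.2 hx
    rw [mem_closedBall, dist_eq_norm]
    rw [dist_eq_norm] at hx'
    calc ‖x + t • v - x₀‖ = ‖(x - x₀) + t • v‖ := by congr 1; abel
      _ ≤ ‖x - x₀‖ + ‖t • v‖ := norm_add_le _ _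
      _ ≤ r + 1 * ‖v‖ := by
        rw [norm_smul, Real.norm_of_nonneg ht.1]
        gcongr
        exact ht.2
      _ = r + ‖v‖ := by rw [one_mul]
  have hG : Continuous (fun x => avg β' x (x + v)) := by
    unfold avg
    apply intervalIntegral.continuous_parametric_intervalIntegral_of_continuous'
    fun_prop
  have hφc : Continuous φ := hφ.1.continuous
  have hφd : Continuous (fun x => fderiv ℝ φ x v) :=
    (hφ.1.continuous_fderiv (by simp)).clm_apply continuous_const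
  have key := integral_bilinear_hasLineDerivAt_right_eq_neg_left_of_integrable (μ := (volume : Measure W))
    (f := φ) (f' := fun x => fderiv ℝ φ x v) (g := fun x => avg β' x (x + v))
    (g' := fun x => β' (x + v) - β' x) (v := v) (B := ContinuousLinearMap.lsmul ℝ ℝ)
    ((hφd.smul hG).integrable_of_hasCompactSupport (hφ.2.1.fderiv_apply ℝ v).smul_right)
    ((hφc.smul (by fun_prop)).integrable_of_hasCompactSupport hφ.2.1.smul_right)
    ((hφc.smul hG).integrable_of_hasCompactSupport hφ.2.1.smul_right)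
    (fun x _ => ((hφ.1.differentiable (by simp)) x).hasFDerivAt.hasLineDerivAt v)
    (fun x _ => ell_had_lineDeriv hβ'c x v)
  simp only [ContinuousLinearMap.lsmul_apply] at key
  have e1 : ∀ x, φ x • (β (x + v) - β x) = φ x • (β' (x + v) - β' x) := by
    intro x
    by_cases hx : x ∈ tsupport φ
    · have h0 := hβ' _ (hmem x hx 0 ⟨le_rfl, zero_le_one⟩)
      have h1 := hβ' _ (hmem x hx 1 ⟨zero_le_one, le_rfl⟩)
      simp only [zero_smul, add_zero, one_smul] at h0 h1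
      rw [h0, h1]
    · rw [image_eq_zero_of_notMem_tsupport hx, zero_smul, zero_smul]
  have e2 : ∀ x, fderiv ℝ φ x v • avg β x (x + v) = fderiv ℝ φ x v • avg β' x (x + v) := by
    intro x
    by_cases hx : x ∈ tsupport φ
    · have h0 := hmem x hx 0 ⟨le_rfl, zero_le_one⟩
      have h1 := hmem x hx 1 ⟨zero_le_one, le_rfl⟩
      simp only [zero_smul, add_zero, one_smul] at h0 h1
      rw [avg_congr (convex_closedBall x₀ (r + ‖v‖)) (fun p hp => (hβ' p hp).symm) h0 h1]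
    · have h : fderiv ℝ φ x = 0 := by
        by_contra hne
        exact hx (support_fderiv_subset ℝ (f := φ) (Function.mem_support.2 hne))
      rw [h]
      simp
  simp only [e1, e2]
  exact key

/-- translation of test functions. -/
theorem IsTest.translate {x₀ v : W} {r R : ℝ} (hrR : r + ‖v‖ ≤ R) {φ : W → ℝ} (hφ : IsTest (ball x₀ r) φ) :
    IsTest (ball x₀ R) (fun x => φ (x - v)) := by
  have hcomp : (fun x => φ (x - v)) = φ ∘ (Homeomorph.subRight v) := rfl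
  refine ⟨hφ.1.comp (by fun_prop), ?_, ?_⟩
  · rw [hcomp]
    exact hφ.2.1.comp_homeomorph _
  · rw [hcomp, tsupport_comp_eq_preimage]
    intro x hx
    have hx' : dist (x - v) x₀ < r := hφ.2.2 hx
    rw [mem_ball, dist_eq_norm]
    rw [dist_eq_norm] at hx'
    calc ‖x - x₀‖ = ‖(x - v - x₀) + v‖ := by congr 1; abel
      _ ≤ ‖x - v - x₀‖ + ‖v‖ := norm_add_le _ _
      _ < r + ‖v‖ := by linarith
      _ ≤ R := hrR

end ell

end Claimed.Agent.Lib.Ell
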