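/-
Lib/Ell, package L-ell-dq (architect helper232): THE STEP THEOREM  `U ∈ C^{1,α}` solves a system with scalar principal part  ⟹  `DU ∈ C^{1,α}`
on smaller balls, with a bound depending only on `(W, V, α, lam, Lam, K, r, R)`.

PROOF (undivided differences, `v` small).  `ξ(x) = jet U x`, `ξ'(x) = jet U (x+v)`, `w(x) = U(x+v) - U(x)`, `ξ' - ξ = (v, w, Dw)`.
(D1) subtract the weak equation from its translate (`IsTest.translate`), Hadamard (`ell_hadamard`), structure (`avg_str`), discrete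
     integration by parts (`ell_discrete_ibp`):   `∫ Dw(ā ∇φ) = ∫ F_v(∇φ)`,  `ā(x) = avg 𝒶 ξ ξ'`,
     `F_v(x) η = - avg (D𝒜) ξ ξ' (v, w(x), 0) η + ⟪v, η⟫ avg β x (x+v)`,  `β = ℬ ∘ jet U`.
(D2) `[jet U]_α ≤ K₁(K, R, α)`; `ā` elliptic, `[ā]_α ≤ Lam K₁`; `sup|w| ≤ K‖v‖`, `[w]_α ≤ K‖v‖` (`ell_dq_bd`, `ell_dq_hol`); `[F_v]_α ≤ C₂‖v‖`.
(D3) `ell_sch_div_V` (a priori Hoelder: `Dw = DU(·+v) - DU`):  `sup|Dw| + [Dw]_α ≤ C₃ ‖v‖` on `ball x₀ r`.
(D4) `g_n = h_n⁻¹ (U(·+h_n e) - U) → DU(·) e`, `ell_c1a_limit`.   (D5) assemble (`contDiffOn_clm_apply`).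
-/
import Claimed.Agent.Lib.Ell.Had

set_option autoImplicit false

namespace Claimed.Agent.Lib.Ell

open MeasureTheory Metric Filter
open scoped ContDiff RealInnerProductSpace Gradient Topology

universe u

variable {W : Type u} [NormedAddCommGroup W] [InnerProductSpace ℝ W] [FiniteDimensional ℝ W]
  [MeasurableSpace W] [BorelSpace W]
variable {V : Type u} [NormedAddCommGroup V] [NormedSpace ℝ V] [FiniteDimensional ℝ V]

/-- the coefficient of the difference equation. -/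
noncomputable def dqA (𝒶 : Jet W V → W →L[ℝ] W) (U : W → V) (v x : W) : W →L[ℝ] W :=
  avg 𝒶 (jet U x) (jet U (x + v))

/-- the right hand side of the difference equation. -/
noncomputable def dqF (𝒜 : Jet W V → W →L[ℝ] V) (ℬ : Jet W V → V) (U : W → V) (v x : W) : W →L[ℝ] V :=
  - (avg (fderiv ℝ 𝒜) (jet U x) (jet U (x + v)) (v, U (x + v) - U x, 0))
    + (innerSL ℝ v).smulRight (avg (fun y => ℬ (jet U y)) x (x + v))

variable {α lam Lam K R : ℝ} {Ω : Set (Jet W V)} {x₀ : W} {𝒜 : Jet W V → W →L[ℝ] V} {ℬ : Jet W V → V} {𝒶 : Jet W V → W →L[ℝ] W}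
  {U : W → V}

omit [InnerProductSpace ℝ W] [FiniteDimensional ℝ W] [MeasurableSpace W] [BorelSpace W] in
theorem ell_dq_mem_add {x₀ x v : W} {r R : ℝ} (hv : r + ‖v‖ ≤ R) (hx : x ∈ ball x₀ r) : x + v ∈ ball x₀ R := by
  rw [mem_ball, dist_eq_norm] at *
  calc ‖x + v - x₀‖ = ‖(x - x₀) + v‖ := by congr 1; abel
    _ ≤ ‖x - x₀‖ + ‖v‖ := norm_add_le _ _
    _ < r + ‖v‖ := by linarith
    _ ≤ R := hv

omit [InnerProductSpace ℝ W] [FiniteDimensional ℝ W] [MeasurableSpace W] [BorelSpace W] in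
theorem ell_dq_mem {x₀ x v : W} {r R : ℝ} (hv : r + ‖v‖ ≤ R) (hx : x ∈ ball x₀ r) : x ∈ ball x₀ R :=
  ball_subset_ball (by linarith [norm_nonneg v]) hx

omit [FiniteDimensional ℝ V] in
/-- integrability of `φ x • g x`, `g` continuous on `B`, `φ` a test function. -/
theorem ell_dq_integrable_smul_test {B : Set W} (hB : IsOpen B) {g : W → V} (hg : ContinuousOn g B)
    {φ : W → ℝ} (hφ : IsTest B φ) : Integrable (fun x => φ x • g x) := by
  have hc : Continuous (fun x => φ x • g x) := by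
    refine ell_sys_continuous_of_zero_off hB (isClosed_tsupport φ) hφ.2.2 ?_ ?_
    · exact hφ.1.continuous.continuousOn.smul hg
    · intro x hx
      rw [image_eq_zero_of_notMem_tsupport hx, zero_smul]
  exact hc.integrable_of_hasCompactSupport hφ.2.1.smul_right

omit [InnerProductSpace ℝ W] [FiniteDimensional ℝ W] [MeasurableSpace W] [BorelSpace W] in
/-- continuity of averages of a Lipschitz map along continuous end points. -/
theorem ell_dq_avg_continuousOn_lip {X Y : Type u} [NormedAddCommGroup X] [NormedSpace ℝ X] [NormedAddCommGroup Y]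
    [NormedSpace ℝ Y] {Ω : Set X} {a : X → Y} {L : ℝ} (hΩ : Convex ℝ Ω) (ha : ContinuousOn a Ω)
    (hL : ∀ p ∈ Ω, ∀ q ∈ Ω, ‖a p - a q‖ ≤ L * ‖p - q‖) {B : Set W} {p q : W → X} (hp : ContinuousOn p B)
    (hq : ContinuousOn q B) (hpΩ : ∀ x ∈ B, p x ∈ Ω) (hqΩ : ∀ x ∈ B, q x ∈ Ω) :
    ContinuousOn (fun x => avg a (p x) (q x)) B := by
  intro x hx
  rw [ContinuousWithinAt, tendsto_iff_norm_sub_tendsto_zero]
  have h1 : Tendsto (fun y => L * max ‖p y - p x‖ ‖q y - q x‖) (𝓝[B] x) (𝓝 0) := by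
    have a1 : Tendsto (fun y => ‖p y - p x‖) (𝓝[B] x) (𝓝 0) := tendsto_iff_norm_sub_tendsto_zero.1 (hp x hx)
    have a2 : Tendsto (fun y => ‖q y - q x‖) (𝓝[B] x) (𝓝 0) := tendsto_iff_norm_sub_tendsto_zero.1 (hq x hx)
    have := (a1.max a2).const_mul L
    simpa using this
  refine squeeze_zero' (Eventually.of_forall fun y => norm_nonneg _) ?_ h1
  filter_upwards [self_mem_nhdsWithin] with y hy
  exact avg_lip hΩ ha hL (hpΩ y hy) (hqΩ y hy) (hpΩ x hx) (hqΩ x hx)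

omit [InnerProductSpace ℝ W] [FiniteDimensional ℝ W] [MeasurableSpace W] [BorelSpace W] [FiniteDimensional ℝ V] in
/-- continuity of translated segment averages of a continuous map. -/
theorem ell_dq_avg_continuousOn [NormedSpace ℝ W] {x₀ v : W} {r R : ℝ} (hrR : r + ‖v‖ < R) {β : W → V}
    (hβ : ContinuousOn β (ball x₀ R)) : ContinuousOn (fun x => avg β x (x + v)) (ball x₀ r) := by
  obtain ⟨β', hβ'c, hβ'⟩ := ell_had_cutoff hrR hβ
  have hG : Continuous (fun x => avg β' x (x + v)) := by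
    unfold avg
    apply intervalIntegral.continuous_parametric_intervalIntegral_of_continuous'
    fun_prop
  refine hG.continuousOn.congr ?_
  intro x hx
  have h0 : x ∈ closedBall x₀ (r + ‖v‖) := ball_subset_closedBall (ell_dq_mem le_rfl hx)
  have h1 : x + v ∈ closedBall x₀ (r + ‖v‖) := ball_subset_closedBall (ell_dq_mem_add le_rfl hx)
  exact avg_congr (convex_closedBall x₀ (r + ‖v‖)) (fun p hp => (hβ' p hp).symm) h0 h1

/-- the jet is continuous. -/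
theorem SysData.jet_continuousOn (H : SysData α lam Lam K Ω x₀ R 𝒜 ℬ 𝒶 U) : ContinuousOn (jet U) (ball x₀ R) := by
  have h1 : ContinuousOn U (ball x₀ R) := H.U_c1.continuousOn
  have h2 : ContinuousOn (fderiv ℝ U) (ball x₀ R) := H.U_c1.continuousOn_fderiv_of_isOpen isOpen_ball le_rfl
  exact continuousOn_id.prodMk (h1.prodMk h2)

/-- the translated equation. -/
theorem SysData.weak_translate (H : SysData α lam Lam K Ω x₀ R 𝒜 ℬ 𝒶 U) {r : ℝ} {v : W} (hv : r + ‖v‖ < R)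
    {φ : W → ℝ} (hφ : IsTest (ball x₀ r) φ) :
    (∫ x, 𝒜 (jet U (x + v)) (∇ φ x)) + ∫ x, φ x • ℬ (jet U (x + v)) = 0 := by
  have hψ : IsTest (ball x₀ R) (fun x => φ (x - v)) := hφ.translate hv.le
  have h := H.weak _ hψ
  have hg : ∀ x, ∇ (fun x => φ (x - v)) x = ∇ φ (x - v) := by
    intro x
    unfold gradient
    rw [fderiv_comp_sub]
  simp only [hg] at h
  rw [← integral_add_right_eq_self (fun x => 𝒜 (jet U x) (∇ φ (x - v))) v,
    ← integral_add_right_eq_self (fun x => φ (x - v) • ℬ (jet U x)) v] at h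
  simpa using h

omit [InnerProductSpace ℝ W] [FiniteDimensional ℝ W] [MeasurableSpace W] [BorelSpace W] [FiniteDimensional ℝ V] in
theorem ell_dq_fderiv_diff [NormedSpace ℝ W] {U : W → V} {x v : W} (h0 : DifferentiableAt ℝ U x)
    (h1 : DifferentiableAt ℝ U (x + v)) :
    fderiv ℝ (fun x => U (x + v) - U x) x = fderiv ℝ U (x + v) - fderiv ℝ U x := by
  have a1 : HasFDerivAt (fun x => U (x + v)) (fderiv ℝ U (x + v)) x :=
    (hasFDerivAt_comp_add_right v).2 h1.hasFDerivAt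
  exact (a1.fun_sub h0.hasFDerivAt).fderiv

theorem SysData.differentiableAt (H : SysData α lam Lam K Ω x₀ R 𝒜 ℬ 𝒶 U) {x : W} (hx : x ∈ ball x₀ R) :
    DifferentiableAt ℝ U x :=
  (H.U_c1.differentiableOn one_ne_zero).differentiableAt (isOpen_ball.mem_nhds hx)

/-- continuity of the coefficient of the difference equation. -/
theorem SysData.dqA_continuousOn (H : SysData α lam Lam K Ω x₀ R 𝒜 ℬ 𝒶 U) {r : ℝ} {v : W} (hv : r + ‖v‖ < R) :
    ContinuousOn (dqA 𝒶 U v) (ball x₀ r) := by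
  have hjc := H.jet_continuousOn
  exact ell_dq_avg_continuousOn_lip H.Ω_convex H.a_c2.c2.continuousOn (H.a_c2.lip H.Ω_convex H.Ω_open)
    (hjc.mono fun x hx => ell_dq_mem hv.le hx)
    (hjc.comp (by fun_prop) fun x hx => ell_dq_mem_add hv.le hx)
    (fun x hx => H.U_jet _ (ell_dq_mem hv.le hx)) (fun x hx => H.U_jet _ (ell_dq_mem_add hv.le hx))

/-- continuity of the right hand side of the difference equation. -/
theorem SysData.dqF_continuousOn (H : SysData α lam Lam K Ω x₀ R 𝒜 ℬ 𝒶 U) {r : ℝ} {v : W} (hv : r + ‖v‖ < R) :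
    ContinuousOn (dqF 𝒜 ℬ U v) (ball x₀ r) := by
  have hjc := H.jet_continuousOn
  have hDA : ContinuousOn (fderiv ℝ 𝒜) Ω := H.A_c2.c2.continuousOn_fderiv_of_isOpen H.Ω_open (by norm_num)
  have h1 : ContinuousOn (fun x => avg (fderiv ℝ 𝒜) (jet U x) (jet U (x + v))) (ball x₀ r) :=
    ell_dq_avg_continuousOn_lip H.Ω_convex hDA (H.A_c2.lip_fderiv H.Ω_convex H.Ω_open)
      (hjc.mono fun x hx => ell_dq_mem hv.le hx)
      (hjc.comp (by fun_prop) fun x hx => ell_dq_mem_add hv.le hx)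
      (fun x hx => H.U_jet _ (ell_dq_mem hv.le hx)) (fun x hx => H.U_jet _ (ell_dq_mem_add hv.le hx))
  have hU : ContinuousOn U (ball x₀ R) := H.U_c1.continuousOn
  have h2 : ContinuousOn (fun x => ((v, U (x + v) - U x, 0) : Jet W V)) (ball x₀ r) :=
    continuousOn_const.prodMk (((hU.comp (by fun_prop) fun x hx => ell_dq_mem_add hv.le hx).sub
      (hU.mono fun x hx => ell_dq_mem hv.le hx)).prodMk continuousOn_const)
  have hβ : ContinuousOn (fun y => ℬ (jet U y)) (ball x₀ R) := H.B_c2.c2.continuousOn.comp hjc H.U_jet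
  have h3 : ContinuousOn (fun x => avg (fun y => ℬ (jet U y)) x (x + v)) (ball x₀ r) :=
    ell_dq_avg_continuousOn hv hβ
  have h4 : ContinuousOn (fun x => (innerSL ℝ v).smulRight (avg (fun y => ℬ (jet U y)) x (x + v))) (ball x₀ r) :=
    ((ContinuousLinearMap.smulRightL ℝ W V (innerSL ℝ v)).continuous.comp_continuousOn h3)
  exact (h1.clm_apply h2).neg.add h4

/-- (D1) **the difference equation**. -/
theorem SysData.dq_weak (H : SysData α lam Lam K Ω x₀ R 𝒜 ℬ 𝒶 U) {r : ℝ} {v : W} (hv : r + ‖v‖ < R) :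
    WeakDivV (ball x₀ r) (dqA 𝒶 U v) (fun x => U (x + v) - U x) (dqF 𝒜 ℬ U v) := by
  intro φ hφ
  have hjc := H.jet_continuousOn
  have hsub : ∀ x ∈ ball x₀ r, x ∈ ball x₀ R := fun x hx => ell_dq_mem hv.le hx
  have hadd : ∀ x ∈ ball x₀ r, x + v ∈ ball x₀ R := fun x hx => ell_dq_mem_add hv.le hx
  have hj0 : ContinuousOn (jet U) (ball x₀ r) := hjc.mono hsub
  have hj1 : ContinuousOn (fun x => jet U (x + v)) (ball x₀ r) := hjc.comp (by fun_prop) hadd
  have hAc : ContinuousOn 𝒜 Ω := H.A_c2.c2.continuousOn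
  have hBc : ContinuousOn ℬ Ω := H.B_c2.c2.continuousOn
  have hDA : ContinuousOn (fderiv ℝ 𝒜) Ω := H.A_c2.c2.continuousOn_fderiv_of_isOpen H.Ω_open (by norm_num)
  have hβ : ContinuousOn (fun y => ℬ (jet U y)) (ball x₀ R) := hBc.comp hjc H.U_jet
  have hDU : ContinuousOn (fderiv ℝ U) (ball x₀ R) := H.U_c1.continuousOn_fderiv_of_isOpen isOpen_ball le_rfl
  have hfd : ∀ x ∈ ball x₀ r, fderiv ℝ (fun x => U (x + v) - U x) x = fderiv ℝ U (x + v) - fderiv ℝ U x :=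
    fun x hx => ell_dq_fderiv_diff (H.differentiableAt (hsub x hx)) (H.differentiableAt (hadd x hx))
  have hDw : ContinuousOn (fderiv ℝ (fun x => U (x + v) - U x)) (ball x₀ r) :=
    ((hDU.comp (by fun_prop) hadd).sub (hDU.mono hsub)).congr hfd
  -- integrability
  have I1 : Integrable (fun x => 𝒜 (jet U (x + v)) (∇ φ x)) :=
    ell_sys_integrable_clm_test isOpen_ball (hAc.comp hj1 fun x hx => H.U_jet _ (hadd x hx)) hφ
  have I2 : Integrable (fun x => 𝒜 (jet U x) (∇ φ x)) :=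
    ell_sys_integrable_clm_test isOpen_ball (hAc.comp hj0 fun x hx => H.U_jet _ (hsub x hx)) hφ
  have I3 : Integrable (fun x => φ x • ℬ (jet U (x + v))) :=
    ell_dq_integrable_smul_test isOpen_ball (hBc.comp hj1 fun x hx => H.U_jet _ (hadd x hx)) hφ
  have I4 : Integrable (fun x => φ x • ℬ (jet U x)) :=
    ell_dq_integrable_smul_test isOpen_ball (hBc.comp hj0 fun x hx => H.U_jet _ (hsub x hx)) hφ
  have I5 : Integrable (fun x => fderiv ℝ (fun x => U (x + v) - U x) x (dqA 𝒶 U v x (∇ φ x))) :=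
    ell_sys_integrable_clm_test isOpen_ball (hDw.clm_comp (H.dqA_continuousOn hv)) hφ
  have I6 : Integrable (fun x => dqF 𝒜 ℬ U v x (∇ φ x)) :=
    ell_sys_integrable_clm_test isOpen_ball (H.dqF_continuousOn hv) hφ
  -- the three identities
  have E1 := H.weak_translate hv hφ
  have E2 := H.weak φ (hφ.mono (ball_subset_ball (by linarith [norm_nonneg v])))
  have E3 := ell_discrete_ibp hv hβ hφ
  -- the pointwise identity
  have P : ∀ x, fderiv ℝ φ x v • avg (fun y => ℬ (jet U y)) x (x + v) =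
      dqF 𝒜 ℬ U v x (∇ φ x) + (𝒜 (jet U (x + v)) (∇ φ x) - 𝒜 (jet U x) (∇ φ x))
        - fderiv ℝ (fun x => U (x + v) - U x) x (dqA 𝒶 U v x (∇ φ x)) := by
    intro x
    by_cases hx : x ∈ tsupport φ
    · have hxr : x ∈ ball x₀ r := hφ.2.2 hx
      have hξ := H.U_jet _ (hsub x hxr)
      have hξ' := H.U_jet _ (hadd x hxr)
      have hhad := ell_hadamard H.Ω_convex H.Ω_open (H.A_c2.c2.of_le (by norm_num)) hξ hξ'
      have hdec : jet U (x + v) - jet U x =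
          ((v, U (x + v) - U x, 0) : Jet W V) + (0, 0, fderiv ℝ U (x + v) - fderiv ℝ U x) := by
        simp [jet]
      rw [hdec, map_add, avg_str H.Ω_convex hDA H.a_c2.c2.continuousOn H.str hξ hξ'] at hhad
      have hin : fderiv ℝ φ x v = ⟪v, ∇ φ x⟫ := by
        rw [real_inner_comm, gradient, InnerProductSpace.toDual_symm_apply]
      rw [← sub_apply, hhad, hfd x hxr, hin]
      simp only [dqF, dqA, add_apply, neg_apply,
        ContinuousLinearMap.smulRight_apply, innerSL_apply_apply, ContinuousLinearMap.comp_apply]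
      abel
    · have h : fderiv ℝ φ x = 0 := by
        by_contra hne
        exact hx (support_fderiv_subset ℝ (f := φ) (Function.mem_support.2 hne))
      rw [ell_sys_gradient_zero_off hx, h]
      simp
  have E4 : ∫ x, fderiv ℝ φ x v • avg (fun y => ℬ (jet U y)) x (x + v) =
      (∫ x, dqF 𝒜 ℬ U v x (∇ φ x)) + ((∫ x, 𝒜 (jet U (x + v)) (∇ φ x)) - ∫ x, 𝒜 (jet U x) (∇ φ x))
        - ∫ x, fderiv ℝ (fun x => U (x + v) - U x) x (dqA 𝒶 U v x (∇ φ x)) := by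
    simp only [P]
    have J1 : Integrable (fun x => 𝒜 (jet U (x + v)) (∇ φ x) - 𝒜 (jet U x) (∇ φ x)) := I1.sub I2
    have J2 : Integrable (fun x => dqF 𝒜 ℬ U v x (∇ φ x) + (𝒜 (jet U (x + v)) (∇ φ x) - 𝒜 (jet U x) (∇ φ x))) :=
      I6.add J1
    rw [integral_sub J2 I5, integral_add I6 J1, integral_sub I1 I2]
  have E5 : ∫ x, φ x • (ℬ (jet U (x + v)) - ℬ (jet U x)) =
      (∫ x, φ x • ℬ (jet U (x + v))) - ∫ x, φ x • ℬ (jet U x) := by
    simp only [smul_sub]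
    rw [integral_sub I3 I4]
  rw [E5, E4] at E3
  have F1 := eq_neg_of_add_eq_zero_left E1
  have F2 := eq_neg_of_add_eq_zero_left E2
  rw [F1, F2] at E3
  have : (∫ x, dqF 𝒜 ℬ U v x (∇ φ x)) - ∫ x, fderiv ℝ (fun x => U (x + v) - U x) x (dqA 𝒶 U v x (∇ φ x)) = 0 := by
    have e := sub_eq_zero.2 E3
    rw [← e]
    abel
  exact (sub_eq_zero.1 this).symm

theorem SysData.fderiv_bd (H : SysData α lam Lam K Ω x₀ R 𝒜 ℬ 𝒶 U) : BdOn K (ball x₀ R) (fderiv ℝ U) :=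
  fun z hz => H.Ω_bd _ (H.U_jet z hz)

/-- (D2a) Hoelder bound of the jet. -/
theorem SysData.jet_hol (H : SysData α lam Lam K Ω x₀ R 𝒜 ℬ 𝒶 U) (hα : 0 < α) (hα1 : α < 1) :
    HolOn α (max 1 K * max 1 ((2 * R) ^ (1 - α))) (ball x₀ R) (jet U) := by
  intro x hx y hy
  have hxy : ‖x - y‖ ≤ 2 * R := by
    have h1 : dist x x₀ < R := hx
    have h2 : dist y x₀ < R := hy
    rw [← dist_eq_norm]
    have := dist_triangle_right x y x₀
    linarith
  have hd0 : 0 ≤ ‖x - y‖ := norm_nonneg _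
  have hda : 0 ≤ ‖x - y‖ ^ α := Real.rpow_nonneg hd0 _
  have h1 : ‖x - y‖ ≤ (2 * R) ^ (1 - α) * ‖x - y‖ ^ α := by
    rcases hd0.eq_or_lt with h0 | h0
    · rw [← h0, Real.zero_rpow hα.ne']
      simp
    · calc ‖x - y‖ = ‖x - y‖ ^ (1 - α) * ‖x - y‖ ^ α := by
            rw [← Real.rpow_add h0]
            simp
        _ ≤ (2 * R) ^ (1 - α) * ‖x - y‖ ^ α := by
            gcongr
  have hK := H.fderiv_bd
  have hK0 : 0 ≤ K := (norm_nonneg _).trans (hK x hx)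
  have h2 : ‖U x - U y‖ ≤ K * ‖x - y‖ :=
    (convex_ball x₀ R).norm_image_sub_le_of_norm_fderiv_le (fun z hz => H.differentiableAt hz) hK hy hx
  have h3 : ‖fderiv ℝ U x - fderiv ℝ U y‖ ≤ K * ‖x - y‖ ^ α := H.U_hol x hx y hy
  have m1 : (1 : ℝ) ≤ max 1 K := le_max_left _ _
  have m1' : K ≤ max 1 K := le_max_right _ _
  have m2 : (1 : ℝ) ≤ max 1 ((2 * R) ^ (1 - α)) := le_max_left _ _
  have m2' : (2 * R) ^ (1 - α) ≤ max 1 ((2 * R) ^ (1 - α)) := le_max_right _ _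
  have h1' : ‖x - y‖ ≤ max 1 ((2 * R) ^ (1 - α)) * ‖x - y‖ ^ α :=
    h1.trans (mul_le_mul_of_nonneg_right m2' hda)
  have hP : 0 ≤ max 1 ((2 * R) ^ (1 - α)) * ‖x - y‖ ^ α := by positivity
  have e : jet U x - jet U y = (x - y, U x - U y, fderiv ℝ U x - fderiv ℝ U y) := rfl
  rw [e, Prod.norm_def, Prod.norm_def, mul_assoc]
  refine max_le ?_ (max_le ?_ ?_)
  · calc ‖x - y‖ ≤ 1 * (max 1 ((2 * R) ^ (1 - α)) * ‖x - y‖ ^ α) := by rw [one_mul]; exact h1'
      _ ≤ _ := mul_le_mul_of_nonneg_right m1 hP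
  · calc ‖U x - U y‖ ≤ K * ‖x - y‖ := h2
      _ ≤ K * (max 1 ((2 * R) ^ (1 - α)) * ‖x - y‖ ^ α) := mul_le_mul_of_nonneg_left h1' hK0
      _ ≤ _ := mul_le_mul_of_nonneg_right m1' hP
  · calc ‖fderiv ℝ U x - fderiv ℝ U y‖ ≤ K * ‖x - y‖ ^ α := h3
      _ ≤ K * (max 1 ((2 * R) ^ (1 - α)) * ‖x - y‖ ^ α) := by
          refine mul_le_mul_of_nonneg_left ?_ hK0
          calc ‖x - y‖ ^ α = 1 * ‖x - y‖ ^ α := (one_mul _).symm
            _ ≤ _ := mul_le_mul_of_nonneg_right m2 hda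
      _ ≤ _ := mul_le_mul_of_nonneg_right m1' hP

/-- Hoelder bound of translated segment averages. -/
theorem avg_hol_translate {Y : Type u} [NormedAddCommGroup Y] [NormedSpace ℝ Y] {B : Set W} (hB : Convex ℝ B)
    {β : W → Y} {L : ℝ} (hc : ContinuousOn β B) (hβ : HolOn α L B β) {x y v : W} (hx : x ∈ B) (hy : y ∈ B)
    (hxv : x + v ∈ B) (hyv : y + v ∈ B) : ‖avg β x (x + v) - avg β y (y + v)‖ ≤ L * ‖x - y‖ ^ α := by
  unfold avg
  rw [← intervalIntegral.integral_sub (avg_intervalIntegrable hB hc hx hxv) (avg_intervalIntegrable hB hc hy hyv)]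
  have h := intervalIntegral.norm_integral_le_of_norm_le_const (a := (0 : ℝ)) (b := 1) (C := L * ‖x - y‖ ^ α)
    (f := fun t : ℝ => β (x + t • (x + v - x)) - β (y + t • (y + v - y))) (fun t ht => by
      rw [Set.uIoc_of_le zero_le_one] at ht
      have ht' : t ∈ Set.Icc (0 : ℝ) 1 := ⟨ht.1.le, ht.2⟩
      have := hβ _ (hB.add_smul_sub_mem hx hxv ht') _ (hB.add_smul_sub_mem hy hyv ht')
      have e : x + t • (x + v - x) - (y + t • (y + v - y)) = x - y := by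
        simp
      rwa [e] at this)
  simpa using h

/-- Hoelder bound of averages of a `Lam`-Lipschitz function along the jets. -/
theorem SysData.avg_jet_hol (H : SysData α lam Lam K Ω x₀ R 𝒜 ℬ 𝒶 U) (hα : 0 < α) (hα1 : α < 1)
    {Y : Type u} [NormedAddCommGroup Y] [NormedSpace ℝ Y] {a : Jet W V → Y} (hac : ContinuousOn a Ω)
    (hL : ∀ p ∈ Ω, ∀ q ∈ Ω, ‖a p - a q‖ ≤ Lam * ‖p - q‖) {r : ℝ} {v : W} (hv : r + ‖v‖ < R) :
    HolOn α (Lam * (max 1 K * max 1 ((2 * R) ^ (1 - α)))) (ball x₀ r)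
      (fun x => avg a (jet U x) (jet U (x + v))) := by
  intro x hx y hy
  have hj := H.jet_hol hα hα1
  have hx0 := ell_dq_mem hv.le hx
  have hx1 := ell_dq_mem_add hv.le hx
  have hy0 := ell_dq_mem hv.le hy
  have hy1 := ell_dq_mem_add hv.le hy
  have h1 := avg_lip H.Ω_convex hac hL (H.U_jet _ hx0) (H.U_jet _ hx1) (H.U_jet _ hy0) (H.U_jet _ hy1)
  have hLam : 0 ≤ Lam := (norm_nonneg _).trans (H.a_c2.b0 _ (H.U_jet _ hx0))
  refine h1.trans ?_
  rw [mul_assoc]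
  refine mul_le_mul_of_nonneg_left ?_ hLam
  refine max_le (hj x hx0 y hy0) ?_
  have := hj (x + v) hx1 (y + v) hy1
  rwa [add_sub_add_right_eq_sub] at this

/-- (D2b) the coefficient. -/
theorem SysData.dqA_bounds (H : SysData α lam Lam K Ω x₀ R 𝒜 ℬ 𝒶 U) (hα : 0 < α) (hα1 : α < 1) {r : ℝ} {v : W}
    (hv : r + ‖v‖ < R) :
    EllOn lam Lam (ball x₀ r) (dqA 𝒶 U v) ∧
      HolOn α (Lam * (max 1 K * max 1 ((2 * R) ^ (1 - α)))) (ball x₀ r) (dqA 𝒶 U v) := by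
  constructor
  · intro x hx
    exact avg_ellMat H.Ω_convex H.a_c2.c2.continuousOn H.a_ell (H.U_jet _ (ell_dq_mem hv.le hx))
      (H.U_jet _ (ell_dq_mem_add hv.le hx))
  · exact H.avg_jet_hol hα hα1 H.a_c2.c2.continuousOn (H.a_c2.lip H.Ω_convex H.Ω_open) hv

/-- (D2c) the difference. -/
theorem SysData.dq_bounds (H : SysData α lam Lam K Ω x₀ R 𝒜 ℬ 𝒶 U) {r : ℝ} {v : W} (hv : r + ‖v‖ < R) :
    ContDiffOn ℝ 1 (fun x => U (x + v) - U x) (ball x₀ r) ∧ BdOn (K * ‖v‖) (ball x₀ r) (fun x => U (x + v) - U x) ∧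
      HolOn α (K * ‖v‖) (ball x₀ r) (fun x => U (x + v) - U x) ∧
      (∀ x ∈ ball x₀ r, fderiv ℝ (fun x => U (x + v) - U x) x = fderiv ℝ U (x + v) - fderiv ℝ U x) := by
  have hsub : ∀ x ∈ ball x₀ r, x ∈ ball x₀ R := fun x hx => ell_dq_mem hv.le hx
  have hadd : ∀ x ∈ ball x₀ r, x + v ∈ ball x₀ R := fun x hx => ell_dq_mem_add hv.le hx
  have hd : DifferentiableOn ℝ U (ball x₀ R) := H.U_c1.differentiableOn one_ne_zero
  refine ⟨?_, ?_, ?_, ?_⟩
  · exact (H.U_c1.comp (by fun_prop : ContDiffOn ℝ 1 (fun x => x + v) (ball x₀ r)) hadd).sub (H.U_c1.mono hsub)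
  · intro x hx
    exact ell_dq_bd isOpen_ball (convex_ball x₀ R) hd H.fderiv_bd (hsub x hx) (hadd x hx)
  · intro x hx y hy
    have := ell_dq_hol isOpen_ball (convex_ball x₀ R) hd H.U_hol (hsub x hx) (hsub y hy) (hadd x hx) (hadd y hy)
    calc _ ≤ K * ‖x - y‖ ^ α * ‖v‖ := this
      _ = _ := by ring
  · exact fun x hx => ell_dq_fderiv_diff (H.differentiableAt (hsub x hx)) (H.differentiableAt (hadd x hx))

/-- (D2d) the right hand side. -/
theorem ell_dqF_hol (W V : Type u) [NormedAddCommGroup W] [InnerProductSpace ℝ W] [FiniteDimensional ℝ W]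
    [MeasurableSpace W] [BorelSpace W] [NormedAddCommGroup V] [NormedSpace ℝ V] [FiniteDimensional ℝ V]
    {α Lam K R : ℝ} (hα : 0 < α) (hα1 : α < 1) :
    ∃ C₂ : ℝ, 0 ≤ C₂ ∧ ∀ (lam : ℝ) (Ω : Set (Jet W V)) (x₀ : W) (𝒜 : Jet W V → W →L[ℝ] V) (ℬ : Jet W V → V) (𝒶 : Jet W V → W →L[ℝ] W)
      (U : W → V) (r : ℝ) (v : W), SysData α lam Lam K Ω x₀ R 𝒜 ℬ 𝒶 U → r + ‖v‖ < R →
      HolOn α (C₂ * ‖v‖) (ball x₀ r) (dqF 𝒜 ℬ U v) := by
  refine ⟨max 0 (Lam * (max 1 K * max 1 ((2 * R) ^ (1 - α))) * max 1 K + Lam * K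
    + Lam * (max 1 K * max 1 ((2 * R) ^ (1 - α)))), le_max_left _ _, ?_⟩
  intro lam Ω x₀ 𝒜 ℬ 𝒶 U r v H hv
  set K₁ : ℝ := max 1 K * max 1 ((2 * R) ^ (1 - α)) with hK₁
  have hsub : ∀ x ∈ ball x₀ r, x ∈ ball x₀ R := fun x hx => ell_dq_mem hv.le hx
  have hadd : ∀ x ∈ ball x₀ r, x + v ∈ ball x₀ R := fun x hx => ell_dq_mem_add hv.le hx
  have hDA : ContinuousOn (fderiv ℝ 𝒜) Ω := H.A_c2.c2.continuousOn_fderiv_of_isOpen H.Ω_open (by norm_num)
  obtain ⟨-, hwb, hwh, -⟩ := H.dq_bounds hv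
  -- first term
  have hL : HolOn α (Lam * K₁) (ball x₀ r) (fun x => avg (fderiv ℝ 𝒜) (jet U x) (jet U (x + v))) :=
    H.avg_jet_hol hα hα1 hDA (H.A_c2.lip_fderiv H.Ω_convex H.Ω_open) hv
  have bL : BdOn Lam (ball x₀ r) (fun x => avg (fderiv ℝ 𝒜) (jet U x) (jet U (x + v))) :=
    fun x hx => avg_norm_le H.Ω_convex H.A_c2.b1 (H.U_jet _ (hsub x hx)) (H.U_jet _ (hadd x hx))
  have hf : HolOn α (K * ‖v‖) (ball x₀ r) (fun x => ((v, U (x + v) - U x, 0) : Jet W V)) := by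
    intro x hx y hy
    have e : ((v, U (x + v) - U x, 0) : Jet W V) - (v, U (y + v) - U y, 0)
        = (0, (U (x + v) - U x) - (U (y + v) - U y), 0) := by
      simp
    rw [e, Prod.norm_def, Prod.norm_def]
    simp only [norm_zero]
    have h0 := hwh x hx y hy
    exact max_le ((norm_nonneg _).trans h0) (max_le h0 ((norm_nonneg _).trans h0))
  have bf : BdOn (max 1 K * ‖v‖) (ball x₀ r) (fun x => ((v, U (x + v) - U x, 0) : Jet W V)) := by
    intro x hx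
    rw [Prod.norm_def, Prod.norm_def]
    simp only [norm_zero]
    have hv0 : 0 ≤ ‖v‖ := norm_nonneg v
    refine max_le ?_ (max_le ?_ (by positivity))
    · calc ‖v‖ = 1 * ‖v‖ := (one_mul _).symm
        _ ≤ _ := mul_le_mul_of_nonneg_right (le_max_left _ _) hv0
    · exact (hwb x hx).trans (mul_le_mul_of_nonneg_right (le_max_right _ _) hv0)
  have T1 := (hL.clm_apply hf bL bf).neg
  -- second term
  have hjc := H.jet_continuousOn
  have hβc : ContinuousOn (fun y => ℬ (jet U y)) (ball x₀ R) := H.B_c2.c2.continuousOn.comp hjc H.U_jet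
  have T2 : HolOn α (‖v‖ * (Lam * K₁)) (ball x₀ r)
      (fun x => (innerSL ℝ v).smulRight (avg (fun y => ℬ (jet U y)) x (x + v))) := by
    intro x hx y hy
    have hLam : 0 ≤ Lam := (norm_nonneg _).trans (H.a_c2.b0 _ (H.U_jet _ (hsub x hx)))
    have hβh : HolOn α (Lam * K₁) (ball x₀ R) (fun y => ℬ (jet U y)) := by
      intro p hp q hq
      refine (H.B_c2.lip H.Ω_convex H.Ω_open _ (H.U_jet _ hp) _ (H.U_jet _ hq)).trans ?_
      rw [mul_assoc]
      exact mul_le_mul_of_nonneg_left (H.jet_hol hα hα1 p hp q hq) hLam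
    have h1 := avg_hol_translate (convex_ball x₀ R) hβc hβh (hsub x hx) (hsub y hy) (hadd x hx) (hadd y hy)
    have e : (innerSL ℝ v).smulRight (avg (fun y => ℬ (jet U y)) x (x + v))
        - (innerSL ℝ v).smulRight (avg (fun y => ℬ (jet U y)) y (y + v))
        = (innerSL ℝ v).smulRight (avg (fun y => ℬ (jet U y)) x (x + v) - avg (fun y => ℬ (jet U y)) y (y + v)) := by
      ext η
      simp [smul_sub]
    rw [e, ContinuousLinearMap.norm_smulRight_apply, innerSL_apply_norm, mul_assoc]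
    exact mul_le_mul_of_nonneg_left h1 (norm_nonneg v)
  have T := T1.add T2
  refine HolOn.mono T subset_rfl ?_
  calc Lam * K₁ * (max 1 K * ‖v‖) + Lam * (K * ‖v‖) + ‖v‖ * (Lam * K₁)
      = (Lam * K₁ * max 1 K + Lam * K + Lam * K₁) * ‖v‖ := by ring
    _ ≤ _ := mul_le_mul_of_nonneg_right (le_max_right _ _) (norm_nonneg v)

/-- (D3) `DU` is Lipschitz, and its differences are Hoelder, with uniform constants. -/
theorem ell_dq_schauder (W V : Type u) [NormedAddCommGroup W] [InnerProductSpace ℝ W] [FiniteDimensional ℝ W]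
    [MeasurableSpace W] [BorelSpace W] [NormedAddCommGroup V] [NormedSpace ℝ V] [FiniteDimensional ℝ V]
    {α lam Lam K r R : ℝ} (hα : 0 < α) (hα1 : α < 1) (hlam : 0 < lam) (hLam : lam ≤ Lam) (hr : 0 < r)
    (hrR : r < R) :
    ∃ C₃ : ℝ, 0 ≤ C₃ ∧ ∀ (Ω : Set (Jet W V)) (x₀ : W) (𝒜 : Jet W V → W →L[ℝ] V) (ℬ : Jet W V → V) (𝒶 : Jet W V → W →L[ℝ] W)
      (U : W → V) (v : W), SysData α lam Lam K Ω x₀ R 𝒜 ℬ 𝒶 U → ‖v‖ < (R - r) / 2 →
      BdOn (C₃ * ‖v‖) (ball x₀ r) (fun x => fderiv ℝ U (x + v) - fderiv ℝ U x) ∧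
        HolOn α (C₃ * ‖v‖) (ball x₀ r) (fun x => fderiv ℝ U (x + v) - fderiv ℝ U x) := by
  obtain ⟨C₂, hC₂, H₂⟩ := ell_dqF_hol W V (α := α) (Lam := Lam) (K := K) (R := R) hα hα1
  have hLam0 : 0 < Lam := hlam.trans_le hLam
  have hK₁ : 0 ≤ Lam * (max 1 K * max 1 ((2 * R) ^ (1 - α))) := by positivity
  have hr' : r < (r + R) / 2 := by linarith
  obtain ⟨C, hC, HC⟩ := ell_sch_div_V W V (α := α) (lam := lam) (Lam := Lam)
    (K := Lam * (max 1 K * max 1 ((2 * R) ^ (1 - α)))) (r := r) (R := (r + R) / 2) hα hα1 hlam hLam hK₁ hr hr'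
  refine ⟨C * (|K| + C₂), by positivity, ?_⟩
  intro Ω x₀ 𝒜 ℬ 𝒶 U v H hv
  have hv' : (r + R) / 2 + ‖v‖ < R := by linarith
  obtain ⟨hw1, hwb, hwh, hfd⟩ := H.dq_bounds hv'
  obtain ⟨hell, hah⟩ := H.dqA_bounds hα hα1 hv'
  have hM : 0 ≤ (|K| + C₂) * ‖v‖ := by positivity
  have hv0 : 0 ≤ ‖v‖ := norm_nonneg v
  have hKle : K * ‖v‖ ≤ (|K| + C₂) * ‖v‖ :=
    mul_le_mul_of_nonneg_right (by linarith [le_abs_self K]) hv0
  have hCle : C₂ * ‖v‖ ≤ (|K| + C₂) * ‖v‖ :=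
    mul_le_mul_of_nonneg_right (by linarith [abs_nonneg K]) hv0
  have res := HC ((|K| + C₂) * ‖v‖) x₀ (dqA 𝒶 U v) (fun x => U (x + v) - U x) (dqF 𝒜 ℬ U v) hM hell hah hw1
    (hwb.mono subset_rfl hKle) ((H₂ lam Ω x₀ 𝒜 ℬ 𝒶 U _ v H hv').mono subset_rfl hCle) (H.dq_weak hv') (by
      intro t ht
      refine ⟨K + K, ?_⟩
      intro x hx y hy
      have hsub : ball x₀ t ⊆ ball x₀ ((r + R) / 2) := ball_subset_ball ht.le
      rw [hfd x (hsub hx), hfd y (hsub hy)]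
      have a1 := H.U_hol (x + v) (ell_dq_mem_add hv'.le (hsub hx)) (y + v) (ell_dq_mem_add hv'.le (hsub hy))
      have a2 := H.U_hol x (ell_dq_mem hv'.le (hsub hx)) y (ell_dq_mem hv'.le (hsub hy))
      rw [add_sub_add_right_eq_sub] at a1
      have e : fderiv ℝ U (x + v) - fderiv ℝ U x - (fderiv ℝ U (y + v) - fderiv ℝ U y)
          = (fderiv ℝ U (x + v) - fderiv ℝ U (y + v)) - (fderiv ℝ U x - fderiv ℝ U y) := by abel
      rw [e, add_mul]
      exact (norm_sub_le _ _).trans (add_le_add a1 a2))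
  have hsub : ball x₀ r ⊆ ball x₀ ((r + R) / 2) := ball_subset_ball hr'.le
  rw [mul_assoc]
  constructor
  · intro x hx
    have := res.1 x hx
    rwa [hfd x (hsub hx)] at this
  · intro x hx y hy
    have := res.2 x hx y hy
    rwa [hfd x (hsub hx), hfd y (hsub hy)] at this

/-- (D4) directional derivatives are `C^{1,α}`. -/
theorem ell_dq_limit {C₃ r δ : ℝ} (hα : 0 < α) (hδ : 0 < δ) (hrR : r + δ ≤ R) (hU : ContDiffOn ℝ 1 U (ball x₀ R))
    (h : ∀ v : W, ‖v‖ < δ → BdOn (C₃ * ‖v‖) (ball x₀ r) (fun x => fderiv ℝ U (x + v) - fderiv ℝ U x) ∧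
        HolOn α (C₃ * ‖v‖) (ball x₀ r) (fun x => fderiv ℝ U (x + v) - fderiv ℝ U x)) (e : W) :
    DifferentiableOn ℝ (fun x => fderiv ℝ U x e) (ball x₀ r) ∧
      BdOn (C₃ * ‖e‖) (ball x₀ r) (fderiv ℝ (fun x => fderiv ℝ U x e)) ∧
      HolOn α (C₃ * ‖e‖) (ball x₀ r) (fderiv ℝ (fun x => fderiv ℝ U x e)) := by
  set hn : ℕ → ℝ := fun n => δ / (‖e‖ + 1) * (1 / ((n : ℝ) + 1)) with hhn
  have he0 : 0 ≤ ‖e‖ := norm_nonneg e
  have hpos : ∀ n, 0 < hn n := fun n => by positivity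
  have hsmall : ∀ n, ‖hn n • e‖ < δ := by
    intro n
    rw [norm_smul, Real.norm_of_nonneg (hpos n).le]
    have e1 : hn n * ‖e‖ = δ * (‖e‖ / ((‖e‖ + 1) * ((n : ℝ) + 1))) := by
      simp only [hhn]
      field_simp
    rw [e1]
    have h1 : ‖e‖ / ((‖e‖ + 1) * ((n : ℝ) + 1)) < 1 := by
      rw [div_lt_one (by positivity)]
      have : (0 : ℝ) ≤ n := n.cast_nonneg
      nlinarith
    nlinarith
  have hlim0 : Tendsto hn atTop (𝓝 0) := by
    have := (tendsto_one_div_add_atTop_nhds_zero_nat (𝕜 := ℝ)).const_mul (δ / (‖e‖ + 1))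
    rw [mul_zero] at this
    exact this
  have hd : ∀ x ∈ ball x₀ R, DifferentiableAt ℝ U x := fun x hx =>
    (hU.differentiableOn one_ne_zero).differentiableAt (isOpen_ball.mem_nhds hx)
  have hmem0 : ∀ x ∈ ball x₀ r, x ∈ ball x₀ R := fun x hx => ball_subset_ball (by linarith) hx
  have hmem1 : ∀ n, ∀ x ∈ ball x₀ r, x + hn n • e ∈ ball x₀ R := fun n x hx =>
    ell_dq_mem_add (by linarith [hsmall n]) hx
  have hfd : ∀ n, ∀ x ∈ ball x₀ r, HasFDerivAt (fun x => (hn n)⁻¹ • (U (x + hn n • e) - U x))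
      ((hn n)⁻¹ • (fderiv ℝ U (x + hn n • e) - fderiv ℝ U x)) x := by
    intro n x hx
    have a1 : HasFDerivAt (fun x => U (x + hn n • e)) (fderiv ℝ U (x + hn n • e)) x :=
      (hasFDerivAt_comp_add_right (hn n • e)).2 (hd _ (hmem1 n x hx)).hasFDerivAt
    exact (a1.fun_sub (hd _ (hmem0 x hx)).hasFDerivAt).const_smul _
  have hscale : ∀ n, (hn n)⁻¹ * (C₃ * ‖hn n • e‖) = C₃ * ‖e‖ := by
    intro n
    rw [norm_smul, Real.norm_of_nonneg (hpos n).le]
    have := (hpos n).ne'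
    field_simp
  have res := ell_c1a_limit isOpen_ball (convex_ball x₀ r)
    (wn := fun n x => (hn n)⁻¹ • (U (x + hn n • e) - U x)) (w := fun x => fderiv ℝ U x e) (K := C₃ * ‖e‖) hα
    (fun n x hx => (hfd n x hx).differentiableAt.differentiableWithinAt)
    (by
      intro n x hx
      rw [(hfd n x hx).fderiv, norm_smul, Real.norm_of_nonneg (inv_nonneg.2 (hpos n).le), ← hscale n]
      exact mul_le_mul_of_nonneg_left ((h _ (hsmall n)).1 x hx) (inv_nonneg.2 (hpos n).le))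
    (by
      intro n x hx y hy
      rw [(hfd n x hx).fderiv, (hfd n y hy).fderiv, ← smul_sub, norm_smul,
        Real.norm_of_nonneg (inv_nonneg.2 (hpos n).le), ← hscale n, mul_assoc]
      exact mul_le_mul_of_nonneg_left ((h _ (hsmall n)).2 x hx y hy) (inv_nonneg.2 (hpos n).le))
    (by
      intro x hx
      have h1 : HasDerivAt (fun t : ℝ => U (x + t • e)) (fderiv ℝ U x e) 0 :=
        (hd _ (hmem0 x hx)).hasFDerivAt.hasLineDerivAt e
      have h2 := h1.tendsto_slope_zero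
      have h3 : Tendsto hn atTop (𝓝[≠] 0) :=
        tendsto_nhdsWithin_iff.2 ⟨hlim0, Eventually.of_forall fun n => (hpos n).ne'⟩
      have h4 := h2.comp h3
      simpa [Function.comp_def] using h4)
  exact ⟨res.1, res.2.1, res.2.2.1⟩

/-- (D5) from directional information to the full second derivative. -/
theorem ell_d2_of_directional {C₃ r : ℝ} (hα : 0 < α) (hC₃ : 0 ≤ C₃)
    (h : ∀ e : W, DifferentiableOn ℝ (fun x => fderiv ℝ U x e) (ball x₀ r) ∧
      BdOn (C₃ * ‖e‖) (ball x₀ r) (fderiv ℝ (fun x => fderiv ℝ U x e)) ∧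
      HolOn α (C₃ * ‖e‖) (ball x₀ r) (fderiv ℝ (fun x => fderiv ℝ U x e))) :
    ContDiffOn ℝ 1 (fderiv ℝ U) (ball x₀ r) ∧ BdOn C₃ (ball x₀ r) (fderiv ℝ (fderiv ℝ U)) ∧
      HolOn α C₃ (ball x₀ r) (fderiv ℝ (fderiv ℝ U)) := by
  have hc1 : ∀ e, ContDiffOn ℝ 1 (fun x => fderiv ℝ U x e) (ball x₀ r) := by
    intro e
    rw [show (1 : WithTop ℕ∞) = 0 + 1 from rfl, contDiffOn_succ_iff_fderiv_of_isOpen isOpen_ball]
    refine ⟨(h e).1, by simp, ?_⟩
    rw [contDiffOn_zero]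
    exact (h e).2.2.continuousOn hα
  have hC : ContDiffOn ℝ 1 (fderiv ℝ U) (ball x₀ r) := contDiffOn_clm_apply.2 hc1
  have happ : ∀ x ∈ ball x₀ r, ∀ e k, fderiv ℝ (fderiv ℝ U) x k e = fderiv ℝ (fun x => fderiv ℝ U x e) x k := by
    intro x hx e k
    have hd : DifferentiableAt ℝ (fderiv ℝ U) x :=
      (hC.differentiableOn one_ne_zero).differentiableAt (isOpen_ball.mem_nhds hx)
    have := (hd.hasFDerivAt.clm_apply (hasFDerivAt_const e x)).fderiv
    rw [this]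
    simp
  refine ⟨hC, ?_, ?_⟩
  · intro x hx
    refine ContinuousLinearMap.opNorm_le_bound _ hC₃ fun k => ?_
    refine ContinuousLinearMap.opNorm_le_bound _ (by positivity) fun e => ?_
    rw [happ x hx e k]
    calc ‖fderiv ℝ (fun x => fderiv ℝ U x e) x k‖ ≤ ‖fderiv ℝ (fun x => fderiv ℝ U x e) x‖ * ‖k‖ :=
          ContinuousLinearMap.le_opNorm _ _
      _ ≤ C₃ * ‖e‖ * ‖k‖ := mul_le_mul_of_nonneg_right ((h e).2.1 x hx) (norm_nonneg k)
      _ = C₃ * ‖k‖ * ‖e‖ := by ring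
  · intro x hx y hy
    have hp : 0 ≤ ‖x - y‖ ^ α := Real.rpow_nonneg (norm_nonneg _) _
    refine ContinuousLinearMap.opNorm_le_bound _ (by positivity) fun k => ?_
    refine ContinuousLinearMap.opNorm_le_bound _ (by positivity) fun e => ?_
    rw [sub_apply, sub_apply, happ x hx e k, happ y hy e k, ← sub_apply]
    calc ‖(fderiv ℝ (fun x => fderiv ℝ U x e) x - fderiv ℝ (fun x => fderiv ℝ U x e) y) k‖
        ≤ ‖fderiv ℝ (fun x => fderiv ℝ U x e) x - fderiv ℝ (fun x => fderiv ℝ U x e) y‖ * ‖k‖ :=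
          ContinuousLinearMap.le_opNorm _ _
      _ ≤ C₃ * ‖e‖ * ‖x - y‖ ^ α * ‖k‖ := mul_le_mul_of_nonneg_right ((h e).2.2 x hx y hy) (norm_nonneg k)
      _ = C₃ * ‖x - y‖ ^ α * ‖k‖ * ‖e‖ := by ring

/-- **THE STEP THEOREM.** -/
theorem ell_sys_step (W V : Type u) [NormedAddCommGroup W] [InnerProductSpace ℝ W] [FiniteDimensional ℝ W]
    [MeasurableSpace W] [BorelSpace W] [NormedAddCommGroup V] [NormedSpace ℝ V] [FiniteDimensional ℝ V]
    {α lam Lam K r R : ℝ} (hα : 0 < α) (hα1 : α < 1) (hlam : 0 < lam) (hLam : lam ≤ Lam) (hr : 0 < r)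
    (hrR : r < R) :
    ∃ K' : ℝ, 0 ≤ K' ∧ ∀ (Ω : Set (Jet W V)) (x₀ : W) (𝒜 : Jet W V → W →L[ℝ] V) (ℬ : Jet W V → V) (𝒶 : Jet W V → W →L[ℝ] W)
      (U : W → V), SysData α lam Lam K Ω x₀ R 𝒜 ℬ 𝒶 U →
      ContDiffOn ℝ 1 (fderiv ℝ U) (ball x₀ r) ∧ BdOn K' (ball x₀ r) (fderiv ℝ (fderiv ℝ U)) ∧
        HolOn α K' (ball x₀ r) (fderiv ℝ (fderiv ℝ U)) := by
  obtain ⟨C₃, hC₃, H₃⟩ := ell_dq_schauder W V (K := K) hα hα1 hlam hLam hr hrR
  refine ⟨C₃, hC₃, ?_⟩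
  intro Ω x₀ 𝒜 ℬ 𝒶 U H
  exact ell_d2_of_directional hα hC₃ (fun e => ell_dq_limit hα (δ := (R - r) / 2) (by linarith) (by linarith)
    H.U_c1 (fun v hv => H₃ Ω x₀ 𝒜 ℬ 𝒶 U v H hv) e)

end Claimed.Agent.Lib.Ell
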