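/-
Lib/Ell, package L-ell-maxp (architect helper232): MAXIMUM PRINCIPLES for `C²` functions, non-divergence operators
`ndOp a b c u = tr(a D²u) + Du(b) + c u`.   Mathlib + Basic only; no measure theory.

(M1) second derivative test.  (M2) no positive interior maximum if `L u > 0`, `c ≤ 0`.  (M3) barrier `e^{γ⟪x,e⟫}`.
(M4) weak maximum principle on bounded open sets.  `W` must be nontrivial (in dimension 0 the statement is false).
-/
import Claimed.Agent.Lib.Ell.Basic

set_option autoImplicit false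

namespace Claimed.Agent.Lib.Ell

open Metric Filter
open scoped ContDiff RealInnerProductSpace Gradient Topology

universe u

variable {W : Type u} [NormedAddCommGroup W] [InnerProductSpace ℝ W] [FiniteDimensional ℝ W]

/-- near a point of class `C²` the function is differentiable. -/
theorem ell_eventually_differentiableAt {u : W → ℝ} {x : W} (hu : ContDiffAt ℝ 2 u x) :
    ∀ᶠ z in 𝓝 x, DifferentiableAt ℝ u z := by
  have h := hu.eventually (by simp)
  filter_upwards [h] with z hz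
  exact hz.differentiableAt (by norm_num)

theorem ell_differentiableAt_fderiv {u : W → ℝ} {x : W} (hu : ContDiffAt ℝ 2 u x) :
    DifferentiableAt ℝ (fderiv ℝ u) x :=
  (hu.fderiv_right (m := 1) (by norm_num)).differentiableAt (by norm_num)

/-- (M1) -/
theorem ell_d2_nonpos_of_isLocalMax {u : W → ℝ} {x : W} (hu : ContDiffAt ℝ 2 u x) (hmax : IsLocalMax u x) (h : W) :
    ellD2 u x h h ≤ 0 := by
  set γ : ℝ → W := fun t => x + t • h with hγ
  have hγ0 : γ 0 = x := by simp [hγ]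
  have hγc : Continuous γ := by fun_prop
  have hγt : Tendsto γ (𝓝 0) (𝓝 x) := by
    have := hγc.tendsto 0
    rwa [hγ0] at this
  have hγd : ∀ t, HasDerivAt γ h t := by
    intro t
    have := ((hasDerivAt_id t).smul_const h).const_add x
    rw [one_smul] at this
    exact this
  set φ : ℝ → ℝ := fun t => u (γ t) with hφ
  have hd1 : deriv φ =ᶠ[𝓝 0] fun t => fderiv ℝ u (γ t) h := by
    filter_upwards [hγt.eventually (ell_eventually_differentiableAt hu)] with t ht
    exact (ht.hasFDerivAt.comp_hasDerivAt t (hγd t)).deriv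
  have hd2 : deriv (deriv φ) 0 = ellD2 u x h h := by
    rw [hd1.deriv_eq]
    have h1 : HasFDerivAt (fderiv ℝ u) (ellD2 u x) (γ 0) := by
      rw [hγ0]; exact (ell_differentiableAt_fderiv hu).hasFDerivAt
    have h2 : HasDerivAt (fun t => fderiv ℝ u (γ t)) (ellD2 u x h) 0 := h1.comp_hasDerivAt 0 (hγd 0)
    have h3 : HasDerivAt (fun t => fderiv ℝ u (γ t) h) (ellD2 u x h h) 0 := by
      have := h2.clm_apply (hasDerivAt_const (0 : ℝ) h)
      simpa using this
    exact h3.deriv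
  have hmaxφ : IsLocalMax φ 0 := by
    have : IsMaxFilter u (𝓝 x) (γ 0) := by rw [hγ0]; exact hmax
    exact this.comp_tendsto hγt
  by_contra hcon
  rw [not_le] at hcon
  have hcont : ContinuousAt φ 0 := by
    have : ContinuousAt u (γ 0) := by rw [hγ0]; exact hu.continuousAt
    exact this.comp hγc.continuousAt
  have hminφ : IsLocalMin φ 0 :=
    isLocalMin_of_deriv_deriv_pos (by rw [hd2]; exact hcon) hmaxφ.deriv_eq_zero hcont
  have hconst : φ =ᶠ[𝓝 0] fun _ => φ 0 := by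
    filter_upwards [hmaxφ, hminφ] with t h1 h2
    exact le_antisymm h1 h2
  have h0 : deriv (deriv φ) 0 = 0 := by
    rw [hconst.deriv.deriv_eq]
    simp
  rw [hd2] at h0
  linarith

theorem ell_d2_neg (u : W → ℝ) (x : W) : ellD2 (fun z => - u z) x = - ellD2 u x := by
  unfold ellD2
  have : fderiv ℝ (fun z => - u z) = fun z => - fderiv ℝ u z := by
    funext z
    exact fderiv_fun_neg
  rw [this]
  exact fderiv_fun_neg

theorem ell_d2_nonneg_of_isLocalMin {u : W → ℝ} {x : W} (hu : ContDiffAt ℝ 2 u x) (hmin : IsLocalMin u x) (h : W) :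
    0 ≤ ellD2 u x h h := by
  have := ell_d2_nonpos_of_isLocalMax (u := fun z => - u z) hu.neg hmin.neg h
  rw [ell_d2_neg] at this
  simp only [neg_apply] at this
  linarith

/-- (M2) at an interior local maximum with `u x ≥ 0`, `c x ≤ 0`: `L u (x) ≤ 0`. -/
theorem ell_ndOp_nonpos_of_isLocalMax {a : W → W →L[ℝ] W} {b : W → W} {c : W → ℝ} {u : W → ℝ} {x : W}
    (ha : ∀ ξ η : W, ⟪a x ξ, η⟫ = ⟪ξ, a x η⟫) (ha0 : ∀ ξ : W, 0 ≤ ⟪a x ξ, ξ⟫) (hc : c x ≤ 0)
    (hu : ContDiffAt ℝ 2 u x) (hmax : IsLocalMax u x) (hux : 0 ≤ u x) : ndOp a b c u x ≤ 0 := by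
  unfold ndOp
  have h1 := ellTr_nonpos ha ha0 (ell_d2_nonpos_of_isLocalMax hu hmax)
  have h2 : fderiv ℝ u x = 0 := hmax.fderiv_eq_zero
  rw [h2]
  have h3 : c x * u x ≤ 0 := mul_nonpos_of_nonpos_of_nonneg hc hux
  simp only [zero_apply]
  linarith

theorem ellTr_add_right (A : W →L[ℝ] W) (H H' : W →L[ℝ] W →L[ℝ] ℝ) : ellTr A (H + H') = ellTr A H + ellTr A H' := by
  simp [ellTr, Finset.sum_add_distrib]

theorem ellTr_smul_right (A : W →L[ℝ] W) (t : ℝ) (H : W →L[ℝ] W →L[ℝ] ℝ) : ellTr A (t • H) = t * ellTr A H := by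
  simp [ellTr, Finset.mul_sum]

theorem ell_d2_add {u v : W → ℝ} {x : W} (hu : ContDiffAt ℝ 2 u x) (hv : ContDiffAt ℝ 2 v x) :
    ellD2 (fun z => u z + v z) x = ellD2 u x + ellD2 v x := by
  unfold ellD2
  have h1 : fderiv ℝ (fun z => u z + v z) =ᶠ[𝓝 x] fun z => fderiv ℝ u z + fderiv ℝ v z := by
    filter_upwards [ell_eventually_differentiableAt hu, ell_eventually_differentiableAt hv] with z h1 h2
    exact fderiv_fun_add h1 h2
  rw [h1.fderiv_eq]
  exact fderiv_fun_add (ell_differentiableAt_fderiv hu) (ell_differentiableAt_fderiv hv)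

theorem ell_d2_const_mul {u : W → ℝ} {x : W} (t : ℝ) (hu : ContDiffAt ℝ 2 u x) :
    ellD2 (fun z => t * u z) x = t • ellD2 u x := by
  unfold ellD2
  have h1 : fderiv ℝ (fun z => t * u z) =ᶠ[𝓝 x] fun z => t • fderiv ℝ u z := by
    filter_upwards [ell_eventually_differentiableAt hu] with z h1
    exact fderiv_const_mul h1 t
  rw [h1.fderiv_eq]
  exact fderiv_fun_const_smul (ell_differentiableAt_fderiv hu) t

/-- linearity of the operator. -/
theorem ell_ndOp_add {a : W → W →L[ℝ] W} {b : W → W} {c : W → ℝ} {u v : W → ℝ} {x : W}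
    (hu : ContDiffAt ℝ 2 u x) (hv : ContDiffAt ℝ 2 v x) :
    ndOp a b c (fun z => u z + v z) x = ndOp a b c u x + ndOp a b c v x := by
  unfold ndOp
  rw [ell_d2_add hu hv, ellTr_add_right,
    fderiv_fun_add (hu.differentiableAt (by norm_num)) (hv.differentiableAt (by norm_num))]
  simp only [add_apply]
  ring

theorem ell_ndOp_const_mul {a : W → W →L[ℝ] W} {b : W → W} {c : W → ℝ} {u : W → ℝ} {x : W} (t : ℝ)
    (hu : ContDiffAt ℝ 2 u x) : ndOp a b c (fun z => t * u z) x = t * ndOp a b c u x := by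
  unfold ndOp
  rw [ell_d2_const_mul t hu, ellTr_smul_right, fderiv_const_mul (hu.differentiableAt (by norm_num))]
  simp only [smul_apply, smul_eq_mul]
  ring

theorem ell_ndOp_const {a : W → W →L[ℝ] W} {b : W → W} {c : W → ℝ} {x : W} (t : ℝ) :
    ndOp a b c (fun _ => t) x = c x * t := by
  unfold ndOp ellD2
  have : fderiv ℝ (fun _ : W => t) = fun _ => 0 := by
    funext z; simp
  rw [this]
  simp [ellTr]

/-- the trace against a rank one form. -/
theorem ellTr_smulRight (A : W →L[ℝ] W) (l₁ l₂ : W →L[ℝ] ℝ) :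
    ellTr A (l₁.smulRight l₂) = l₁ (A ((InnerProductSpace.toDual ℝ W).symm l₂)) := by
  set e := stdOrthonormalBasis ℝ W with he
  set g := (InnerProductSpace.toDual ℝ W).symm l₂ with hg
  have h2 : ∀ k, l₂ k = ⟪g, k⟫ := fun k => by rw [hg, InnerProductSpace.toDual_symm_apply]
  have h3 : g = ∑ i, l₂ (e i) • e i := by
    conv_lhs => rw [← e.sum_repr' g]
    refine Finset.sum_congr rfl fun i _ => ?_
    rw [h2, real_inner_comm]
  rw [h3, map_sum, map_sum]
  unfold ellTr
  refine Finset.sum_congr rfl fun i _ => ?_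
  simp only [ContinuousLinearMap.smulRight_apply, smul_apply, map_smul, smul_eq_mul]
  ring

/-- second derivative of `exp ∘ p`. -/
theorem ell_d2_exp_comp {p : W → ℝ} {x : W} (hp : ContDiffAt ℝ 2 p x) :
    ellD2 (fun z => Real.exp (p z)) x
      = Real.exp (p x) • ellD2 p x + Real.exp (p x) • (fderiv ℝ p x).smulRight (fderiv ℝ p x) := by
  unfold ellD2
  have h1 : fderiv ℝ (fun z => Real.exp (p z)) =ᶠ[𝓝 x] fun z => Real.exp (p z) • fderiv ℝ p z := by
    filter_upwards [ell_eventually_differentiableAt hp] with z hz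
    exact hz.hasFDerivAt.exp.fderiv
  rw [h1.fderiv_eq]
  have hpd : HasFDerivAt p (fderiv ℝ p x) x := (hp.differentiableAt (by norm_num)).hasFDerivAt
  have h2 := hpd.exp.smul (ell_differentiableAt_fderiv hp).hasFDerivAt
  have h3 : fderiv ℝ (fun z => Real.exp (p z) • fderiv ℝ p z) x = _ := h2.fderiv
  rw [h3]
  congr 1
  ext h k
  simp [mul_assoc]

/-- `L e^{p} = (Dp(a ∇p) + tr(a D²p) + Dp(b) + c) e^{p}`. -/
theorem ell_ndOp_exp_comp (a : W → W →L[ℝ] W) (b : W → W) (c : W → ℝ) {p : W → ℝ} {x : W}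
    (hp : ContDiffAt ℝ 2 p x) :
    ndOp a b c (fun z => Real.exp (p z)) x
      = (fderiv ℝ p x (a x (∇ p x)) + ellTr (a x) (ellD2 p x) + fderiv ℝ p x (b x) + c x) * Real.exp (p x) := by
  unfold ndOp
  rw [ell_d2_exp_comp hp, ellTr_add_right, ellTr_smul_right, ellTr_smul_right, ellTr_smulRight]
  have hpd : HasFDerivAt p (fderiv ℝ p x) x := (hp.differentiableAt (by norm_num)).hasFDerivAt
  rw [hpd.exp.fderiv]
  simp only [smul_apply, smul_eq_mul, gradient]
  ring

/-- (M3) `L e^{γ⟪x,e⟫} = (γ² ⟪a e, e⟫ + γ ⟪b, e⟫ + c) e^{γ⟪x,e⟫}`. -/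
theorem ell_ndOp_exp_inner (a : W → W →L[ℝ] W) (b : W → W) (c : W → ℝ) (e : W) (γ : ℝ) (x : W) :
    ndOp a b c (fun z => Real.exp (γ * ⟪z, e⟫)) x
      = (γ ^ 2 * ⟪a x e, e⟫ + γ * ⟪b x, e⟫ + c x) * Real.exp (γ * ⟪x, e⟫) := by
  have hfd : ∀ z, HasFDerivAt (fun z : W => γ * ⟪z, e⟫) (γ • innerSL ℝ e) z := by
    intro z
    have h1 : HasFDerivAt (fun z : W => innerSL ℝ e z) (innerSL ℝ e) z := (innerSL ℝ e).hasFDerivAt
    have h2 := h1.const_mul γ
    refine h2.congr_of_eventuallyEq (Eventually.of_forall fun w => ?_)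
    simp only [innerSL_apply_apply]
    rw [real_inner_comm]
  have hcd : ContDiff ℝ 2 (fun z : W => γ * ⟪z, e⟫) := contDiff_const.mul (contDiff_id.inner ℝ contDiff_const)
  rw [ell_ndOp_exp_comp a b c hcd.contDiffAt]
  have hf : fderiv ℝ (fun z : W => γ * ⟪z, e⟫) = fun _ => γ • innerSL ℝ e := by
    funext z; exact (hfd z).fderiv
  have hgrad : ∇ (fun z : W => γ * ⟪z, e⟫) x = γ • e := by
    rw [gradient, hf]
    simp only [map_smul]
    congr 1
    apply (InnerProductSpace.toDual ℝ W).injective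
    rw [LinearIsometryEquiv.apply_symm_apply]
    ext k
    simp
  have hd2 : ellD2 (fun z : W => γ * ⟪z, e⟫) x = 0 := by
    unfold ellD2
    rw [hf]
    simp
  rw [hgrad, hd2, hf]
  simp only [smul_apply, innerSL_apply_apply, smul_eq_mul, map_smul]
  have : ellTr (a x) 0 = 0 := by simp [ellTr]
  rw [this, real_inner_comm (a x e) e, real_inner_comm (b x) e]
  ring

/-- strict version: `L w > 0`, `c ≤ 0` in a bounded open set: `w ≤ max (sup over the frontier) 0`. -/
theorem ell_weak_max_strict {U : Set W} (hU : IsOpen U) (hUb : Bornology.IsBounded U) {M : ℝ}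
    {a : W → W →L[ℝ] W} {b : W → W} {c : W → ℝ} {w : W → ℝ}
    (ha : ∀ x ∈ U, ∀ ξ η : W, ⟪a x ξ, η⟫ = ⟪ξ, a x η⟫) (ha0 : ∀ x ∈ U, ∀ ξ : W, 0 ≤ ⟪a x ξ, ξ⟫)
    (hc0 : ∀ x ∈ U, c x ≤ 0) (hw : ContDiffOn ℝ 2 w U)
    (hwc : ContinuousOn w (closure U)) (hL : ∀ x ∈ U, 0 < ndOp a b c w x) (hM : 0 ≤ M)
    (hbd : ∀ x ∈ frontier U, w x ≤ M) : ∀ x ∈ U, w x ≤ M := by
  intro x hx
  have hcomp : IsCompact (closure U) := hUb.isCompact_closure
  obtain ⟨y, hy, hymax⟩ := hcomp.exists_isMaxOn ⟨x, subset_closure hx⟩ hwc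
  have hxy : w x ≤ w y := hymax (subset_closure hx)
  by_cases hyU : y ∈ U
  · by_contra hcon
    rw [not_le] at hcon
    have hwy : 0 ≤ w y := by linarith
    have hloc : IsLocalMax w y := by
      filter_upwards [hU.mem_nhds hyU] with z hz
      exact hymax (subset_closure hz)
    have := ell_ndOp_nonpos_of_isLocalMax (b := b) (ha y hyU) (ha0 y hyU) (hc0 y hyU)
      (hw.contDiffAt (hU.mem_nhds hyU)) hloc hwy
    linarith [hL y hyU]
  · have : y ∈ frontier U := by
      rw [hU.frontier_eq]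
      exact ⟨hy, hyU⟩
    linarith [hbd y this]

/-- (M4) **weak maximum principle**. -/
theorem ell_weak_max [Nontrivial W] {U : Set W} (hU : IsOpen U) (hUb : Bornology.IsBounded U) {lam Lam K M : ℝ}
    (hlam : 0 < lam) {a : W → W →L[ℝ] W} {b : W → W} {c : W → ℝ} {u : W → ℝ} (ha : EllOn lam Lam U a)
    (hb : BdOn K U b) (hc : BdOn K U c) (hc0 : ∀ x ∈ U, c x ≤ 0) (hu : ContDiffOn ℝ 2 u U)
    (huc : ContinuousOn u (closure U)) (hL : ∀ x ∈ U, 0 ≤ ndOp a b c u x) (hM : 0 ≤ M)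
    (hbd : ∀ x ∈ frontier U, u x ≤ M) : ∀ x ∈ U, u x ≤ M := by
  intro x hx
  have hK : 0 ≤ K := (norm_nonneg _).trans (hb x hx)
  obtain ⟨e, he⟩ : ∃ e : W, ‖e‖ = 1 := by
    obtain ⟨v, hv⟩ := exists_ne (0 : W)
    exact ⟨(‖v‖⁻¹) • v, norm_smul_inv_norm hv⟩
  set γ : ℝ := 1 + (2 * K + 1) / lam with hγ
  have hγ1 : 1 ≤ γ := by
    have : 0 ≤ (2 * K + 1) / lam := by positivity
    linarith
  have hγl : 2 * K + 1 ≤ γ * lam := by
    rw [hγ, add_mul, div_mul_cancel₀ _ hlam.ne']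
    linarith
  obtain ⟨R, hR⟩ := hUb.closure.subset_closedBall (0 : W)
  set E : ℝ := Real.exp (γ * |R|) with hE
  have hEpos : 0 < E := Real.exp_pos _
  set ψ : W → ℝ := fun z => Real.exp (γ * ⟪z, e⟫) with hψ
  have hψcd : ContDiff ℝ 2 ψ := (contDiff_const.mul (contDiff_id.inner ℝ contDiff_const)).exp
  have hψE : ∀ z ∈ closure U, ψ z ≤ E := by
    intro z hz
    apply Real.exp_le_exp.mpr
    apply mul_le_mul_of_nonneg_left _ (by linarith)
    have h1 : ‖z‖ ≤ R := by simpa using hR hz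
    calc ⟪z, e⟫ ≤ ‖z‖ * ‖e‖ := real_inner_le_norm z e
      _ = ‖z‖ := by rw [he, mul_one]
      _ ≤ |R| := h1.trans (le_abs_self R)
  have hψL : ∀ z ∈ U, 0 < ndOp a b c ψ z := by
    intro z hz
    rw [hψ, ell_ndOp_exp_inner]
    apply mul_pos _ (Real.exp_pos _)
    obtain ⟨-, h2, -⟩ := ha z hz
    have h3 := h2 e
    rw [he] at h3
    have h4 : -K ≤ ⟪b z, e⟫ := by
      have := abs_real_inner_le_norm (b z) e
      rw [he, mul_one] at this
      have h5 := hb z hz
      linarith [neg_abs_le ⟪b z, e⟫]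
    have h6 : -K ≤ c z := by
      have h5 := hc z hz
      rw [Real.norm_eq_abs] at h5
      linarith [neg_abs_le (c z)]
    have h7 : γ ^ 2 * lam ≤ γ ^ 2 * ⟪a z e, e⟫ := by
      apply mul_le_mul_of_nonneg_left _ (by positivity)
      linarith
    have h8 : γ * (-K) ≤ γ * ⟪b z, e⟫ := mul_le_mul_of_nonneg_left h4 (by linarith)
    have h9 : γ * (2 * K + 1) ≤ γ * (γ * lam) := mul_le_mul_of_nonneg_left hγl (by linarith)
    nlinarith
  -- the perturbed functions
  have key : ∀ ε : ℝ, 0 < ε → u x ≤ M + ε * E := by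
    intro ε hε
    have h1 := ell_weak_max_strict (b := b) (c := c) (w := fun z => u z + ε * ψ z) (M := M + ε * E) hU hUb
      (fun z hz => (ha z hz).1)
      (fun z hz ξ => le_trans (by positivity) ((ha z hz).2.1 ξ)) hc0
      (hu.add (contDiffOn_const.mul hψcd.contDiffOn))
      (huc.add (continuousOn_const.mul hψcd.continuous.continuousOn))
      (fun z hz => by
        have hcu : ContDiffAt ℝ 2 u z := hu.contDiffAt (hU.mem_nhds hz)
        rw [ell_ndOp_add hcu (contDiffAt_const.mul hψcd.contDiffAt), ell_ndOp_const_mul ε hψcd.contDiffAt]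
        have := mul_pos hε (hψL z hz)
        linarith [hL z hz])
      (by positivity)
      (fun z hz => by
        have h2 := hbd z hz
        have h3 := hψE z (frontier_subset_closure hz)
        have := mul_le_mul_of_nonneg_left h3 hε.le
        linarith)
      x hx
    have h2 : 0 < ε * ψ x := mul_pos hε (Real.exp_pos _)
    linarith
  by_contra hcon
  rw [not_le] at hcon
  have := key ((u x - M) / (2 * E)) (by apply div_pos <;> linarith)
  have e1 : (u x - M) / (2 * E) * E = (u x - M) / 2 := by field_simp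
  rw [e1] at this
  linarith

/-- the minimum version. -/
theorem ell_weak_min [Nontrivial W] {U : Set W} (hU : IsOpen U) (hUb : Bornology.IsBounded U) {lam Lam K : ℝ}
    (hlam : 0 < lam) {a : W → W →L[ℝ] W} {b : W → W} {c : W → ℝ} {v : W → ℝ} (ha : EllOn lam Lam U a)
    (hb : BdOn K U b) (hc : BdOn K U c) (hc0 : ∀ x ∈ U, c x ≤ 0) (hv : ContDiffOn ℝ 2 v U)
    (hvc : ContinuousOn v (closure U)) (hL : ∀ x ∈ U, ndOp a b c v x ≤ 0)
    (hbd : ∀ x ∈ frontier U, 0 ≤ v x) : ∀ x ∈ U, 0 ≤ v x := by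
  intro x hx
  have := ell_weak_max (u := fun z => (-1 : ℝ) * v z) (M := 0) hU hUb hlam ha hb hc hc0
    (contDiffOn_const.mul hv) (continuousOn_const.mul hvc)
    (fun z hz => by
      rw [ell_ndOp_const_mul (-1) (hv.contDiffAt (hU.mem_nhds hz))]
      linarith [hL z hz])
    le_rfl (fun z hz => by linarith [hbd z hz]) x hx
  linarith

/-- comparison principle. -/
theorem ell_comparison [Nontrivial W] {U : Set W} (hU : IsOpen U) (hUb : Bornology.IsBounded U) {lam Lam K : ℝ}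
    (hlam : 0 < lam) {a : W → W →L[ℝ] W} {b : W → W} {c : W → ℝ} {u v : W → ℝ} (ha : EllOn lam Lam U a)
    (hb : BdOn K U b) (hc : BdOn K U c) (hc0 : ∀ x ∈ U, c x ≤ 0) (hu : ContDiffOn ℝ 2 u U)
    (hv : ContDiffOn ℝ 2 v U) (huc : ContinuousOn u (closure U)) (hvc : ContinuousOn v (closure U))
    (hL : ∀ x ∈ U, ndOp a b c v x ≤ ndOp a b c u x) (hbd : ∀ x ∈ frontier U, u x ≤ v x) :
    ∀ x ∈ U, u x ≤ v x := by
  intro x hx
  have := ell_weak_max (u := fun z => u z + (-1 : ℝ) * v z) (M := 0) hU hUb hlam ha hb hc hc0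
    (hu.add (contDiffOn_const.mul hv)) (huc.add (continuousOn_const.mul hvc))
    (fun z hz => by
      have hcu : ContDiffAt ℝ 2 u z := hu.contDiffAt (hU.mem_nhds hz)
      have hcv : ContDiffAt ℝ 2 v z := hv.contDiffAt (hU.mem_nhds hz)
      rw [ell_ndOp_add hcu (contDiffAt_const.mul hcv), ell_ndOp_const_mul (-1) hcv]
      linarith [hL z hz])
    le_rfl (fun z hz => by linarith [hbd z hz]) x hx
  linarith

end Claimed.Agent.Lib.Ell
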