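/-
Lib/Ell, package L-ell-hopf (architect helper232): HOPF LEMMA and STRONG MAXIMUM PRINCIPLE for `C²` functions.

(H1) barrier `ψ(x) = e^{-γ|x-x₁|²} - e^{-γρ²}`:  `L e^{-γ|x-x₁|²} = (4γ²⟪a(x-x₁),x-x₁⟫ - 2γ tr a - 2γ⟪b,x-x₁⟫ + c) e^{...}`,
     positive on `ρ/2 ≤ |x-x₁| ≤ ρ` for `γ` large; `c ≤ 0` gives `L ψ ≥ L e^{...} > 0`.
(H2) Hopf: `v > 0` in `ball x₁ ρ`, `v(y) = 0`, `|y-x₁| = ρ`, `L v ≤ 0`, `c ≤ 0` ⟹ `Dv(y)(x₁-y) > 0`:  on the annulus
     `v ≥ ε ψ` by `ell_weak_min` (`ε` small: `v ≥ min > 0` on the inner sphere), differentiate along `y + t(x₁-y)`.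
(H3) touching ball: `Z = {v = 0}` relatively closed in `U`, `z ∈ Z`, `closedBall z (2r) ⊆ U`, `x₁ ∈ ball z r ∖ Z`; `ρ = infDist x₁ (Z ∩ closedBall z (2r))`.
(H4) `Z` is open: at the touching point `y` (an interior minimum) `Dv(y) = 0`, contradiction.  Preconnectedness finishes.
General sign of `c`: for `v ≥ 0`, `L v ≤ 0` implies `(L - c⁺) v ≤ 0`.
-/
import Claimed.Agent.Lib.Ell.MaxP

set_option autoImplicit false

namespace Claimed.Agent.Lib.Ell

open Metric Filter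
open scoped ContDiff RealInnerProductSpace Gradient Topology

universe u

variable {W : Type u} [NormedAddCommGroup W] [InnerProductSpace ℝ W] [FiniteDimensional ℝ W]

/-- derivative of `-γ|z - x₁|²`. -/
theorem ell_gauss_fderiv (x₁ : W) (γ : ℝ) :
    fderiv ℝ (fun z : W => -γ * ‖z - x₁‖ ^ 2) = fun z => (-2 * γ) • innerSL ℝ (z - x₁) := by
  funext z
  have h1 : HasFDerivAt (fun z : W => z - x₁) (ContinuousLinearMap.id ℝ W) z := (hasFDerivAt_id z).sub_const x₁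
  have h2 := (h1.norm_sq).const_mul (-γ)
  rw [h2.fderiv]
  ext k
  simp
  ring

theorem ell_gauss_contDiff (x₁ : W) (γ : ℝ) : ContDiff ℝ 2 (fun z : W => -γ * ‖z - x₁‖ ^ 2) :=
  contDiff_const.mul ((contDiff_id.sub contDiff_const).norm_sq ℝ)

/-- (H1a) -/
theorem ell_ndOp_gauss (a : W → W →L[ℝ] W) (b : W → W) (c : W → ℝ) (x₁ : W) (γ : ℝ) (x : W)
    (ha : ∀ ξ η : W, ⟪a x ξ, η⟫ = ⟪ξ, a x η⟫) :
    ndOp a b c (fun z => Real.exp (-γ * ‖z - x₁‖ ^ 2)) x
      = (4 * γ ^ 2 * ⟪a x (x - x₁), x - x₁⟫ - 2 * γ * ellTr (a x) (innerSL ℝ) - 2 * γ * ⟪b x, x - x₁⟫ + c x)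
        * Real.exp (-γ * ‖x - x₁‖ ^ 2) := by
  rw [ell_ndOp_exp_comp a b c (ell_gauss_contDiff x₁ γ).contDiffAt]
  have hf := ell_gauss_fderiv x₁ γ
  have hgrad : ∇ (fun z : W => -γ * ‖z - x₁‖ ^ 2) x = (-2 * γ) • (x - x₁) := by
    rw [gradient, hf]
    simp only [map_smul]
    congr 1
    apply (InnerProductSpace.toDual ℝ W).injective
    rw [LinearIsometryEquiv.apply_symm_apply]
    ext k
    simp
  have hd2 : ellD2 (fun z : W => -γ * ‖z - x₁‖ ^ 2) x = (-2 * γ) • innerSL ℝ := by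
    unfold ellD2
    rw [hf]
    have h1 : HasFDerivAt (fun z : W => z - x₁) (ContinuousLinearMap.id ℝ W) x := (hasFDerivAt_id x).sub_const x₁
    have h2 : HasFDerivAt (fun z : W => innerSL ℝ (z - x₁)) ((innerSL ℝ : W →L[ℝ] W →L[ℝ] ℝ).comp (ContinuousLinearMap.id ℝ W)) x :=
      (innerSL ℝ : W →L[ℝ] W →L[ℝ] ℝ).hasFDerivAt.comp x h1
    have h3 := h2.const_smul (-2 * γ)
    have h4 : fderiv ℝ (fun z : W => (-2 * γ) • innerSL ℝ (z - x₁)) x = _ := h3.fderiv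
    rw [h4, ContinuousLinearMap.comp_id]
  rw [hgrad, hd2, hf, ellTr_smul_right]
  simp only [smul_apply, innerSL_apply_apply, smul_eq_mul, map_smul]
  rw [real_inner_comm (a x (x - x₁)) (x - x₁), real_inner_comm (b x) (x - x₁)]
  ring

/-- (H1b) the barrier is a strict subsolution on the annulus. -/
theorem ell_hopf_barrier {lam Lam K ρ : ℝ} (hlam : 0 < lam) (hρ : 0 < ρ) :
    ∃ γ : ℝ, 0 < γ ∧ ∀ (a : W → W →L[ℝ] W) (b : W → W) (c : W → ℝ) (x₁ x : W), EllMat lam Lam (a x) →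
      ‖b x‖ ≤ K → |c x| ≤ K → c x ≤ 0 → ρ / 2 ≤ ‖x - x₁‖ → ‖x - x₁‖ ≤ ρ →
      0 < ndOp a b c (fun z => Real.exp (-γ * ‖z - x₁‖ ^ 2) - Real.exp (-γ * ρ ^ 2)) x := by
  set n : ℝ := (Module.finrank ℝ W : ℝ) with hn
  have hn0 : 0 ≤ n := Nat.cast_nonneg _
  set P : ℝ := 2 * (n * |Lam| + |K| * ρ) + |K| with hP
  have hP0 : 0 ≤ P := by positivity
  set γ : ℝ := 1 + P / (lam * ρ ^ 2) with hγ
  have hlr : 0 < lam * ρ ^ 2 := by positivity
  have hγ1 : 1 ≤ γ := by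
    have : 0 ≤ P / (lam * ρ ^ 2) := by positivity
    linarith
  have hγP : P + lam * ρ ^ 2 = γ * (lam * ρ ^ 2) := by
    rw [hγ, add_mul, div_mul_cancel₀ _ hlr.ne']
    ring
  refine ⟨γ, by linarith, ?_⟩
  intro a b c x₁ x hE hb hc hc0 h1 h2
  obtain ⟨hs, hl, hL⟩ := hE
  have hcd : ContDiff ℝ 2 (fun z : W => Real.exp (-γ * ‖z - x₁‖ ^ 2)) := (ell_gauss_contDiff x₁ γ).exp
  have e1 : (fun z : W => Real.exp (-γ * ‖z - x₁‖ ^ 2) - Real.exp (-γ * ρ ^ 2))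
      = fun z => Real.exp (-γ * ‖z - x₁‖ ^ 2) + (fun _ : W => - Real.exp (-γ * ρ ^ 2)) z := by
    funext z; ring
  rw [e1, ell_ndOp_add hcd.contDiffAt contDiffAt_const, ell_ndOp_const, ell_ndOp_gauss a b c x₁ γ x hs]
  have hx1 : 0 ≤ c x * -Real.exp (-γ * ρ ^ 2) := by
    have := Real.exp_pos (-γ * ρ ^ 2)
    nlinarith
  have hmain : 0 < 4 * γ ^ 2 * ⟪a x (x - x₁), x - x₁⟫ - 2 * γ * ellTr (a x) (innerSL ℝ)
      - 2 * γ * ⟪b x, x - x₁⟫ + c x := by
    have t1 : lam * (ρ / 2) ^ 2 ≤ ⟪a x (x - x₁), x - x₁⟫ := by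
      refine le_trans ?_ (hl (x - x₁))
      apply mul_le_mul_of_nonneg_left _ hlam.le
      exact pow_le_pow_left₀ (by positivity) h1 2
    have t2 : ellTr (a x) (innerSL ℝ) ≤ n * |Lam| := by
      have h3 := ellTr_abs_le (a x) (innerSL ℝ : W →L[ℝ] W →L[ℝ] ℝ)
      have h4 : ‖(innerSL ℝ : W →L[ℝ] W →L[ℝ] ℝ)‖ ≤ 1 := norm_innerSL_le ℝ
      have h5 : ‖a x‖ ≤ |Lam| := hL.trans (le_abs_self _)
      calc ellTr (a x) (innerSL ℝ) ≤ |ellTr (a x) (innerSL ℝ)| := le_abs_self _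
        _ ≤ n * ‖a x‖ * ‖(innerSL ℝ : W →L[ℝ] W →L[ℝ] ℝ)‖ := h3
        _ ≤ n * |Lam| * 1 := by gcongr
        _ = n * |Lam| := mul_one _
    have t3 : ⟪b x, x - x₁⟫ ≤ |K| * ρ := by
      calc ⟪b x, x - x₁⟫ ≤ ‖b x‖ * ‖x - x₁‖ := real_inner_le_norm _ _
        _ ≤ |K| * ρ := mul_le_mul (hb.trans (le_abs_self _)) h2 (norm_nonneg _) (abs_nonneg _)
    have t4 : -|K| ≤ c x := by
      have := neg_abs_le (c x)
      have := hc.trans (le_abs_self K)
      linarith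
    have hγ0 : 0 < γ := by linarith
    have s1 : 4 * γ ^ 2 * (lam * (ρ / 2) ^ 2) ≤ 4 * γ ^ 2 * ⟪a x (x - x₁), x - x₁⟫ :=
      mul_le_mul_of_nonneg_left t1 (by positivity)
    have s2 : 2 * γ * ellTr (a x) (innerSL ℝ) ≤ 2 * γ * (n * |Lam|) :=
      mul_le_mul_of_nonneg_left t2 (by positivity)
    have s3 : 2 * γ * ⟪b x, x - x₁⟫ ≤ 2 * γ * (|K| * ρ) := mul_le_mul_of_nonneg_left t3 (by positivity)
    have s4 : 4 * γ ^ 2 * (lam * (ρ / 2) ^ 2) = γ * (γ * (lam * ρ ^ 2)) := by ring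
    rw [s4, ← hγP] at s1
    have s5 : |K| ≤ γ * |K| := le_mul_of_one_le_left (abs_nonneg K) hγ1
    have s6 : 0 < γ * (lam * ρ ^ 2) := by positivity
    have s7 : γ * (P + lam * ρ ^ 2) = 2 * γ * (n * |Lam|) + 2 * γ * (|K| * ρ) + γ * |K| + γ * (lam * ρ ^ 2) := by
      rw [hP]; ring
    linarith
  have := mul_pos hmain (Real.exp_pos (-γ * ‖x - x₁‖ ^ 2))
  linarith

/-- a function with a one-sided minimum at `0` has a nonnegative derivative. -/
theorem ell_deriv_nonneg_of_right_min {g : ℝ → ℝ} {g' δ : ℝ} (hδ : 0 < δ) (hg : HasDerivAt g g' 0)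
    (hmin : ∀ t, 0 < t → t < δ → g 0 ≤ g t) : 0 ≤ g' := by
  have h1 : Tendsto (slope g 0) (𝓝[>] 0) (𝓝 g') :=
    (hasDerivAt_iff_tendsto_slope.1 hg).mono_left (nhdsWithin_mono _ (fun t ht => ne_of_gt ht))
  refine ge_of_tendsto h1 ?_
  filter_upwards [Ioo_mem_nhdsGT hδ] with t ht
  rw [slope_def_field]
  apply div_nonneg
  · linarith [hmin t ht.1 ht.2]
  · linarith [ht.1]

/-- (H2) **Hopf lemma**. -/
theorem ell_hopf [Nontrivial W] {U : Set W} (hU : IsOpen U) {lam Lam K ρ : ℝ} (hlam : 0 < lam) (hρ : 0 < ρ)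
    {a : W → W →L[ℝ] W} {b : W → W} {c : W → ℝ} {v : W → ℝ} {x₁ y : W} (hB : closedBall x₁ ρ ⊆ U)
    (ha : EllOn lam Lam (ball x₁ ρ) a) (hb : BdOn K (ball x₁ ρ) b) (hc : BdOn K (ball x₁ ρ) c)
    (hc0 : ∀ x ∈ ball x₁ ρ, c x ≤ 0) (hv : ContDiffOn ℝ 2 v U) (hL : ∀ x ∈ ball x₁ ρ, ndOp a b c v x ≤ 0)
    (hpos : ∀ x ∈ ball x₁ ρ, 0 < v x) (hy : ‖y - x₁‖ = ρ) (hvy : v y = 0) :
    0 < fderiv ℝ v y (x₁ - y) := by
  obtain ⟨γ, hγ, hbar⟩ := ell_hopf_barrier (W := W) (Lam := Lam) (K := K) hlam hρ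
  set ψ : W → ℝ := fun z => Real.exp (-γ * ‖z - x₁‖ ^ 2) - Real.exp (-γ * ρ ^ 2) with hψ
  have hψcd : ContDiff ℝ 2 ψ := (ell_gauss_contDiff x₁ γ).exp.sub contDiff_const
  set A : Set W := {x | ρ / 2 < ‖x - x₁‖ ∧ ‖x - x₁‖ < ρ} with hA
  have hnc : Continuous fun x : W => ‖x - x₁‖ := by fun_prop
  have hAo : IsOpen A := (isOpen_lt continuous_const hnc).inter (isOpen_lt hnc continuous_const)
  have hAball : A ⊆ ball x₁ ρ := fun x hx => by
    rw [mem_ball, dist_eq_norm]; exact hx.2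
  have hAb : Bornology.IsBounded A := isBounded_ball.subset hAball
  have hAcl : closure A ⊆ {x | ρ / 2 ≤ ‖x - x₁‖ ∧ ‖x - x₁‖ ≤ ρ} := by
    apply closure_minimal
    · intro x hx; exact ⟨hx.1.le, hx.2.le⟩
    · exact (isClosed_le continuous_const hnc).inter (isClosed_le hnc continuous_const)
  have hAclU : closure A ⊆ U := fun x hx => hB (by
    rw [mem_closedBall, dist_eq_norm]; exact (hAcl hx).2)
  have hvc : ContinuousOn v U := hv.continuousOn
  -- `v ≥ 0` on the closed ball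
  have hv0 : ∀ x ∈ closedBall x₁ ρ, 0 ≤ v x := by
    intro x hx
    rw [← closure_ball x₁ hρ.ne'] at hx
    have hcl : closure (ball x₁ ρ) ⊆ U := by rw [closure_ball x₁ hρ.ne']; exact hB
    have h1 : ContinuousWithinAt v (ball x₁ ρ) x := ((hvc x (hcl hx)).mono (ball_subset_closedBall.trans hB))
    have h2 : (𝓝[ball x₁ ρ] x).NeBot := mem_closure_iff_nhdsWithin_neBot.1 hx
    refine ge_of_tendsto h1 ?_
    filter_upwards [self_mem_nhdsWithin] with z hz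
    exact (hpos z hz).le
  -- minimum on the inner sphere
  have hSne : (sphere x₁ (ρ / 2)).Nonempty := NormedSpace.sphere_nonempty.2 (by positivity)
  have hSball : sphere x₁ (ρ / 2) ⊆ ball x₁ ρ := fun x hx => by
    rw [mem_sphere] at hx
    rw [mem_ball, hx]; linarith
  obtain ⟨xm, hxm, hmin⟩ := (isCompact_sphere x₁ (ρ / 2)).exists_isMinOn hSne
    (hvc.mono (hSball.trans (ball_subset_closedBall.trans hB)))
  set m : ℝ := v xm with hm
  have hm0 : 0 < m := hpos xm (hSball hxm)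
  have hψle : ∀ x, ψ x ≤ 1 := by
    intro x
    have h1 : Real.exp (-γ * ‖x - x₁‖ ^ 2) ≤ 1 := by
      rw [Real.exp_le_one_iff]
      have : 0 ≤ γ * ‖x - x₁‖ ^ 2 := by positivity
      linarith
    have h2 := Real.exp_pos (-γ * ρ ^ 2)
    simp only [hψ]
    linarith
  -- comparison on the annulus
  have hw : ∀ x ∈ A, 0 ≤ v x + (-m) * ψ x := by
    apply ell_weak_min (a := a) (b := b) (c := c) hAo hAb hlam (fun x hx => ha x (hAball hx))
      (fun x hx => hb x (hAball hx)) (fun x hx => hc x (hAball hx)) (fun x hx => hc0 x (hAball hx))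
      ((hv.mono (subset_closure.trans hAclU)).add (contDiffOn_const.mul hψcd.contDiffOn))
      ((hvc.mono hAclU).add (continuousOn_const.mul hψcd.continuous.continuousOn))
    · intro x hx
      have hxU : x ∈ U := hAclU (subset_closure hx)
      rw [ell_ndOp_add (hv.contDiffAt (hU.mem_nhds hxU)) (contDiffAt_const.mul hψcd.contDiffAt),
        ell_ndOp_const_mul (-m) hψcd.contDiffAt]
      have h1 := hbar a b c x₁ x (ha x (hAball hx)) (hb x (hAball hx))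
        (by have := hc x (hAball hx); rwa [Real.norm_eq_abs] at this) (hc0 x (hAball hx)) hx.1.le hx.2.le
      have h2 := hL x (hAball hx)
      have h3 := mul_pos hm0 h1
      linarith
    · intro x hx
      rw [hAo.frontier_eq] at hx
      obtain ⟨h1, h2⟩ := hAcl hx.1
      have h3 : ‖x - x₁‖ = ρ / 2 ∨ ‖x - x₁‖ = ρ := by
        by_contra hcon
        rw [not_or] at hcon
        exact hx.2 ⟨lt_of_le_of_ne h1 (Ne.symm hcon.1), lt_of_le_of_ne h2 hcon.2⟩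
      rcases h3 with h3 | h3
      · have h4 : m ≤ v x := hmin (by rw [mem_sphere, dist_eq_norm]; exact h3)
        have h5 := mul_le_mul_of_nonneg_left (hψle x) hm0.le
        linarith
      · have h4 : ψ x = 0 := by simp only [hψ]; rw [h3]; ring
        rw [h4]
        have := hv0 x (by rw [mem_closedBall, dist_eq_norm]; exact h2)
        linarith
  -- differentiate along the segment
  have hyU : y ∈ U := hB (by rw [mem_closedBall, dist_eq_norm]; exact hy.le)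
  have hvd : HasFDerivAt v (fderiv ℝ v y) y :=
    ((hv.contDiffAt (hU.mem_nhds hyU)).differentiableAt (by norm_num)).hasFDerivAt
  have hψd : HasFDerivAt ψ (Real.exp (-γ * ‖y - x₁‖ ^ 2) • ((-2 * γ) • innerSL ℝ (y - x₁))) y := by
    have h1 : HasFDerivAt (fun z : W => -γ * ‖z - x₁‖ ^ 2) ((-2 * γ) • innerSL ℝ (y - x₁)) y := by
      have := ((ell_gauss_contDiff x₁ γ).differentiable (by norm_num) y).hasFDerivAt
      rwa [ell_gauss_fderiv] at this
    exact h1.exp.sub_const _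
  set σ : ℝ → W := fun t => y + t • (x₁ - y) with hσ
  have hσ0 : σ 0 = y := by simp [hσ]
  have hσd : HasDerivAt σ (x₁ - y) 0 := by
    have := ((hasDerivAt_id (0 : ℝ)).smul_const (x₁ - y)).const_add y
    rw [one_smul] at this
    exact this
  have hwd : HasFDerivAt (fun z => v z + (-m) * ψ z)
      (fderiv ℝ v y + (-m) • (Real.exp (-γ * ‖y - x₁‖ ^ 2) • ((-2 * γ) • innerSL ℝ (y - x₁)))) (σ 0) := by
    rw [hσ0]
    exact hvd.add (hψd.const_mul (-m))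
  have hgd := hwd.comp_hasDerivAt 0 hσd
  have hnn := ell_deriv_nonneg_of_right_min (δ := 1 / 2) (by norm_num) hgd (by
    intro t ht0 ht1
    simp only [Function.comp]
    rw [hσ0]
    have hψy : ψ y = 0 := by simp only [hψ]; rw [hy]; ring
    rw [hvy, hψy]
    have hmem : σ t ∈ A := by
      have e : σ t - x₁ = (1 - t) • (y - x₁) := by
        simp only [hσ]
        module
      simp only [hA, Set.mem_ofPred_eq]
      rw [e, norm_smul, hy, Real.norm_of_nonneg (by linarith)]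
      constructor <;> nlinarith
    have := hw (σ t) hmem
    linarith)
  simp only [add_apply, smul_apply, innerSL_apply_apply, smul_eq_mul] at hnn
  have hin : ⟪y - x₁, x₁ - y⟫ = - ρ ^ 2 := by
    rw [← neg_sub y x₁, inner_neg_right, real_inner_self_eq_norm_sq, hy]
  rw [hin] at hnn
  have hpos2 : 0 < m * (Real.exp (-γ * ‖y - x₁‖ ^ 2) * (2 * γ * ρ ^ 2)) := by positivity
  linarith

/-- (H3) touching ball. -/
theorem ell_touching_ball {U Z : Set W} {z x₁ : W} {r : ℝ} (hr : 0 < r) (hB : closedBall z (2 * r) ⊆ U)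
    (hZ : IsClosed (Z ∩ closedBall z (2 * r))) (hz : z ∈ Z) (hx₁ : x₁ ∈ ball z r) (hx₁Z : x₁ ∉ Z) :
    ∃ ρ > 0, ∃ y ∈ Z, ‖y - x₁‖ = ρ ∧ closedBall x₁ ρ ⊆ U ∧ (∀ x ∈ ball x₁ ρ, x ∉ Z) := by
  set Z' := Z ∩ closedBall z (2 * r) with hZ'
  have hzZ' : z ∈ Z' := ⟨hz, mem_closedBall_self (by positivity)⟩
  have hne : Z'.Nonempty := ⟨z, hzZ'⟩
  obtain ⟨y, hy, hyd⟩ := hZ.exists_infDist_eq_dist hne x₁
  have hpos : 0 < infDist x₁ Z' := (hZ.notMem_iff_infDist_pos hne).1 (fun h => hx₁Z h.1)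
  have hlt : infDist x₁ Z' < r := by
    have h1 : infDist x₁ Z' ≤ dist x₁ z := infDist_le_dist_of_mem hzZ'
    have h2 : dist x₁ z < r := hx₁
    linarith
  refine ⟨infDist x₁ Z', hpos, y, hy.1, ?_, ?_, ?_⟩
  · rw [hyd, dist_comm, dist_eq_norm]
  · intro x hx
    apply hB
    rw [mem_closedBall] at hx ⊢
    have h2 : dist x₁ z < r := hx₁
    have := dist_triangle x x₁ z
    linarith
  · intro x hx hxZ
    rw [mem_ball] at hx
    have h2 : dist x₁ z < r := hx₁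
    have hxB : x ∈ closedBall z (2 * r) := by
      rw [mem_closedBall]
      have := dist_triangle x x₁ z
      linarith
    have h3 : infDist x₁ Z' ≤ dist x₁ x := infDist_le_dist_of_mem ⟨hxZ, hxB⟩
    rw [dist_comm] at h3
    linarith

/-- the zero set of a nonnegative supersolution is open. -/
theorem ell_zero_set_open [Nontrivial W] {U : Set W} (hU : IsOpen U)
    {a : W → W →L[ℝ] W} {b : W → W} {c : W → ℝ} {v : W → ℝ}
    (hloc : ∀ x ∈ U, ∃ r > 0, ∃ lam > 0, ∃ Lam K : ℝ, EllOn lam Lam (ball x r) a ∧ BdOn K (ball x r) b ∧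
      BdOn K (ball x r) c)
    (hv : ContDiffOn ℝ 2 v U) (hL : ∀ x ∈ U, ndOp a b c v x ≤ 0) (hv0 : ∀ x ∈ U, 0 ≤ v x) :
    IsOpen {x | x ∈ U ∧ v x = 0} := by
  rw [Metric.isOpen_iff]
  rintro z ⟨hzU, hvz⟩
  obtain ⟨r₀, hr₀, lam, hlam, Lam, K, hEa, hEb, hEc⟩ := hloc z hzU
  obtain ⟨δ, hδ, hδU⟩ := Metric.isOpen_iff.1 hU z hzU
  set r : ℝ := min r₀ δ / 4 with hr
  have hmin : 0 < min r₀ δ := lt_min hr₀ hδ
  have hr0 : 0 < r := by positivity
  have h2r : 2 * r < min r₀ δ := by rw [hr]; linarith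
  have hBsub : closedBall z (2 * r) ⊆ U ∩ ball z r₀ := by
    intro x hx
    rw [mem_closedBall] at hx
    exact ⟨hδU (by rw [mem_ball]; linarith [min_le_right r₀ δ]), by rw [mem_ball]; linarith [min_le_left r₀ δ]⟩
  refine ⟨r, hr0, ?_⟩
  intro x₁ hx₁
  by_contra hcon
  set Z : Set W := {x | x ∈ U ∧ v x = 0} with hZ
  have hZcl : IsClosed (Z ∩ closedBall z (2 * r)) := by
    have h1 : Z ∩ closedBall z (2 * r) = closedBall z (2 * r) ∩ v ⁻¹' {0} := by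
      ext x
      constructor
      · rintro ⟨⟨-, h2⟩, h3⟩; exact ⟨h3, h2⟩
      · rintro ⟨h3, h2⟩; exact ⟨⟨(hBsub h3).1, h2⟩, h3⟩
    rw [h1]
    exact (hv.continuousOn.mono (fun x hx => (hBsub hx).1)).preimage_isClosed_of_isClosed isClosed_closedBall
      isClosed_singleton
  obtain ⟨ρ, hρ, y, hyZ, hyn, hBρ, hnZ⟩ := ell_touching_ball hr0 hBsub hZcl ⟨hzU, hvz⟩ hx₁ hcon
  have hballsub : ball x₁ ρ ⊆ U ∩ ball z r₀ := ball_subset_closedBall.trans hBρ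
  -- Hopf with `min c 0`
  have hH := ell_hopf (a := a) (b := b) (c := fun x => min (c x) 0) (v := v) (x₁ := x₁) (y := y) (Lam := Lam) (K := K)
    hU hlam hρ (fun x hx => (hBρ hx).1) (fun x hx => hEa x (hballsub hx).2) (fun x hx => hEb x (hballsub hx).2)
    (fun x hx => by
      have h1 := hEc x (hballsub hx).2
      rw [Real.norm_eq_abs] at h1 ⊢
      refine le_trans ?_ h1
      show |min (c x) 0| ≤ |c x|
      rcases le_total (c x) 0 with h | h
      · rw [min_eq_left h]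
      · rw [min_eq_right h, abs_zero]; exact abs_nonneg _)
    (fun x _ => min_le_right _ _) hv
    (fun x hx => by
      have hxU := (hballsub hx).1
      have h1 := hL x hxU
      have h2 := hv0 x hxU
      unfold ndOp at h1 ⊢
      have h3 : min (c x) 0 * v x ≤ c x * v x := mul_le_mul_of_nonneg_right (min_le_left _ _) h2
      linarith)
    (fun x hx => by
      have hxU := (hballsub hx).1
      have h2 := hv0 x hxU
      have h3 : v x ≠ 0 := fun h => hnZ x hx ⟨hxU, h⟩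
      exact lt_of_le_of_ne h2 (Ne.symm h3))
    hyn hyZ.2
  have hlm : IsLocalMin v y := by
    filter_upwards [hU.mem_nhds hyZ.1] with w hw
    rw [hyZ.2]
    exact hv0 w hw
  rw [hlm.fderiv_eq_zero] at hH
  simp at hH

/-- (H4) **strong minimum principle**. -/
theorem ell_strong_min {U : Set W} (hU : IsOpen U) (hUc : IsPreconnected U)
    {a : W → W →L[ℝ] W} {b : W → W} {c : W → ℝ} {v : W → ℝ}
    (hloc : ∀ x ∈ U, ∃ r > 0, ∃ lam > 0, ∃ Lam K : ℝ, EllOn lam Lam (ball x r) a ∧ BdOn K (ball x r) b ∧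
      BdOn K (ball x r) c)
    (hv : ContDiffOn ℝ 2 v U) (hL : ∀ x ∈ U, ndOp a b c v x ≤ 0) (hv0 : ∀ x ∈ U, 0 ≤ v x)
    {x₀ : W} (hx₀ : x₀ ∈ U) (hvx₀ : v x₀ = 0) : ∀ x ∈ U, v x = 0 := by
  rcases subsingleton_or_nontrivial W with hW | hW
  · intro x _
    rw [Subsingleton.elim x x₀, hvx₀]
  intro x hx
  by_contra hcon
  have hO1 : IsOpen {x | x ∈ U ∧ v x = 0} := ell_zero_set_open hU hloc hv hL hv0
  have hO2 : IsOpen (U ∩ v ⁻¹' {0}ᶜ) := hv.continuousOn.isOpen_inter_preimage hU isOpen_compl_singleton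
  obtain ⟨w, -, hw1, hw2⟩ := hUc _ _ hO1 hO2
    (fun w hw => by
      by_cases h : v w = 0
      · exact Or.inl ⟨hw, h⟩
      · exact Or.inr ⟨hw, h⟩)
    ⟨x₀, hx₀, hx₀, hvx₀⟩ ⟨x, hx, hx, hcon⟩
  exact hw2.2 hw1.2

/-- a positive definite form is coercive. -/
theorem ell_coercive_of_pos (A : W →L[ℝ] W) (hpos : ∀ ξ : W, ξ ≠ 0 → 0 < ⟪A ξ, ξ⟫) :
    ∃ μ > 0, ∀ ξ : W, μ * ‖ξ‖ ^ 2 ≤ ⟪A ξ, ξ⟫ := by
  by_cases hS : (sphere (0 : W) 1).Nonempty
  · have hc : Continuous fun ξ : W => ⟪A ξ, ξ⟫ := A.continuous.inner continuous_id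
    obtain ⟨ξ₀, hξ₀, hmin⟩ := (isCompact_sphere (0 : W) 1).exists_isMinOn hS hc.continuousOn
    have hξ₀n : ‖ξ₀‖ = 1 := by simpa using hξ₀
    have hξ₀0 : ξ₀ ≠ 0 := by
      intro h; rw [h, norm_zero] at hξ₀n; exact zero_ne_one hξ₀n
    refine ⟨⟪A ξ₀, ξ₀⟫, hpos ξ₀ hξ₀0, fun ξ => ?_⟩
    by_cases hξ : ξ = 0
    · simp [hξ]
    · have hn : 0 < ‖ξ‖ := norm_pos_iff.2 hξ
      set η : W := ‖ξ‖⁻¹ • ξ with hη
      have hηS : η ∈ sphere (0 : W) 1 := by
        rw [mem_sphere_zero_iff_norm]; exact norm_smul_inv_norm hξ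
      have h1 : ⟪A ξ₀, ξ₀⟫ ≤ ⟪A η, η⟫ := hmin hηS
      have h2 : ξ = ‖ξ‖ • η := by
        rw [hη, smul_smul, mul_inv_cancel₀ hn.ne', one_smul]
      have h3 : ⟪A ξ, ξ⟫ = ‖ξ‖ ^ 2 * ⟪A η, η⟫ := by
        conv_lhs => rw [h2]
        rw [map_smul, inner_smul_left, inner_smul_right]
        simp only [conj_trivial]
        ring
      rw [h3, mul_comm]
      exact mul_le_mul_of_nonneg_left h1 (by positivity)
  · refine ⟨1, one_pos, fun ξ => ?_⟩
    have hξ : ξ = 0 := by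
      by_contra hξ
      exact hS ⟨‖ξ‖⁻¹ • ξ, by rw [mem_sphere_zero_iff_norm]; exact norm_smul_inv_norm hξ⟩
    simp [hξ]

/-- continuous coefficients satisfy the local bounds. -/
theorem ell_loc_of_continuousOn {U : Set W} (hU : IsOpen U) {a : W → W →L[ℝ] W} {b : W → W} {c : W → ℝ}
    (ha : ContinuousOn a U) (hb : ContinuousOn b U) (hc : ContinuousOn c U)
    (hsym : ∀ x ∈ U, ∀ ξ η : W, ⟪a x ξ, η⟫ = ⟪ξ, a x η⟫) (hpos : ∀ x ∈ U, ∀ ξ : W, ξ ≠ 0 → 0 < ⟪a x ξ, ξ⟫) :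
    ∀ x ∈ U, ∃ r > 0, ∃ lam > 0, ∃ Lam K : ℝ, EllOn lam Lam (ball x r) a ∧ BdOn K (ball x r) b ∧
      BdOn K (ball x r) c := by
  intro x hx
  obtain ⟨μ, hμ, hco⟩ := ell_coercive_of_pos (a x) (hpos x hx)
  have hxn := hU.mem_nhds hx
  have h1 : ∀ᶠ z in 𝓝 x, dist (a z) (a x) < μ / 2 :=
    Metric.tendsto_nhds.1 (ha.continuousAt hxn) _ (by positivity)
  have h2 : ∀ᶠ z in 𝓝 x, dist (b z) (b x) < 1 := Metric.tendsto_nhds.1 (hb.continuousAt hxn) _ one_pos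
  have h3 : ∀ᶠ z in 𝓝 x, dist (c z) (c x) < 1 := Metric.tendsto_nhds.1 (hc.continuousAt hxn) _ one_pos
  obtain ⟨r, hr, hball⟩ := Metric.eventually_nhds_iff_ball.1 (h1.and (h2.and (h3.and hxn)))
  refine ⟨r, hr, μ / 2, by positivity, ‖a x‖ + μ / 2, ‖b x‖ + ‖c x‖ + 1, ?_, ?_, ?_⟩
  · intro z hz
    obtain ⟨g1, -, -, g4⟩ := hball z hz
    rw [dist_eq_norm] at g1
    refine ⟨hsym z g4, fun ξ => ?_, ?_⟩
    · have e : ⟪a z ξ, ξ⟫ = ⟪a x ξ, ξ⟫ + ⟪(a z - a x) ξ, ξ⟫ := by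
        rw [sub_apply, inner_sub_left]; ring
      have h5 : |⟪(a z - a x) ξ, ξ⟫| ≤ μ / 2 * ‖ξ‖ ^ 2 := by
        calc |⟪(a z - a x) ξ, ξ⟫| ≤ ‖(a z - a x) ξ‖ * ‖ξ‖ := abs_real_inner_le_norm _ _
          _ ≤ (‖a z - a x‖ * ‖ξ‖) * ‖ξ‖ := by gcongr; exact (a z - a x).le_opNorm ξ
          _ ≤ (μ / 2 * ‖ξ‖) * ‖ξ‖ := by gcongr
          _ = μ / 2 * ‖ξ‖ ^ 2 := by ring
      have h6 := hco ξ
      have h7 := neg_abs_le ⟪(a z - a x) ξ, ξ⟫
      rw [e]
      linarith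
    · have : a z = a x + (a z - a x) := by abel
      rw [this]
      exact (norm_add_le _ _).trans (by linarith)
  · intro z hz
    obtain ⟨-, g2, -, -⟩ := hball z hz
    rw [dist_eq_norm] at g2
    have : b z = b x + (b z - b x) := by abel
    rw [this]
    refine (norm_add_le _ _).trans ?_
    linarith [norm_nonneg (c x)]
  · intro z hz
    obtain ⟨-, -, g3, -⟩ := hball z hz
    rw [dist_eq_norm] at g3
    have : c z = c x + (c z - c x) := by abel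
    rw [this]
    refine (norm_add_le _ _).trans ?_
    linarith [norm_nonneg (b x)]

/-- **strong maximum principle**. -/
theorem ell_strong_max {U : Set W} (hU : IsOpen U) (hUc : IsPreconnected U)
    {a : W → W →L[ℝ] W} {b : W → W} {c : W → ℝ} {u : W → ℝ}
    (hloc : ∀ x ∈ U, ∃ r > 0, ∃ lam > 0, ∃ Lam K : ℝ, EllOn lam Lam (ball x r) a ∧ BdOn K (ball x r) b ∧
      BdOn K (ball x r) c)
    (hc0 : ∀ x ∈ U, c x ≤ 0) (hu : ContDiffOn ℝ 2 u U) (hL : ∀ x ∈ U, 0 ≤ ndOp a b c u x)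
    {x₀ : W} (hx₀ : x₀ ∈ U) (hmax : ∀ x ∈ U, u x ≤ u x₀) (hux₀ : 0 ≤ u x₀) : ∀ x ∈ U, u x = u x₀ := by
  intro x hx
  have := ell_strong_min (v := fun z => (fun _ : W => u x₀) z + (-1 : ℝ) * u z) hU hUc hloc
    (contDiffOn_const.add (contDiffOn_const.mul hu))
    (fun z hz => by
      have hcu : ContDiffAt ℝ 2 u z := hu.contDiffAt (hU.mem_nhds hz)
      rw [ell_ndOp_add contDiffAt_const (contDiffAt_const.mul hcu), ell_ndOp_const_mul (-1) hcu, ell_ndOp_const]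
      have h1 := hL z hz
      have h2 : c z * u x₀ ≤ 0 := mul_nonpos_of_nonpos_of_nonneg (hc0 z hz) hux₀
      linarith)
    (fun z hz => by
      have := hmax z hz
      simp only
      linarith)
    hx₀ (by ring) x hx
  simp only at this
  linarith

theorem ell_gradient_eq_sum (v : W → ℝ) (z : W) :
    ∇ v z = ∑ j, (fderiv ℝ v z (stdOrthonormalBasis ℝ W j)) • stdOrthonormalBasis ℝ W j := by
  conv_lhs => rw [← (stdOrthonormalBasis ℝ W).sum_repr' (∇ v z)]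
  refine Finset.sum_congr rfl fun j _ => ?_
  rw [real_inner_comm, ← ell_dd_eq_inner]
  rfl

/-- divergence form operators with `C¹` coefficients. -/
theorem ell_div_expand {U : Set W} (hU : IsOpen U) {a : W → W →L[ℝ] W} {v : W → ℝ} (ha : ContDiffOn ℝ 1 a U)
    (hsym : ∀ x ∈ U, ∀ ξ η : W, ⟪a x ξ, η⟫ = ⟪ξ, a x η⟫) (hv : ContDiffOn ℝ 2 v U) {x : W} (hx : x ∈ U) :
    ellDiv (fun z => a z (∇ v z)) x
      = ellTr (a x) (ellD2 v x)
        + fderiv ℝ v x (∑ i, fderiv ℝ a x (stdOrthonormalBasis ℝ W i) (stdOrthonormalBasis ℝ W i)) := by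
  set e := stdOrthonormalBasis ℝ W with he
  have hfd : DifferentiableOn ℝ (fderiv ℝ v) U :=
    (hv.fderiv_of_isOpen hU (m := 1) (by norm_num)).differentiableOn (by norm_num)
  have had : DifferentiableOn ℝ a U := ha.differentiableOn (by norm_num)
  have hF : DifferentiableOn ℝ (fun z => a z (∇ v z)) U := by
    apply DifferentiableOn.clm_apply had
    have : ∇ v = fun z => ∑ j, (fderiv ℝ v z (e j)) • e j := by
      funext z; exact ell_gradient_eq_sum v z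
    rw [this]
    apply DifferentiableOn.fun_sum
    intro j _
    exact (hfd.clm_apply (differentiableOn_const _)).smul_const _
  rw [ell_div_eq_sum_dd hU hF hx, map_sum, ellTr, ← Finset.sum_add_distrib]
  refine Finset.sum_congr rfl fun i _ => ?_
  have hxn := hU.mem_nhds hx
  have h1 : (fun z => ⟪a z (∇ v z), e i⟫) =ᶠ[𝓝 x] fun z => fderiv ℝ v z (a z (e i)) := by
    filter_upwards [hxn] with z hz
    rw [hsym z hz, ← ell_dd_eq_inner]
    rfl
  unfold dd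
  rw [h1.fderiv_eq]
  have h2 : HasFDerivAt (fderiv ℝ v) (ellD2 v x) x := ((hfd x hx).differentiableAt hxn).hasFDerivAt
  have h3 : HasFDerivAt a (fderiv ℝ a x) x := ((had x hx).differentiableAt hxn).hasFDerivAt
  have h4 : HasFDerivAt (fun z => a z (e i)) ((fderiv ℝ a x).flip (e i)) x := by
    have := h3.clm_apply (hasFDerivAt_const (e i) x)
    simpa using this
  have h5 := h2.clm_apply h4
  rw [h5.fderiv]
  simp only [add_apply, ContinuousLinearMap.comp_apply, ContinuousLinearMap.flip_apply]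
  rw [ell_d2_symm hU hv hx (e i) (a x (e i))]
  ring

/-- **strong minimum principle, divergence form**. -/
theorem ell_strong_min_div {U : Set W} (hU : IsOpen U) (hUc : IsPreconnected U)
    {a : W → W →L[ℝ] W} {b : W → W} {c : W → ℝ} {v : W → ℝ}
    (ha : ContDiffOn ℝ 1 a U) (hb : ContinuousOn b U) (hc : ContinuousOn c U)
    (hsym : ∀ x ∈ U, ∀ ξ η : W, ⟪a x ξ, η⟫ = ⟪ξ, a x η⟫) (hpos : ∀ x ∈ U, ∀ ξ : W, ξ ≠ 0 → 0 < ⟪a x ξ, ξ⟫)
    (hv : ContDiffOn ℝ 2 v U)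
    (hL : ∀ x ∈ U, 0 ≤ - ellDiv (fun z => a z (∇ v z)) x + ⟪b x, ∇ v x⟫ + c x * v x) (hv0 : ∀ x ∈ U, 0 ≤ v x)
    {x₀ : W} (hx₀ : x₀ ∈ U) (hvx₀ : v x₀ = 0) : ∀ x ∈ U, v x = 0 := by
  set e := stdOrthonormalBasis ℝ W with he
  set b' : W → W := fun x => (∑ i, fderiv ℝ a x (e i) (e i)) - b x with hb'
  have hb'c : ContinuousOn b' U := by
    apply ContinuousOn.sub _ hb
    apply continuousOn_finsetSum
    intro i _
    exact ((ha.continuousOn_fderiv_of_isOpen hU le_rfl).clm_apply continuousOn_const).clm_apply continuousOn_const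
  have hloc := ell_loc_of_continuousOn hU ha.continuousOn hb'c hc.neg hsym hpos
  refine ell_strong_min (a := a) (b := b') (c := fun x => - c x) hU hUc hloc hv (fun x hx => ?_) hv0 hx₀ hvx₀
  have h1 := hL x hx
  rw [ell_div_expand hU ha hsym hv hx] at h1
  unfold ndOp
  simp only [hb', map_sub]
  have h2 : fderiv ℝ v x (b x) = ⟪b x, ∇ v x⟫ := by
    rw [real_inner_comm, ← ell_dd_eq_inner]
    rfl
  rw [h2]
  linarith

end Claimed.Agent.Lib.Ell
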