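/-
Lib/Ell, package L-ell-ker (architect helper232): kernels.  Mathlib + Basic only.
`IsKer κ`: smooth, `κ y = 0` for `1 ≤ ‖y‖`.   The pair `(ellRho, ellP)`: `ρ ≥ 0`, `∫ ρ = 1`, `∇P(y) = - ρ(y) y`; hence
`d/ds ρ_s = s Δ P_s` (file Moll), which is the only "potential theory" of the folder.
PLAN for `ell_kernel_exists`: `φ(t) = Real.smoothTransition (1 - t)`, `ρ(y) = c φ(‖y‖²)`, `P(y) = (c/2) ∫_{‖y‖²}^{1} φ`
(`contDiff_infty_iff_deriv` + `intervalIntegral.integral_hasDerivAt_left`); `ρ 0 > 0` gives `∫ φ(‖y‖²) > 0` (also if `W` is trivial).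
-/
import Claimed.Agent.Lib.Ell.Basic

set_option autoImplicit false

namespace Claimed.Agent.Lib.Ell

open MeasureTheory Metric
open scoped ContDiff RealInnerProductSpace Gradient

universe u

variable {W : Type u} [NormedAddCommGroup W] [InnerProductSpace ℝ W] [FiniteDimensional ℝ W]

/-! ### linearity of `dd` in the direction (no hypothesis on `g`) -/

theorem ell_dd_add_dir (h k : W) (g : W → ℝ) (x : W) : dd (h + k) g x = dd h g x + dd k g x := by
  simp [dd]

theorem ell_dd_smul_dir (c : ℝ) (h : W) (g : W → ℝ) (x : W) : dd (c • h) g x = c * dd h g x := by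
  simp [dd]

theorem ell_dd_eq_sum (h : W) (g : W → ℝ) (x : W) :
    dd h g x = ∑ i, ⟪h, stdOrthonormalBasis ℝ W i⟫ * dd (stdOrthonormalBasis ℝ W i) g x := by
  simp only [dd]
  conv_lhs => rw [← (stdOrthonormalBasis ℝ W).sum_repr' h]
  rw [map_sum]
  exact Finset.sum_congr rfl fun i _ => by rw [map_smul, smul_eq_mul, real_inner_comm]

theorem ell_dd_abs_le (h : W) (g : W → ℝ) (x : W) : |dd h g x| ≤ ‖fderiv ℝ g x‖ * ‖h‖ := by
  exact (fderiv ℝ g x).le_opNorm h

/-- operator norm of the derivative from directional bounds. -/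
theorem ell_norm_fderiv_le {g : W → ℝ} {x : W} {K : ℝ} (hK : 0 ≤ K) (h : ∀ k, |dd k g x| ≤ K * ‖k‖) :
    ‖fderiv ℝ g x‖ ≤ K := by
  exact (fderiv ℝ g x).opNorm_le_bound hK h

theorem ell_norm_fderiv_sub_le {g : W → ℝ} {x y : W} {K : ℝ} (hK : 0 ≤ K)
    (h : ∀ k, |dd k g x - dd k g y| ≤ K * ‖k‖) : ‖fderiv ℝ g x - fderiv ℝ g y‖ ≤ K := by
  exact (fderiv ℝ g x - fderiv ℝ g y).opNorm_le_bound hK h

/-! ### kernels -/

omit [FiniteDimensional ℝ W] in
theorem IsKer.contDiff {κ : W → ℝ} (hκ : IsKer κ) : ContDiff ℝ ∞ κ := hκ.1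

theorem IsKer.continuous {κ : W → ℝ} (hκ : IsKer κ) : Continuous κ := by
  exact hκ.1.continuous

theorem IsKer.hasCompactSupport {κ : W → ℝ} (hκ : IsKer κ) : HasCompactSupport κ := by
  refine HasCompactSupport.of_support_subset_isCompact (isCompact_closedBall (0 : W) 1) fun y hy => ?_
  rw [mem_closedBall, dist_zero_right]
  by_contra hcon
  exact hy (hκ.2 y (not_le.1 hcon).le)

theorem IsKer.tsupport_subset {κ : W → ℝ} (hκ : IsKer κ) : tsupport κ ⊆ closedBall 0 1 := by
  refine closure_minimal (fun y hy => ?_) isClosed_closedBall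
  rw [mem_closedBall, dist_zero_right]
  by_contra hcon
  exact hy (hκ.2 y (not_le.1 hcon).le)

/-- at `‖y‖ = 1` use continuity of the derivative along `t • y`, `t ↓ 1`. -/
theorem IsKer.ker_dd {κ : W → ℝ} (hκ : IsKer κ) (h : W) : IsKer (dd h κ) := by
  have hs : ContDiff ℝ ∞ (dd h κ) := (hκ.1.fderiv_right (m := ∞) (by simp)).clm_apply contDiff_const
  refine ⟨hs, fun y hy => ?_⟩
  have h1 : (closedBall (0 : W) 1)ᶜ ⊆ {z | dd h κ z = 0} := fun z hz => by
    have hz' : κ =ᶠ[nhds z] fun _ => 0 := by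
      filter_upwards [isClosed_closedBall.isOpen_compl.mem_nhds hz] with w hw
      refine hκ.2 w ?_
      rw [Set.mem_compl_iff, mem_closedBall, dist_zero_right, not_le] at hw
      exact hw.le
    show fderiv ℝ κ z h = 0
    rw [hz'.fderiv_eq]
    simp
  have h2 := closure_minimal h1 (isClosed_eq hs.continuous continuous_const)
  rw [closure_compl, interior_closedBall (0 : W) one_ne_zero] at h2
  refine h2 ?_
  rw [Set.mem_compl_iff, mem_ball, dist_zero_right, not_lt]
  exact hy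

theorem IsKer.add {κ κ' : W → ℝ} (hκ : IsKer κ) (hκ' : IsKer κ') : IsKer (fun y => κ y + κ' y) := by
  exact ⟨hκ.1.add hκ'.1, fun y hy => by
    show κ y + κ' y = 0
    rw [hκ.2 y hy, hκ'.2 y hy, add_zero]⟩

theorem IsKer.const_mul {κ : W → ℝ} (hκ : IsKer κ) (c : ℝ) : IsKer (fun y => c * κ y) := by
  exact ⟨contDiff_const.mul hκ.1, fun y hy => by
    show c * κ y = 0
    rw [hκ.2 y hy, mul_zero]⟩

variable [MeasurableSpace W] [BorelSpace W]

theorem IsKer.integrable {κ : W → ℝ} (hκ : IsKer κ) : Integrable κ := by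
  exact hκ.continuous.integrable_of_hasCompactSupport hκ.hasCompactSupport

theorem kerL1_nonneg (κ : W → ℝ) : 0 ≤ kerL1 κ := by
  exact integral_nonneg fun y => abs_nonneg _

theorem ell_integral_dd_aux {G : W → ℝ} (hG : ContDiff ℝ 1 G) (hc : HasCompactSupport G) (h : W) :
    ∫ y, dd h G y = 0 := by
  have hd : Continuous (fun y => fderiv ℝ G y h) :=
    (hG.continuous_fderiv (by simp)).clm_apply continuous_const
  have hcd : HasCompactSupport (fun y => fderiv ℝ G y h) :=
    (hc.fderiv ℝ).comp_left (g := fun L : W →L[ℝ] ℝ => L h) (by simp)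
  have := integral_mul_fderiv_eq_neg_fderiv_mul_of_integrable (μ := (volume : Measure W)) (f := fun _ : W => (1 : ℝ))
    (g := G) (v := h) (by simp) (by simpa using hd.integrable_of_hasCompactSupport hcd)
    (by simpa using hG.continuous.integrable_of_hasCompactSupport hc)
    (fun x _ => differentiableAt_const _) (fun x _ => hG.differentiable (by simp) x)
  simpa [dd] using this

/-- `∫ ∂_h κ = 0` (`integral_mul_fderiv_eq_neg_fderiv_mul_of_integrable` against the constant `1`, or a bump). -/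
theorem IsKer.integral_dd {κ : W → ℝ} (hκ : IsKer κ) (h : W) : ∫ y, dd h κ y = 0 := by
  exact ell_integral_dd_aux (hκ.1.of_le (by simp)) hκ.hasCompactSupport h

/-- more generally for compactly supported differentiable functions with continuous derivative. -/
theorem ell_integral_dd_eq_zero {G : W → ℝ} (hG : ContDiff ℝ 1 G) (hc : HasCompactSupport G) (h : W) :
    ∫ y, dd h G y = 0 := by
  exact ell_integral_dd_aux hG hc h

theorem ell_dd_lincomb {n : ℕ} (c : Fin n → ℝ) {g : Fin n → W → ℝ} (hg : ∀ j, Differentiable ℝ (g j)) (k : W) :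
    dd k (fun y => ∑ j, c j * g j y) = fun y => ∑ j, c j * dd k (g j) y := by
  funext y
  simp only [dd]
  rw [fderiv_fun_sum (fun j _ => ((hg j y).const_mul (c j)))]
  simp [fderiv_const_mul (hg _ y)]

theorem kerL1_lincomb_le {n : ℕ} (c : Fin n → ℝ) {g : Fin n → W → ℝ} (hg : ∀ j, Integrable (g j)) :
    kerL1 (fun y => ∑ j, c j * g j y) ≤ ∑ j, |c j| * kerL1 (g j) := by
  unfold kerL1
  have hi : ∀ j ∈ (Finset.univ : Finset (Fin n)), Integrable (fun y => |c j| * |g j y|) := fun j _ =>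
    (hg j).abs.const_mul _
  calc ∫ y, |∑ j, c j * g j y| ≤ ∫ y, ∑ j, |c j| * |g j y| := by
        refine integral_mono_of_nonneg (Filter.Eventually.of_forall fun y => abs_nonneg _) (integrable_finset_sum _ hi)
          (Filter.Eventually.of_forall fun y => ?_)
        exact (Finset.abs_sum_le_sum_abs _ _).trans (le_of_eq (Finset.sum_congr rfl fun j _ => abs_mul _ _))
    _ = ∑ j, |c j| * ∫ y, |g j y| := by
        rw [integral_finset_sum _ hi]
        exact Finset.sum_congr rfl fun j _ => integral_const_mul _ _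

theorem ell_abs_inner_basis_le (h : W) (j : Fin (Module.finrank ℝ W)) :
    |⟪h, stdOrthonormalBasis ℝ W j⟫| ≤ ‖h‖ := by
  have := abs_real_inner_le_norm h (stdOrthonormalBasis ℝ W j)
  rwa [(stdOrthonormalBasis ℝ W).orthonormal.1 j, mul_one] at this

theorem ell_dd_eq_sum_fun (h : W) (g : W → ℝ) :
    dd h g = fun x => ∑ i, ⟪h, stdOrthonormalBasis ℝ W i⟫ * dd (stdOrthonormalBasis ℝ W i) g x :=
  funext fun x => ell_dd_eq_sum h g x

theorem IsKer.differentiable {κ : W → ℝ} (hκ : IsKer κ) : Differentiable ℝ κ := hκ.1.differentiable (by simp)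

/-- `L¹` bounds of the derivative kernels, uniform in the directions (expand the directions in the basis). -/
theorem ell_ker_l1_1 {κ : W → ℝ} (hκ : IsKer κ) : ∃ c : ℝ, 0 ≤ c ∧ ∀ h, kerL1 (dd h κ) ≤ c * ‖h‖ := by
  have hD := hκ.1.fderiv_right (m := ∞) (by simp)
  have hi : Integrable (fun y => ‖fderiv ℝ κ y‖) :=
    (hD.continuous.norm).integrable_of_hasCompactSupport (hκ.hasCompactSupport.fderiv ℝ).norm
  refine ⟨∫ y, ‖fderiv ℝ κ y‖, integral_nonneg fun y => norm_nonneg _, fun h => ?_⟩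
  rw [kerL1, ← integral_mul_const]
  exact integral_mono ((hκ.ker_dd h).integrable.abs) (hi.mul_const _) fun y => ell_dd_abs_le h κ y

theorem ell_ker_l1_2 {κ : W → ℝ} (hκ : IsKer κ) :
    ∃ c : ℝ, 0 ≤ c ∧ ∀ h k, kerL1 (dd h (dd k κ)) ≤ c * ‖h‖ * ‖k‖ := by
  have h1 := fun j => ell_ker_l1_1 (hκ.ker_dd (stdOrthonormalBasis ℝ W j))
  choose c hc0 hc using h1
  refine ⟨∑ j, c j, Finset.sum_nonneg fun j _ => hc0 j, fun h k => ?_⟩
  rw [ell_dd_eq_sum_fun k κ, ell_dd_lincomb _ (fun j => (hκ.ker_dd _).differentiable) h]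
  refine (kerL1_lincomb_le _ fun j => ((hκ.ker_dd _).ker_dd h).integrable).trans ?_
  rw [Finset.sum_mul, Finset.sum_mul]
  refine Finset.sum_le_sum fun j _ => ?_
  calc |⟪k, stdOrthonormalBasis ℝ W j⟫| * kerL1 (dd h (dd (stdOrthonormalBasis ℝ W j) κ))
      ≤ ‖k‖ * (c j * ‖h‖) :=
        mul_le_mul (ell_abs_inner_basis_le k j) (hc j h) (kerL1_nonneg _) (norm_nonneg _)
    _ = _ := by ring

theorem ell_ker_l1_3 {κ : W → ℝ} (hκ : IsKer κ) :
    ∃ c : ℝ, 0 ≤ c ∧ ∀ h k e, kerL1 (dd h (dd k (dd e κ))) ≤ c * ‖h‖ * ‖k‖ * ‖e‖ := by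
  have h1 := fun j => ell_ker_l1_2 (hκ.ker_dd (stdOrthonormalBasis ℝ W j))
  choose c hc0 hc using h1
  refine ⟨∑ j, c j, Finset.sum_nonneg fun j _ => hc0 j, fun h k e => ?_⟩
  rw [ell_dd_eq_sum_fun e κ, ell_dd_lincomb _ (fun j => (hκ.ker_dd _).differentiable) k,
    ell_dd_lincomb _ (fun j => ((hκ.ker_dd _).ker_dd k).differentiable) h]
  refine (kerL1_lincomb_le _ fun j => (((hκ.ker_dd _).ker_dd k).ker_dd h).integrable).trans ?_
  rw [Finset.sum_mul, Finset.sum_mul, Finset.sum_mul]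
  refine Finset.sum_le_sum fun j _ => ?_
  calc |⟪e, stdOrthonormalBasis ℝ W j⟫| * kerL1 (dd h (dd k (dd (stdOrthonormalBasis ℝ W j) κ)))
      ≤ ‖e‖ * (c j * ‖h‖ * ‖k‖) :=
        mul_le_mul (ell_abs_inner_basis_le e j) (hc j h k) (kerL1_nonneg _) (norm_nonneg _)
    _ = _ := by ring

/-- **the kernel pair**. -/
theorem ell_kernel_exists (W : Type u) [NormedAddCommGroup W] [InnerProductSpace ℝ W] [FiniteDimensional ℝ W]
    [MeasurableSpace W] [BorelSpace W] :
    ∃ ρ P : W → ℝ, IsKer ρ ∧ IsKer P ∧ (∀ y, 0 ≤ ρ y) ∧ ∫ y, ρ y = 1 ∧ (∀ y, ∇ P y = - (ρ y • y)) ∧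
      (∀ y, ρ (-y) = ρ y) ∧ (∀ y, P (-y) = P y) := by
  classical
  -- the profile
  set φ : ℝ → ℝ := fun t => Real.smoothTransition (1 - t) with hφ
  have hφs : ContDiff ℝ ∞ φ := Real.smoothTransition.contDiff.comp (contDiff_const.sub contDiff_id)
  have hφ0 : ∀ t, 1 ≤ t → φ t = 0 := fun t ht => Real.smoothTransition.zero_of_nonpos (by linarith)
  have hφn : ∀ t, 0 ≤ φ t := fun t => Real.smoothTransition.nonneg _
  set Φ : ℝ → ℝ := fun t => ∫ s in t..1, φ s with hΦ
  have hΦd : ∀ t, HasDerivAt Φ (-φ t) t := fun t =>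
    intervalIntegral.integral_hasDerivAt_left (hφs.continuous.intervalIntegrable _ _)
      (hφs.continuous.stronglyMeasurableAtFilter _ _) hφs.continuous.continuousAt
  have hΦs : ContDiff ℝ ∞ Φ := by
    rw [contDiff_infty_iff_deriv]
    refine ⟨fun t => (hΦd t).differentiableAt, ?_⟩
    have : deriv Φ = fun t => -φ t := funext fun t => (hΦd t).deriv
    rw [this]
    exact hφs.neg
  have hΦ0 : ∀ t, 1 ≤ t → Φ t = 0 := fun t ht => by
    simp only [hΦ]
    rw [intervalIntegral.integral_symm, neg_eq_zero]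
    refine intervalIntegral.integral_zero_ae (Filter.Eventually.of_forall fun s hs => ?_)
    rw [Set.uIoc_of_le ht] at hs
    exact hφ0 s hs.1.le
  have hN : ContDiff ℝ ∞ (fun y : W => ‖y‖ ^ 2) := contDiff_norm_sq ℝ
  have hsq : ∀ y : W, 1 ≤ ‖y‖ → 1 ≤ ‖y‖ ^ 2 := fun y hy => by nlinarith
  have k0 : IsKer (fun y : W => φ (‖y‖ ^ 2)) := ⟨hφs.comp hN, fun y hy => hφ0 _ (hsq y hy)⟩
  have kP : IsKer (fun y : W => Φ (‖y‖ ^ 2)) := ⟨hΦs.comp hN, fun y hy => hΦ0 _ (hsq y hy)⟩
  have hI : 0 < ∫ y : W, φ (‖y‖ ^ 2) := by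
    refine Continuous.integral_pos_of_hasCompactSupport_nonneg_nonzero (x := 0) k0.continuous
      k0.hasCompactSupport (fun y => hφn _) ?_
    simp [hφ, Real.smoothTransition.one_of_one_le le_rfl]
  set c : ℝ := (∫ y : W, φ (‖y‖ ^ 2))⁻¹ with hc
  have hc0 : 0 < c := inv_pos.2 hI
  refine ⟨fun y => c * φ (‖y‖ ^ 2), fun y => c / 2 * Φ (‖y‖ ^ 2), k0.const_mul c, kP.const_mul _,
    fun y => mul_nonneg hc0.le (hφn _), ?_, fun y => ?_, fun y => by simp, fun y => by simp⟩
  · rw [integral_const_mul, hc, inv_mul_cancel₀ hI.ne']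
  · refine HasGradientAt.gradient ?_
    rw [hasGradientAt_iff_hasFDerivAt]
    have h1 := ((hΦd (‖y‖ ^ 2)).comp_hasFDerivAt y (hasStrictFDerivAt_norm_sq y).hasFDerivAt).const_mul (c / 2)
    refine h1.congr_fderiv ?_
    ext w
    simp only [ContinuousLinearMap.smul_apply, InnerProductSpace.toDual_apply_apply, innerSL_apply_apply,
      inner_neg_left, real_inner_smul_left, smul_eq_mul, nsmul_eq_mul]
    push_cast
    ring

/-- the standard mollifier. -/
noncomputable def ellRho : W → ℝ := (ell_kernel_exists W).choose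

/-- its "potential": `∇ P (y) = - ρ(y) y`. -/
noncomputable def ellP : W → ℝ := (ell_kernel_exists W).choose_spec.choose

theorem ellRho_isKer : IsKer (ellRho : W → ℝ) := (ell_kernel_exists W).choose_spec.choose_spec.1

theorem ellP_isKer : IsKer (ellP : W → ℝ) := (ell_kernel_exists W).choose_spec.choose_spec.2.1

theorem ellRho_nonneg (y : W) : 0 ≤ ellRho y := (ell_kernel_exists W).choose_spec.choose_spec.2.2.1 y

theorem ellRho_integral : ∫ y : W, ellRho y = 1 := (ell_kernel_exists W).choose_spec.choose_spec.2.2.2.1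

theorem ellP_gradient (y : W) : ∇ ellP y = - (ellRho y • y) :=
  (ell_kernel_exists W).choose_spec.choose_spec.2.2.2.2.1 y

theorem ellRho_neg (y : W) : ellRho (-y) = ellRho y := (ell_kernel_exists W).choose_spec.choose_spec.2.2.2.2.2.1 y

theorem ellP_neg (y : W) : ellP (-y) = ellP y := (ell_kernel_exists W).choose_spec.choose_spec.2.2.2.2.2.2 y

theorem ellRho_kerL1 : kerL1 (ellRho : W → ℝ) = 1 := by
  rw [kerL1, ← ellRho_integral (W := W)]
  exact integral_congr_ae (Filter.Eventually.of_forall fun y => abs_of_nonneg (ellRho_nonneg y))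

end Claimed.Agent.Lib.Ell
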