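/-
Lib/Ell, package L-ell-lapdiv (architect helper232): the `C^{1,α}` estimate for SMOOTH solutions of `Δu = div F + g` on the UNIT
ball, conclusion on `ball 0 (1/8)`.  (General scale, general constant matrices: file Cc.  Weak solutions: file Cc, by mollification.)

PROOF.  `u_σ = ellMol ellRho σ u`.  For `w = ∂_k u`, `ell_mol_rho_ds2`, `ell_lap_dd` and `ell_mol_ibp2/3` give
  d/dσ (∂_k u)_σ (x)      = σ⁻¹ Σ_i (∂_k ∂_i P)_σ * F_i + (∂_k P)_σ * g                      = O(M σ^{α-1})      (LD1)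
  d/dσ (∂_h ∂_k u)_σ (x)  = σ⁻² Σ_i (∂_h ∂_k ∂_i P)_σ * F_i + σ⁻¹ (∂_h ∂_k P)_σ * g           = O(M σ^{α-2})      (LD2)
because the derivative kernels have mean zero (`IsKer.integral_dd`, `ell_mol_osc_hol`) and `L¹` norm `≤ c ‖h‖ ‖k‖` (`ell_ker_l1_*`).
Integrate (`ell_ftc_pow`, `ell_ftc_pow_neg`): `|∂_k u - (∂_k u)_s| ≤ C M s^α` (LD4), `|(∂_h ∂_k u)_s| ≤ C M s^{α-1}` (LD5; at
`s₀ = 1/4` put both derivatives on the kernel: `ell_mol_ibp2`).  For `x, y ∈ ball 0 (1/8)` take `s = ‖x - y‖ < 1/4` (LD6).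
-/
import Claimed.Agent.Lib.Ell.Moll

set_option autoImplicit false
set_option linter.unusedSectionVars false

namespace Claimed.Agent.Lib.Ell

open MeasureTheory Metric Filter
open scoped ContDiff RealInnerProductSpace Gradient Topology

universe u

variable {W : Type u} [NormedAddCommGroup W] [InnerProductSpace ℝ W] [FiniteDimensional ℝ W]
  [MeasurableSpace W] [BorelSpace W]

/-- the hypotheses of this file: a smooth solution on an open set. -/
structure LapSm (U : Set W) (u : W → ℝ) (F : W → W) (g : W → ℝ) : Prop where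
  isOpen : IsOpen U
  u_smooth : ContDiffOn ℝ ∞ u U
  F_smooth : ContDiffOn ℝ ∞ F U
  g_smooth : ContDiffOn ℝ ∞ g U
  eq : ∀ x ∈ U, ellLap u x = ellDiv F x + g x

variable {U : Set W} {u : W → ℝ} {F : W → W} {g : W → ℝ} {x : W} {s α M : ℝ}

/-- differentiating an equation `Δ v = ∑ G i + g'`. -/
theorem ell_ld_lap_dd {ι : Type} [Fintype ι] (hU : IsOpen U) {v : W → ℝ} (hv : ContDiffOn ℝ ∞ v U)
    {G : ι → W → ℝ} (hG : ∀ i, ContDiffOn ℝ ∞ (G i) U) {g' : W → ℝ} (hg' : ContDiffOn ℝ ∞ g' U)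
    (heq : ∀ z ∈ U, ellLap v z = ∑ i, G i z + g' z) (h : W) :
    ∀ z ∈ U, ellLap (dd h v) z = ∑ i, dd h (G i) z + dd h g' z := by
  intro z hz
  rw [ell_lap_dd hU (hv.of_le (by norm_cast)) hz h]
  have h1 : ellLap v =ᶠ[𝓝 z] fun w => ∑ i, G i w + g' w := by
    filter_upwards [hU.mem_nhds hz] with w hw using heq w hw
  have hGd : ∀ i, DifferentiableAt ℝ (G i) z := fun i =>
    ((hG i).contDiffAt (hU.mem_nhds hz)).differentiableAt (by simp)
  have hgd : DifferentiableAt ℝ g' z := (hg'.contDiffAt (hU.mem_nhds hz)).differentiableAt (by simp)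
  unfold dd
  rw [h1.fderiv_eq, fderiv_fun_add (DifferentiableAt.fun_sum fun i _ => hGd i) hgd,
    fderiv_fun_sum fun i _ => hGd i]
  simp

theorem ell_ld_comp_smooth (H : LapSm U u F g) (e : W) : ContDiffOn ℝ ∞ (fun z => ⟪F z, e⟫) U :=
  H.F_smooth.inner ℝ contDiffOn_const

/-- the equation in terms of directional derivatives -/
theorem ell_ld_eq0 (H : LapSm U u F g) : ∀ z ∈ U, ellLap u z =
    ∑ i, dd (stdOrthonormalBasis ℝ W i) (fun z => ⟪F z, stdOrthonormalBasis ℝ W i⟫) z + g z := by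
  intro z hz
  rw [H.eq z hz, ell_div_eq_sum_dd H.isOpen (H.F_smooth.differentiableOn (by simp)) hz]

theorem ell_ld_eq1 (H : LapSm U u F g) (k : W) : ∀ z ∈ U, ellLap (dd k u) z =
    ∑ i, dd k (dd (stdOrthonormalBasis ℝ W i) (fun z => ⟪F z, stdOrthonormalBasis ℝ W i⟫)) z + dd k g z :=
  ell_ld_lap_dd H.isOpen H.u_smooth
    (fun _ => ContDiffOn.ell_dd_infty H.isOpen (ell_ld_comp_smooth H _) _) H.g_smooth (ell_ld_eq0 H) k

theorem ell_ld_eq2 (H : LapSm U u F g) (h k : W) : ∀ z ∈ U, ellLap (dd h (dd k u)) z =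
    ∑ i, dd h (dd k (dd (stdOrthonormalBasis ℝ W i) (fun z => ⟪F z, stdOrthonormalBasis ℝ W i⟫))) z
      + dd h (dd k g) z :=
  ell_ld_lap_dd H.isOpen (ContDiffOn.ell_dd_infty H.isOpen H.u_smooth k)
    (fun _ => ContDiffOn.ell_dd_infty H.isOpen (ContDiffOn.ell_dd_infty H.isOpen (ell_ld_comp_smooth H _) _) _)
    (ContDiffOn.ell_dd_infty H.isOpen H.g_smooth k) (ell_ld_eq1 H k) h

/-- (LD1) -/
theorem ell_lapdiv_ds1 (H : LapSm U u F g) (hs : 0 < s) (hx : closedBall x s ⊆ U) (k : W) :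
    HasDerivAt (fun σ => ellMol ellRho σ (dd k u) x)
      (s⁻¹ * ∑ i, ellMol (dd k (dd (stdOrthonormalBasis ℝ W i) ellP)) s
          (fun z => ⟪F z, stdOrthonormalBasis ℝ W i⟫) x + ellMol (dd k ellP) s g x) s := by
  have hU := H.isOpen
  have D : ∀ {f : W → ℝ} (e : W), ContDiffOn ℝ ∞ f U → ContDiffOn ℝ ∞ (dd e f) U :=
    fun e hf => ContDiffOn.ell_dd_infty hU hf e
  have h1 := ell_mol_rho_ds2 hU ((D k H.u_smooth).of_le (by norm_cast)) hs hx
  convert h1 using 1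
  have hFi : ∀ i, ContDiffOn ℝ ∞ (fun z => ⟪F z, stdOrthonormalBasis ℝ W i⟫) U :=
    fun i => ell_ld_comp_smooth H _
  rw [ell_mol_congr ellP_isKer hs.le (fun z hz => ell_ld_eq1 H k z (hx hz)),
    ell_mol_add ellP_isKer hs.le
      (continuousOn_finsetSum _ fun i _ => ((D k (D _ (hFi i))).continuousOn.mono hx))
      ((D k H.g_smooth).continuousOn.mono hx),
    ell_mol_sum _ _ ellP_isKer hs.le (fun i _ => ((D k (D _ (hFi i))).continuousOn.mono hx)),
    ell_mol_ibp ellP_isKer hU (H.g_smooth.of_le (by norm_cast)) hs hx k]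
  simp only [ell_mol_ibp2 ellP_isKer hU ((hFi _).of_le (by norm_cast)) hs hx k]
  rw [← Finset.mul_sum]
  field_simp

/-- (LD2) -/
theorem ell_lapdiv_ds2 (H : LapSm U u F g) (hs : 0 < s) (hx : closedBall x s ⊆ U) (h k : W) :
    HasDerivAt (fun σ => ellMol ellRho σ (dd h (dd k u)) x)
      (s⁻¹ ^ 2 * ∑ i, ellMol (dd h (dd k (dd (stdOrthonormalBasis ℝ W i) ellP))) s
          (fun z => ⟪F z, stdOrthonormalBasis ℝ W i⟫) x + s⁻¹ * ellMol (dd h (dd k ellP)) s g x) s := by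
  have hU := H.isOpen
  have D : ∀ {f : W → ℝ} (e : W), ContDiffOn ℝ ∞ f U → ContDiffOn ℝ ∞ (dd e f) U :=
    fun e hf => ContDiffOn.ell_dd_infty hU hf e
  have h1 := ell_mol_rho_ds2 hU ((D h (D k H.u_smooth)).of_le (by norm_cast)) hs hx
  convert h1 using 1
  have hFi : ∀ i, ContDiffOn ℝ ∞ (fun z => ⟪F z, stdOrthonormalBasis ℝ W i⟫) U :=
    fun i => ell_ld_comp_smooth H _
  rw [ell_mol_congr ellP_isKer hs.le (fun z hz => ell_ld_eq2 H h k z (hx hz)),
    ell_mol_add ellP_isKer hs.le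
      (continuousOn_finsetSum _ fun i _ => ((D h (D k (D _ (hFi i)))).continuousOn.mono hx))
      ((D h (D k H.g_smooth)).continuousOn.mono hx),
    ell_mol_sum _ _ ellP_isKer hs.le (fun i _ => ((D h (D k (D _ (hFi i)))).continuousOn.mono hx)),
    ell_mol_ibp2 ellP_isKer hU (H.g_smooth.of_le (by norm_cast)) hs hx h k]
  simp only [ell_mol_ibp3 ellP_isKer hU ((hFi _).of_le (by norm_cast)) hs hx h k]
  rw [← Finset.mul_sum]
  field_simp

theorem ell_ld_hol_comp {S : Set W} (hF : HolOn α M S F) (i : Fin (Module.finrank ℝ W)) :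
    HolOn α M S (fun z => ⟪F z, stdOrthonormalBasis ℝ W i⟫) := by
  intro z hz z' hz'
  refine le_trans ?_ (hF z hz z' hz')
  rw [← inner_sub_left, Real.norm_eq_abs]
  refine (abs_real_inner_le_norm _ _).trans ?_
  rw [(stdOrthonormalBasis ℝ W).orthonormal.1 i, mul_one]

theorem ell_ld_basis_norm (i : Fin (Module.finrank ℝ W)) : ‖stdOrthonormalBasis ℝ W i‖ = 1 :=
  (stdOrthonormalBasis ℝ W).orthonormal.1 i

/-- (LD3a) bound of the right hand side of (LD1); `c` depends only on `W`. -/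
theorem ell_lapdiv_bd1 (W : Type u) [NormedAddCommGroup W] [InnerProductSpace ℝ W] [FiniteDimensional ℝ W]
    [MeasurableSpace W] [BorelSpace W] :
    ∃ c : ℝ, 0 ≤ c ∧ ∀ (α M s : ℝ) (x k : W) (F : W → W) (g : W → ℝ), 0 < α → α < 1 → 0 ≤ M → 0 < s → s ≤ 1 →
      HolOn α M (closedBall x s) F → ContinuousOn g (closedBall x s) → BdOn M (closedBall x s) g →
      |s⁻¹ * ∑ i, ellMol (dd k (dd (stdOrthonormalBasis ℝ W i) ellP)) s
          (fun z => ⟪F z, stdOrthonormalBasis ℝ W i⟫) x + ellMol (dd k ellP) s g x|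
        ≤ (c * M * ‖k‖) * s ^ (α - 1) := by
  obtain ⟨c1, hc1, h1⟩ := ell_ker_l1_1 (ellP_isKer (W := W))
  obtain ⟨c2, hc2, h2⟩ := ell_ker_l1_2 (ellP_isKer (W := W))
  refine ⟨(Module.finrank ℝ W : ℝ) * c2 + c1, by positivity, ?_⟩
  intro α M s x k F g hα hα1 hM hs hs1 hF hgc hgb
  have hsα : 0 < s ^ α := Real.rpow_pos_of_pos hs _
  have hpow : s ^ (α - 1) = s⁻¹ * s ^ α := by
    rw [Real.rpow_sub_one hs.ne', div_eq_inv_mul]
  have hone : 1 ≤ s ^ (α - 1) := Real.one_le_rpow_of_pos_of_le_one_of_nonpos hs hs1 (by linarith)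
  have a1 : ∀ i, |ellMol (dd k (dd (stdOrthonormalBasis ℝ W i) ellP)) s
      (fun z => ⟪F z, stdOrthonormalBasis ℝ W i⟫) x| ≤ c2 * ‖k‖ * (M * s ^ α) := by
    intro i
    refine (ell_mol_osc_hol ((ellP_isKer.ker_dd _).ker_dd k) ((ellP_isKer.ker_dd _).integral_dd k) hs.le hα hM
      (ell_ld_hol_comp hF i)).trans ?_
    refine mul_le_mul_of_nonneg_right ?_ (by positivity)
    have := h2 k (stdOrthonormalBasis ℝ W i)
    rwa [ell_ld_basis_norm, mul_one] at this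
  have a2 : |ellMol (dd k ellP) s g x| ≤ c1 * ‖k‖ * M :=
    (ell_mol_abs_le (ellP_isKer.ker_dd k) hs.le hgc hgb).trans
      (mul_le_mul_of_nonneg_right (h1 k) hM)
  have a3 : |∑ i, ellMol (dd k (dd (stdOrthonormalBasis ℝ W i) ellP)) s
      (fun z => ⟪F z, stdOrthonormalBasis ℝ W i⟫) x| ≤ (Module.finrank ℝ W : ℝ) * (c2 * ‖k‖ * (M * s ^ α)) := by
    refine (Finset.abs_sum_le_sum_abs _ _).trans ((Finset.sum_le_sum fun i _ => a1 i).trans ?_)
    rw [Finset.sum_const, Finset.card_univ, Fintype.card_fin, nsmul_eq_mul]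
  calc _ ≤ |s⁻¹ * ∑ i, ellMol (dd k (dd (stdOrthonormalBasis ℝ W i) ellP)) s
          (fun z => ⟪F z, stdOrthonormalBasis ℝ W i⟫) x| + |ellMol (dd k ellP) s g x| := abs_add_le _ _
    _ ≤ s⁻¹ * ((Module.finrank ℝ W : ℝ) * (c2 * ‖k‖ * (M * s ^ α))) + c1 * ‖k‖ * M := by
        rw [abs_mul, abs_of_pos (inv_pos.2 hs)]
        exact add_le_add (mul_le_mul_of_nonneg_left a3 (inv_pos.2 hs).le) a2
    _ = (Module.finrank ℝ W : ℝ) * c2 * M * ‖k‖ * s ^ (α - 1) + c1 * ‖k‖ * M * 1 := by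
        rw [hpow]; ring
    _ ≤ (Module.finrank ℝ W : ℝ) * c2 * M * ‖k‖ * s ^ (α - 1) + c1 * ‖k‖ * M * s ^ (α - 1) := by
        have : 0 ≤ c1 * ‖k‖ * M := by positivity
        have := mul_le_mul_of_nonneg_left hone this
        linarith
    _ = _ := by ring

/-- (LD3b) bound of the right hand side of (LD2). -/
theorem ell_lapdiv_bd2 (W : Type u) [NormedAddCommGroup W] [InnerProductSpace ℝ W] [FiniteDimensional ℝ W]
    [MeasurableSpace W] [BorelSpace W] :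
    ∃ c : ℝ, 0 ≤ c ∧ ∀ (α M s : ℝ) (x h k : W) (F : W → W) (g : W → ℝ), 0 < α → α < 1 → 0 ≤ M → 0 < s → s ≤ 1 →
      HolOn α M (closedBall x s) F → ContinuousOn g (closedBall x s) → BdOn M (closedBall x s) g →
      |s⁻¹ ^ 2 * ∑ i, ellMol (dd h (dd k (dd (stdOrthonormalBasis ℝ W i) ellP))) s
          (fun z => ⟪F z, stdOrthonormalBasis ℝ W i⟫) x + s⁻¹ * ellMol (dd h (dd k ellP)) s g x|
        ≤ (c * M * ‖h‖ * ‖k‖) * s ^ (-(1 - α) - 1) := by
  obtain ⟨c2, hc2, h2⟩ := ell_ker_l1_2 (ellP_isKer (W := W))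
  obtain ⟨c3, hc3, h3⟩ := ell_ker_l1_3 (ellP_isKer (W := W))
  refine ⟨(Module.finrank ℝ W : ℝ) * c3 + c2, by positivity, ?_⟩
  intro α M s x h k F g hα hα1 hM hs hs1 hF hgc hgb
  have hsα : 0 < s ^ α := Real.rpow_pos_of_pos hs _
  have hpow : s ^ (-(1 - α) - 1) = s⁻¹ ^ 2 * s ^ α := by
    have : -(1 - α) - 1 = α - (2 : ℕ) := by push_cast; ring
    rw [this, Real.rpow_sub hs, Real.rpow_natCast, inv_pow, div_eq_inv_mul]
  have hone : s⁻¹ ≤ s ^ (-(1 - α) - 1) := by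
    rw [← Real.rpow_neg_one]
    exact Real.rpow_le_rpow_of_exponent_ge hs hs1 (by linarith)
  have a1 : ∀ i, |ellMol (dd h (dd k (dd (stdOrthonormalBasis ℝ W i) ellP))) s
      (fun z => ⟪F z, stdOrthonormalBasis ℝ W i⟫) x| ≤ c3 * ‖h‖ * ‖k‖ * (M * s ^ α) := by
    intro i
    refine (ell_mol_osc_hol (((ellP_isKer.ker_dd _).ker_dd k).ker_dd h)
      (((ellP_isKer.ker_dd _).ker_dd k).integral_dd h) hs.le hα hM (ell_ld_hol_comp hF i)).trans ?_
    refine mul_le_mul_of_nonneg_right ?_ (by positivity)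
    have := h3 h k (stdOrthonormalBasis ℝ W i)
    rwa [ell_ld_basis_norm, mul_one] at this
  have a2 : |ellMol (dd h (dd k ellP)) s g x| ≤ c2 * ‖h‖ * ‖k‖ * M :=
    (ell_mol_abs_le ((ellP_isKer.ker_dd k).ker_dd h) hs.le hgc hgb).trans
      (mul_le_mul_of_nonneg_right (h2 h k) hM)
  have a3 : |∑ i, ellMol (dd h (dd k (dd (stdOrthonormalBasis ℝ W i) ellP))) s
      (fun z => ⟪F z, stdOrthonormalBasis ℝ W i⟫) x|
      ≤ (Module.finrank ℝ W : ℝ) * (c3 * ‖h‖ * ‖k‖ * (M * s ^ α)) := by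
    refine (Finset.abs_sum_le_sum_abs _ _).trans ((Finset.sum_le_sum fun i _ => a1 i).trans ?_)
    rw [Finset.sum_const, Finset.card_univ, Fintype.card_fin, nsmul_eq_mul]
  have hs2 : 0 < s⁻¹ ^ 2 := by positivity
  calc _ ≤ |s⁻¹ ^ 2 * ∑ i, ellMol (dd h (dd k (dd (stdOrthonormalBasis ℝ W i) ellP))) s
          (fun z => ⟪F z, stdOrthonormalBasis ℝ W i⟫) x| + |s⁻¹ * ellMol (dd h (dd k ellP)) s g x| :=
        abs_add_le _ _
    _ ≤ s⁻¹ ^ 2 * ((Module.finrank ℝ W : ℝ) * (c3 * ‖h‖ * ‖k‖ * (M * s ^ α))) +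
          s⁻¹ * (c2 * ‖h‖ * ‖k‖ * M) := by
        rw [abs_mul, abs_mul, abs_of_pos hs2, abs_of_pos (inv_pos.2 hs)]
        exact add_le_add (mul_le_mul_of_nonneg_left a3 hs2.le)
          (mul_le_mul_of_nonneg_left a2 (inv_pos.2 hs).le)
    _ = (Module.finrank ℝ W : ℝ) * c3 * M * ‖h‖ * ‖k‖ * s ^ (-(1 - α) - 1) + c2 * ‖h‖ * ‖k‖ * M * s⁻¹ := by
        rw [hpow]; ring
    _ ≤ (Module.finrank ℝ W : ℝ) * c3 * M * ‖h‖ * ‖k‖ * s ^ (-(1 - α) - 1) +
          c2 * ‖h‖ * ‖k‖ * M * s ^ (-(1 - α) - 1) := by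
        have : 0 ≤ c2 * ‖h‖ * ‖k‖ * M := by positivity
        have := mul_le_mul_of_nonneg_left hone this
        linarith
    _ = _ := by ring

/-- (LD4) -/
theorem ell_lapdiv_approx (W : Type u) [NormedAddCommGroup W] [InnerProductSpace ℝ W] [FiniteDimensional ℝ W]
    [MeasurableSpace W] [BorelSpace W] {α : ℝ} (hα : 0 < α) (hα1 : α < 1) :
    ∃ C : ℝ, 0 ≤ C ∧ ∀ (U : Set W) (u : W → ℝ) (F : W → W) (g : W → ℝ) (M s : ℝ) (x k : W), LapSm U u F g →
      0 ≤ M → HolOn α M U F → BdOn M U g → 0 < s → s ≤ 1 → closedBall x s ⊆ U →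
      |ellMol ellRho s (dd k u) x - dd k u x| ≤ C * M * ‖k‖ * s ^ α := by
  obtain ⟨c, hc, hbd⟩ := ell_lapdiv_bd1 W
  refine ⟨c / α, by positivity, ?_⟩
  intro U u F g M s x k H hM hF hg hs hs1 hx
  have hU := H.isOpen
  have hsub : ∀ σ ∈ Set.Ioc 0 s, closedBall x σ ⊆ U := fun σ hσ =>
    (closedBall_subset_closedBall hσ.2).trans hx
  have hxU : x ∈ U := hx (mem_closedBall_self hs.le)
  have hl := ell_mol_tendsto ellRho_isKer hU (ContDiffOn.ell_dd_infty hU H.u_smooth k).continuousOn hxU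
  rw [ellRho_integral, one_mul] at hl
  have := ell_ftc_pow hs hα (fun σ hσ => ell_lapdiv_ds1 H hσ.1 (hsub σ hσ) k)
    (fun σ hσ => hbd α M σ x k F g hα hα1 hM hσ.1 (hσ.2.trans hs1) (hF.mono (hsub σ hσ) le_rfl)
      (H.g_smooth.continuousOn.mono (hsub σ hσ)) (hg.mono (hsub σ hσ) le_rfl)) hl
  calc _ ≤ c * M * ‖k‖ * s ^ α / α := this
    _ = _ := by ring

/-- (LD5) -/
theorem ell_lapdiv_d2 (W : Type u) [NormedAddCommGroup W] [InnerProductSpace ℝ W] [FiniteDimensional ℝ W]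
    [MeasurableSpace W] [BorelSpace W] {α : ℝ} (hα : 0 < α) (hα1 : α < 1) :
    ∃ C : ℝ, 0 ≤ C ∧ ∀ (U : Set W) (u : W → ℝ) (F : W → W) (g : W → ℝ) (M s : ℝ) (x h k : W), LapSm U u F g →
      0 ≤ M → BdOn M U u → HolOn α M U F → BdOn M U g → 0 < s → s ≤ 1 / 4 → closedBall x (1 / 4) ⊆ U →
      |ellMol ellRho s (dd h (dd k u)) x| ≤ C * M * ‖h‖ * ‖k‖ * s ^ (α - 1) := by
  obtain ⟨c, hc, hbd⟩ := ell_lapdiv_bd2 W
  obtain ⟨c2, hc2, h2⟩ := ell_ker_l1_2 (ellRho_isKer (W := W))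
  have hβ : 0 < 1 - α := by linarith
  refine ⟨c / (1 - α) + 16 * c2, by positivity, ?_⟩
  intro U u F g M s x h k H hM hu hF hg hs hs4 hx
  have hU := H.isOpen
  have hsub : ∀ σ ∈ Set.Icc s (1 / 4 : ℝ), closedBall x σ ⊆ U := fun σ hσ =>
    (closedBall_subset_closedBall hσ.2).trans hx
  have h1 := ell_ftc_pow_neg hs hs4 hβ
    (fun σ hσ => ell_lapdiv_ds2 H (lt_of_lt_of_le hs hσ.1) (hsub σ hσ) h k)
    (fun σ hσ => hbd α M σ x h k F g hα hα1 hM (lt_of_lt_of_le hs hσ.1) (hσ.2.trans (by norm_num))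
      (hF.mono (hsub σ hσ) le_rfl) (H.g_smooth.continuousOn.mono (hsub σ hσ)) (hg.mono (hsub σ hσ) le_rfl))
  have h3 : |ellMol ellRho (1 / 4) (dd h (dd k u)) x| ≤ 16 * (c2 * ‖h‖ * ‖k‖ * M) := by
    rw [ell_mol_ibp2 ellRho_isKer hU (H.u_smooth.of_le (by norm_cast)) (by norm_num) hx h k, abs_mul]
    have e : |((1 / 4 : ℝ)⁻¹) ^ 2| = 16 := by norm_num
    rw [e]
    refine mul_le_mul_of_nonneg_left ?_ (by norm_num)
    exact (ell_mol_abs_le ((ellRho_isKer.ker_dd k).ker_dd h) (by norm_num) (H.u_smooth.continuousOn.mono hx)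
      (hu.mono hx le_rfl)).trans (mul_le_mul_of_nonneg_right (h2 h k) hM)
  have hone : 1 ≤ s ^ (α - 1) :=
    Real.one_le_rpow_of_pos_of_le_one_of_nonpos hs (hs4.trans (by norm_num)) (by linarith)
  have e1 : -(1 - α) = α - 1 := by ring
  rw [e1] at h1
  have h4 : |ellMol ellRho s (dd h (dd k u)) x| ≤
      |ellMol ellRho s (dd h (dd k u)) x - ellMol ellRho (1 / 4) (dd h (dd k u)) x| +
      |ellMol ellRho (1 / 4) (dd h (dd k u)) x| := by
    have := abs_add_le (ellMol ellRho s (dd h (dd k u)) x - ellMol ellRho (1 / 4) (dd h (dd k u)) x)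
      (ellMol ellRho (1 / 4) (dd h (dd k u)) x)
    simpa using this
  calc _ ≤ c * M * ‖h‖ * ‖k‖ * s ^ (α - 1) / (1 - α) + 16 * (c2 * ‖h‖ * ‖k‖ * M) * 1 := by linarith
    _ ≤ c * M * ‖h‖ * ‖k‖ * s ^ (α - 1) / (1 - α) + 16 * (c2 * ‖h‖ * ‖k‖ * M) * s ^ (α - 1) := by
        have : 0 ≤ 16 * (c2 * ‖h‖ * ‖k‖ * M) := by positivity
        have := mul_le_mul_of_nonneg_left hone this
        linarith
    _ = _ := by ring

/-- sup bound of the gradient: (LD4) at `s = 1/4` and `ell_mol_ibp`. -/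
theorem ell_lapdiv_sup (W : Type u) [NormedAddCommGroup W] [InnerProductSpace ℝ W] [FiniteDimensional ℝ W]
    [MeasurableSpace W] [BorelSpace W] {α : ℝ} (hα : 0 < α) (hα1 : α < 1) :
    ∃ C : ℝ, 0 ≤ C ∧ ∀ (U : Set W) (u : W → ℝ) (F : W → W) (g : W → ℝ) (M : ℝ) (x : W), LapSm U u F g →
      0 ≤ M → BdOn M U u → HolOn α M U F → BdOn M U g → closedBall x (1 / 4) ⊆ U →
      ‖fderiv ℝ u x‖ ≤ C * M := by
  obtain ⟨C4, hC4, h4⟩ := ell_lapdiv_approx W hα hα1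
  obtain ⟨c1, hc1, h1⟩ := ell_ker_l1_1 (ellRho_isKer (W := W))
  refine ⟨4 * c1 + C4, by positivity, ?_⟩
  intro U u F g M x H hM hu hF hg hx
  have hU := H.isOpen
  apply ell_norm_fderiv_le (by positivity)
  intro k
  have a1 := h4 U u F g M (1 / 4) x k H hM hF hg (by norm_num) (by norm_num) hx
  have a2 : |ellMol ellRho (1 / 4) (dd k u) x| ≤ 4 * (c1 * ‖k‖ * M) := by
    rw [ell_mol_ibp ellRho_isKer hU (H.u_smooth.of_le (by norm_cast)) (by norm_num) hx k, abs_mul]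
    have e : |((1 / 4 : ℝ)⁻¹)| = 4 := by norm_num
    rw [e]
    refine mul_le_mul_of_nonneg_left ?_ (by norm_num)
    exact (ell_mol_abs_le (ellRho_isKer.ker_dd k) (by norm_num) (H.u_smooth.continuousOn.mono hx)
      (hu.mono hx le_rfl)).trans (mul_le_mul_of_nonneg_right (h1 k) hM)
  have a3 : ((1 / 4 : ℝ)) ^ α ≤ 1 := Real.rpow_le_one (by norm_num) (by norm_num) hα.le
  have a4 : C4 * M * ‖k‖ * (1 / 4 : ℝ) ^ α ≤ C4 * M * ‖k‖ * 1 :=
    mul_le_mul_of_nonneg_left a3 (by positivity)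
  have a5 : |dd k u x| ≤ |ellMol ellRho (1 / 4) (dd k u) x - dd k u x| + |ellMol ellRho (1 / 4) (dd k u) x| := by
    have := abs_sub_abs_le_abs_sub (dd k u x) (ellMol ellRho (1 / 4) (dd k u) x)
    rw [abs_sub_comm] at this
    linarith
  calc |dd k u x| ≤ C4 * M * ‖k‖ * 1 + 4 * (c1 * ‖k‖ * M) := by linarith
    _ = _ := by ring

/-- (LD6) **the unit scale estimate**. -/
theorem ell_lapdiv_unit (W : Type u) [NormedAddCommGroup W] [InnerProductSpace ℝ W] [FiniteDimensional ℝ W]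
    [MeasurableSpace W] [BorelSpace W] {α : ℝ} (hα : 0 < α) (hα1 : α < 1) :
    ∃ C : ℝ, 0 ≤ C ∧ ∀ (u : W → ℝ) (F : W → W) (g : W → ℝ) (M : ℝ), LapSm (ball 0 1) u F g →
      0 ≤ M → BdOn M (ball 0 1) u → HolOn α M (ball 0 1) F → BdOn M (ball 0 1) g →
      BdOn (C * M) (ball 0 (1 / 8)) (fderiv ℝ u) ∧ HolOn α (C * M) (ball 0 (1 / 8)) (fderiv ℝ u) := by
  obtain ⟨C4, hC4, h4⟩ := ell_lapdiv_approx W hα hα1
  obtain ⟨C5, hC5, h5⟩ := ell_lapdiv_d2 W hα hα1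
  obtain ⟨C6, hC6, h6⟩ := ell_lapdiv_sup W hα hα1
  refine ⟨C6 + (2 * C4 + C5), by positivity, ?_⟩
  intro u F g M H hM hu hF hg
  have hU : IsOpen (ball (0 : W) 1) := isOpen_ball
  have hin : ∀ z ∈ ball (0 : W) (1 / 8), closedBall z (1 / 4) ⊆ ball (0 : W) 1 := by
    intro z hz w hw
    rw [mem_ball_zero_iff] at hz ⊢
    rw [mem_closedBall, dist_eq_norm] at hw
    calc ‖w‖ = ‖(w - z) + z‖ := by rw [sub_add_cancel]
      _ ≤ ‖w - z‖ + ‖z‖ := norm_add_le _ _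
      _ < 1 := by linarith
  constructor
  · intro z hz
    refine (h6 _ u F g M z H hM hu hF hg (hin z hz)).trans ?_
    have : 0 ≤ (2 * C4 + C5) * M := by positivity
    nlinarith
  · intro x hx y hy
    rcases eq_or_ne x y with rfl | hxy
    · rw [sub_self, norm_zero]
      positivity
    set s : ℝ := ‖x - y‖ with hs
    have hs0 : 0 < s := norm_pos_iff.2 (sub_ne_zero.2 hxy)
    have hs4 : s < 1 / 4 := by
      rw [mem_ball_zero_iff] at hx hy
      calc s ≤ ‖x‖ + ‖y‖ := norm_sub_le _ _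
        _ < 1 / 4 := by linarith
    have hsα : 0 < s ^ α := Real.rpow_pos_of_pos hs0 _
    have hin' : ∀ z ∈ ball (0 : W) (1 / 8), closedBall z s ⊆ ball (0 : W) 1 := fun z hz =>
      (closedBall_subset_closedBall hs4.le).trans (hin z hz)
    have key : ‖fderiv ℝ u x - fderiv ℝ u y‖ ≤ (2 * C4 + C5) * M * s ^ α := by
      apply ell_norm_fderiv_sub_le (by positivity)
      intro k
      have hk : ContDiffOn ℝ ∞ (dd k u) (ball (0 : W) 1) := ContDiffOn.ell_dd_infty hU H.u_smooth k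
      set v : W → ℝ := ellMol ellRho s (dd k u) with hv
      have b1 := h4 _ u F g M s x k H hM hF hg hs0 (hs4.le.trans (by norm_num)) (hin' x hx)
      have b2 := h4 _ u F g M s y k H hM hF hg hs0 (hs4.le.trans (by norm_num)) (hin' y hy)
      have hvs : ContDiffOn ℝ ∞ v {z | closedBall z s ⊆ ball (0 : W) 1} :=
        ell_mol_contDiffOn ellRho_isKer hU hk.continuousOn hs0
      have hvd : DifferentiableOn ℝ v (ball (0 : W) (1 / 8)) :=
        (hvs.differentiableOn (by simp)).mono hin'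
      have hvb : BdOn (C5 * M * ‖k‖ * s ^ (α - 1)) (ball (0 : W) (1 / 8)) (fderiv ℝ v) := by
        intro z hz
        apply ell_norm_fderiv_le (by positivity)
        intro h
        rw [hv, ell_mol_dd ellRho_isKer hU (hk.of_le (by norm_cast)) hs0 (hin' z hz) h]
        calc _ ≤ C5 * M * ‖h‖ * ‖k‖ * s ^ (α - 1) :=
              h5 _ u F g M s z h k H hM hu hF hg hs0 hs4.le (hin z hz)
          _ = _ := by ring
      have b3 := holOn_one_of_fderiv_le (convex_ball (0 : W) (1 / 8)) isOpen_ball hvd hvb x hx y hy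
      rw [Real.rpow_one, ← hs, Real.norm_eq_abs] at b3
      have e : s ^ (α - 1) * s = s ^ α := by
        rw [Real.rpow_sub_one hs0.ne']
        field_simp
      have b4 : |v x - v y| ≤ C5 * M * ‖k‖ * s ^ α := by
        calc _ ≤ C5 * M * ‖k‖ * s ^ (α - 1) * s := b3
          _ = C5 * M * ‖k‖ * (s ^ (α - 1) * s) := by ring
          _ = _ := by rw [e]
      have b5 : dd k u x - dd k u y = -(v x - dd k u x) + (v x - v y) + (v y - dd k u y) := by ring
      rw [b5]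
      calc _ ≤ |-(v x - dd k u x)| + |v x - v y| + |v y - dd k u y| := abs_add_three _ _ _
        _ ≤ C4 * M * ‖k‖ * s ^ α + C5 * M * ‖k‖ * s ^ α + C4 * M * ‖k‖ * s ^ α := by
            rw [abs_neg]
            exact add_le_add (add_le_add b1 b4) b2
        _ = _ := by ring
    refine key.trans ?_
    refine mul_le_mul_of_nonneg_right ?_ hsα.le
    have : 0 ≤ C6 * M := by positivity
    nlinarith

end Claimed.Agent.Lib.Ell
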