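/-
Lib/Ell, package L-ell-mollA (architect helper232): MOLLIFIER CALCULUS, section A.   `ellMol κ s g x = ∫ κ(y) g(x - s y) dy`.
`g` is only continuous (C¹, C²) on an open set `U`; all statements are at points `x` with `closedBall x s ⊆ U`.
Files MollA (integrability, bounds, limits; elementary), MollB (derivatives in `x`), MollC (derivative in `s`), MollD (vector valued),
MollE (kernels as test functions).   Each file is one task; earlier files are black boxes.
HINTS.  B: near `x₀` choose `δ` with `closedBall x₀ (s+δ) ⊆ U` and replace `g` by `indicator (closedBall x₀ (s+δ)) g`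
(integrable); `ellMol κ s g x = s^{-m} ∫ κ((x-z)/s) g̃(z) dz` is a convolution: `HasCompactSupport.contDiff_convolution_left`,
`HasCompactSupport.hasFDerivAt_convolution_left`.   `ell_mol_ibp`: `G(y) = κ(y) g(x - s y)` is `C¹` with compact support (it
vanishes on the open set `1 < ‖y‖`, and is `C¹` on the open set `{y | x - s y ∈ U} ⊇ closedBall 0 1`); `ell_integral_dd_eq_zero`.
C: `hasDerivAt_integral_of_dominated_loc_of_deriv_le` on `σ ∈ (s-δ, s+δ)`.
-/
import Claimed.Agent.Lib.Ell.Ker

set_option autoImplicit false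

namespace Claimed.Agent.Lib.Ell

open MeasureTheory Metric Filter
open scoped ContDiff RealInnerProductSpace Gradient Topology

universe u v

variable {W : Type u} [NormedAddCommGroup W] [InnerProductSpace ℝ W] [FiniteDimensional ℝ W]
  [MeasurableSpace W] [BorelSpace W]

variable {U : Set W} {g g' : W → ℝ} {κ : W → ℝ} {x : W} {s K α : ℝ}

/-! ### A. integrability, bounds, limits -/

omit [FiniteDimensional ℝ W] [MeasurableSpace W] [BorelSpace W] in
theorem ell_mol_mem (hs : 0 ≤ s) {y : W} (hy : y ∈ closedBall (0 : W) 1) : x - s • y ∈ closedBall x s := by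
  rw [mem_closedBall, dist_zero_right] at hy
  rw [mem_closedBall, dist_eq_norm]
  have : x - s • y - x = -(s • y) := by abel
  rw [this, norm_neg, norm_smul, Real.norm_of_nonneg hs]
  nlinarith

omit [FiniteDimensional ℝ W] [MeasurableSpace W] [BorelSpace W] in
/-- pointwise statements about the integrand only need to be checked on the unit ball. -/
theorem ell_mol_cases (hκ : IsKer κ) (y : W) : y ∈ closedBall (0 : W) 1 ∨ κ y = 0 := by
  by_cases hy : y ∈ closedBall (0 : W) 1
  · exact Or.inl hy
  · rw [mem_closedBall, dist_zero_right, not_le] at hy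
    exact Or.inr (hκ.2 y hy.le)

theorem ell_mol_integrable (hκ : IsKer κ) (hs : 0 ≤ s) (hg : ContinuousOn g (closedBall x s)) :
    Integrable (fun y => κ y * g (x - s • y)) := by
  have hc : ContinuousOn (fun y => κ y * g (x - s • y)) (closedBall (0 : W) 1) :=
    hκ.continuous.continuousOn.mul (hg.comp (by fun_prop) fun y hy => ell_mol_mem hs hy)
  have hi := hc.integrableOn_compact (μ := volume) (isCompact_closedBall (0 : W) 1)
  rw [← integrable_indicator_iff measurableSet_closedBall] at hi
  refine hi.congr (Filter.Eventually.of_forall fun y => ?_)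
  by_cases hy : y ∈ closedBall (0 : W) 1
  · rw [Set.indicator_of_mem hy]
  · rw [Set.indicator_of_notMem hy]
    rw [mem_closedBall, dist_zero_right, not_le] at hy
    simp [hκ.2 y hy.le]

theorem ell_mol_congr (hκ : IsKer κ) (hs : 0 ≤ s) (h : ∀ z ∈ closedBall x s, g z = g' z) :
    ellMol κ s g x = ellMol κ s g' x := by
  refine integral_congr_ae (Filter.Eventually.of_forall fun y => ?_)
  rcases ell_mol_cases hκ y with hy | hy
  · simp only [h _ (ell_mol_mem hs hy)]
  · simp [hy]

theorem ell_mol_add (hκ : IsKer κ) (hs : 0 ≤ s) (hg : ContinuousOn g (closedBall x s))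
    (hg' : ContinuousOn g' (closedBall x s)) :
    ellMol κ s (fun z => g z + g' z) x = ellMol κ s g x + ellMol κ s g' x := by
  simp only [ellMol, mul_add]
  exact integral_add (ell_mol_integrable hκ hs hg) (ell_mol_integrable hκ hs hg')

theorem ell_mol_sub (hκ : IsKer κ) (hs : 0 ≤ s) (hg : ContinuousOn g (closedBall x s))
    (hg' : ContinuousOn g' (closedBall x s)) :
    ellMol κ s (fun z => g z - g' z) x = ellMol κ s g x - ellMol κ s g' x := by
  simp only [ellMol, mul_sub]
  exact integral_sub (ell_mol_integrable hκ hs hg) (ell_mol_integrable hκ hs hg')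

theorem ell_mol_const_mul (c : ℝ) : ellMol κ s (fun z => c * g z) x = c * ellMol κ s g x := by
  simp only [ellMol]
  rw [← integral_const_mul]
  exact integral_congr_ae (Filter.Eventually.of_forall fun y => by simp only; ring)

theorem ell_mol_sum {ι : Type} (t : Finset ι) (G : ι → W → ℝ) (hκ : IsKer κ) (hs : 0 ≤ s)
    (hG : ∀ i ∈ t, ContinuousOn (G i) (closedBall x s)) :
    ellMol κ s (fun z => ∑ i ∈ t, G i z) x = ∑ i ∈ t, ellMol κ s (G i) x := by
  simp only [ellMol, Finset.mul_sum]
  exact integral_finset_sum _ fun i hi => ell_mol_integrable hκ hs (hG i hi)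

theorem ell_mol_const (c : ℝ) : ellMol κ s (fun _ => c) x = (∫ y, κ y) * c := by
  simp only [ellMol]
  exact integral_mul_const _ _

theorem ell_mol_abs_le (hκ : IsKer κ) (hs : 0 ≤ s) (hg : ContinuousOn g (closedBall x s))
    (hb : BdOn K (closedBall x s) g) : |ellMol κ s g x| ≤ kerL1 κ * K := by
  rw [kerL1, ← integral_mul_const, ← Real.norm_eq_abs]
  refine norm_integral_le_of_norm_le (hκ.integrable.abs.mul_const K) (Filter.Eventually.of_forall fun y => ?_)
  rw [norm_mul, Real.norm_eq_abs]
  rcases ell_mol_cases hκ y with hy | hy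
  · exact mul_le_mul_of_nonneg_left (hb _ (ell_mol_mem hs hy)) (abs_nonneg _)
  · simp [hy]

/-- kernels of mean zero see only the oscillation. -/
theorem ell_mol_osc (hκ : IsKer κ) (h0 : ∫ y, κ y = 0) (hs : 0 ≤ s) (hg : ContinuousOn g (closedBall x s))
    (hb : ∀ z ∈ closedBall x s, |g z - g x| ≤ K) : |ellMol κ s g x| ≤ kerL1 κ * K := by
  have e : ellMol κ s g x = ellMol κ s (fun z => g z - g x) x := by
    rw [ell_mol_sub hκ hs hg continuousOn_const, ell_mol_const, h0, zero_mul, sub_zero]
  rw [e]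
  exact ell_mol_abs_le hκ hs (hg.sub continuousOn_const) hb

/-- the Hoelder form of `ell_mol_osc`. -/
theorem ell_mol_osc_hol (hκ : IsKer κ) (h0 : ∫ y, κ y = 0) (hs : 0 ≤ s) (hα : 0 < α) (hK : 0 ≤ K)
    (hg : HolOn α K (closedBall x s) g) : |ellMol κ s g x| ≤ kerL1 κ * (K * s ^ α) := by
  refine ell_mol_osc hκ h0 hs (hg.continuousOn hα) fun z hz => ?_
  have h1 := hg z hz x (mem_closedBall_self hs)
  rw [Real.norm_eq_abs] at h1
  refine h1.trans (mul_le_mul_of_nonneg_left ?_ hK)
  rw [mem_closedBall, dist_eq_norm] at hz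
  exact Real.rpow_le_rpow (norm_nonneg _) hz hα.le

theorem ell_mol_tendsto (hκ : IsKer κ) (hU : IsOpen U) (hg : ContinuousOn g U) (hx : x ∈ U) :
    Tendsto (fun σ => ellMol κ σ g x) (𝓝[>] 0) (𝓝 ((∫ y, κ y) * g x)) := by
  rw [Metric.tendsto_nhds]
  intro ε hε
  have hL := kerL1_nonneg κ
  set ε' : ℝ := ε / (2 * (kerL1 κ + 1)) with hε'
  have hε'0 : 0 < ε' := by positivity
  have hcx : ContinuousAt g x := hg.continuousAt (hU.mem_nhds hx)
  obtain ⟨δ₁, hδ₁, h1⟩ := Metric.isOpen_iff.1 hU x hx
  obtain ⟨δ₂, hδ₂, h2⟩ := Metric.continuousAt_iff.1 hcx ε' hε'0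
  have hδ : 0 < min δ₁ δ₂ := lt_min hδ₁ hδ₂
  filter_upwards [Ioo_mem_nhdsGT hδ] with σ hσ
  have hsub : closedBall x σ ⊆ ball x (min δ₁ δ₂) := closedBall_subset_ball hσ.2
  have hgc : ContinuousOn g (closedBall x σ) :=
    hg.mono (hsub.trans ((ball_subset_ball (min_le_left _ _)).trans h1))
  have e : ellMol κ σ g x - (∫ y, κ y) * g x = ellMol κ σ (fun z => g z - g x) x := by
    rw [ell_mol_sub hκ hσ.1.le hgc continuousOn_const, ell_mol_const]
  rw [Real.dist_eq, e]
  have hb : BdOn ε' (closedBall x σ) (fun z => g z - g x) := fun z hz => by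
    have := h2 (ball_subset_ball (min_le_right _ _) (hsub hz))
    rw [Real.dist_eq] at this
    exact this.le
  refine (ell_mol_abs_le hκ hσ.1.le (hgc.sub continuousOn_const) hb).trans_lt ?_
  have : kerL1 κ * ε' ≤ (kerL1 κ + 1) * ε' := by nlinarith
  have e2 : (kerL1 κ + 1) * ε' = ε / 2 := by rw [hε']; field_simp
  linarith

omit [MeasurableSpace W] [BorelSpace W] in
theorem ell_exists_room_aux (hU : IsOpen U) (hx : closedBall x s ⊆ U) : ∃ δ > 0, closedBall x (s + δ) ⊆ U := by
  rcases lt_or_ge s 0 with hs | hs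
  · refine ⟨-s / 2, by linarith, ?_⟩
    rw [closedBall_eq_empty.2 (by linarith)]
    exact Set.empty_subset _
  · obtain ⟨δ, hδ, h⟩ := (isCompact_closedBall x s).exists_cthickening_subset_open hU hx
    refine ⟨δ, hδ, ?_⟩
    rwa [cthickening_closedBall hδ.le hs, add_comm] at h

theorem ell_isOpen_inner (hU : IsOpen U) (s : ℝ) : IsOpen {x | closedBall x s ⊆ U} := by
  rw [Metric.isOpen_iff]
  intro x hx
  obtain ⟨δ, hδ, h⟩ := ell_exists_room_aux hU hx
  refine ⟨δ, hδ, fun x' hx' => ?_⟩
  refine Set.Subset.trans (closedBall_subset_closedBall' ?_) h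
  rw [mem_ball] at hx'
  linarith

/-- room: a slightly larger closed ball still fits. -/
theorem ell_exists_room (hU : IsOpen U) (hx : closedBall x s ⊆ U) : ∃ δ > 0, closedBall x (s + δ) ⊆ U := by
  exact ell_exists_room_aux hU hx

theorem ell_mol_bdOn {V : Set W} (hκ : IsKer κ) (hs : 0 ≤ s) (hV : ∀ x ∈ V, closedBall x s ⊆ U)
    (hg : ContinuousOn g U) (hb : BdOn K U g) : BdOn (kerL1 κ * K) V (ellMol κ s g) := by
  intro x hx
  rw [Real.norm_eq_abs]
  exact ell_mol_abs_le hκ hs (hg.mono (hV x hx)) (hb.mono (hV x hx) le_rfl)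

theorem ell_mol_holOn {V : Set W} (hκ : IsKer κ) (hs : 0 ≤ s) (hV : ∀ x ∈ V, closedBall x s ⊆ U)
    (hg : ContinuousOn g U) (hb : HolOn α K U g) : HolOn α (kerL1 κ * K) V (ellMol κ s g) := by
  intro x hx x' hx'
  have i1 := ell_mol_integrable hκ hs (hg.mono (hV x hx))
  have i2 := ell_mol_integrable hκ hs (hg.mono (hV x' hx'))
  simp only [ellMol]
  rw [← integral_sub i1 i2, kerL1, mul_assoc, ← integral_mul_const]
  refine norm_integral_le_of_norm_le (hκ.integrable.abs.mul_const _) (Filter.Eventually.of_forall fun y => ?_)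
  rw [← mul_sub, norm_mul, Real.norm_eq_abs]
  rcases ell_mol_cases hκ y with hy | hy
  · refine mul_le_mul_of_nonneg_left ?_ (abs_nonneg _)
    have := hb _ (hV x hx (ell_mol_mem hs hy)) _ (hV x' hx' (ell_mol_mem hs hy))
    have e : x - s • y - (x' - s • y) = x - x' := by abel
    rwa [e] at this
  · simp [hy]

end Claimed.Agent.Lib.Ell
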