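/-
Lib/Ell, package L-ell-mollB (architect helper232): MOLLIFIER CALCULUS, section B.   `ellMol κ s g x = ∫ κ(y) g(x - s y) dy`.
`g` is only continuous (C¹, C²) on an open set `U`; all statements are at points `x` with `closedBall x s ⊆ U`.
Files MollA (integrability, bounds, limits; elementary), MollB (derivatives in `x`), MollC (derivative in `s`), MollD (vector valued),
MollE (kernels as test functions).   Each file is one task; earlier files are black boxes.
HINTS.  B: near `x₀` choose `δ` with `closedBall x₀ (s+δ) ⊆ U` and replace `g` by `indicator (closedBall x₀ (s+δ)) g`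
(integrable); `ellMol κ s g x = s^{-m} ∫ κ((x-z)/s) g̃(z) dz` is a convolution: `HasCompactSupport.contDiff_convolution_left`,
`HasCompactSupport.hasFDerivAt_convolution_left`.   `ell_mol_ibp`: `G(y) = κ(y) g(x - s y)` is `C¹` with compact support (it
vanishes on the open set `1 < ‖y‖`, and is `C¹` on the open set `{y | x - s y ∈ U} ⊇ closedBall 0 1`); `ell_integral_dd_eq_zero`.
C: `hasDerivAt_integral_of_dominated_loc_of_deriv_le` on `σ ∈ (s-δ, s+δ)`.
-/
import Claimed.Agent.Lib.Ell.MollA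

set_option autoImplicit false

namespace Claimed.Agent.Lib.Ell

open MeasureTheory Metric Filter
open scoped ContDiff RealInnerProductSpace Gradient Topology

universe u v

variable {W : Type u} [NormedAddCommGroup W] [InnerProductSpace ℝ W] [FiniteDimensional ℝ W]
  [MeasurableSpace W] [BorelSpace W]

variable {U : Set W} {g g' : W → ℝ} {κ : W → ℝ} {x : W} {s K α : ℝ}

/-! ### B. derivatives in `x` -/

open scoped Convolution in
/-- mollification as a convolution (no hypothesis on `G`). -/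
theorem ell_molg_eq_conv (κ G : W → ℝ) (hs : 0 < s) (x : W) :
    ellMol κ s G x = |(s ^ Module.finrank ℝ W)⁻¹|
      * (G ⋆[ContinuousLinearMap.mul ℝ ℝ, volume] (fun w => κ (s⁻¹ • w))) x := by
  rw [convolution_def]
  have h1 := Measure.integral_comp_smul (volume : Measure W)
    (fun w => G (x - w) * κ (s⁻¹ • (x - (x - w)))) s
  have h2 := integral_sub_left_eq_self (fun t => G t * κ (s⁻¹ • (x - t))) (volume : Measure W) x
  simp only [ContinuousLinearMap.mul_apply']
  rw [← h2, ← smul_eq_mul, ← h1, ellMol]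
  refine integral_congr_ae (Filter.Eventually.of_forall fun y => ?_)
  have e : s⁻¹ • (x - (x - s • y)) = y := by
    rw [sub_sub_cancel, smul_smul, inv_mul_cancel₀ hs.ne', one_smul]
  simp only [e]
  ring

theorem ell_molg_ker_scaled (hκ : IsKer κ) (hs : 0 < s) :
    ContDiff ℝ ∞ (fun w => κ (s⁻¹ • w)) ∧ HasCompactSupport (fun w => κ (s⁻¹ • w)) :=
  ⟨hκ.1.comp (contDiff_const.smul contDiff_id), hκ.hasCompactSupport.comp_smul (inv_ne_zero hs.ne')⟩

/-- global version: `G` locally integrable. -/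
theorem ell_molg_contDiff (hκ : IsKer κ) {G : W → ℝ} (hG : LocallyIntegrable G) (hs : 0 < s) :
    ContDiff ℝ ∞ (ellMol κ s G) := by
  have e : ellMol κ s G = fun x => |(s ^ Module.finrank ℝ W)⁻¹|
      * (convolution G (fun w => κ (s⁻¹ • w)) (ContinuousLinearMap.mul ℝ ℝ) volume) x :=
    funext fun x => ell_molg_eq_conv κ G hs x
  rw [e]
  obtain ⟨h1, h2⟩ := ell_molg_ker_scaled hκ hs
  exact contDiff_const.mul (h2.contDiff_convolution_right _ hG h1)

theorem ell_molg_dd (hκ : IsKer κ) {G : W → ℝ} (hG : LocallyIntegrable G) (hs : 0 < s) (h x : W) :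
    dd h (ellMol κ s G) x = s⁻¹ * ellMol (dd h κ) s G x := by
  have e : ellMol κ s G = fun x => |(s ^ Module.finrank ℝ W)⁻¹|
      * (convolution G (fun w => κ (s⁻¹ • w)) (ContinuousLinearMap.mul ℝ ℝ) volume) x :=
    funext fun x => ell_molg_eq_conv κ G hs x
  obtain ⟨h1, h2⟩ := ell_molg_ker_scaled hκ hs
  have hd := (h2.hasFDerivAt_convolution_right (ContinuousLinearMap.mul ℝ ℝ) hG (h1.of_le (by simp)) x).const_mul
    |(s ^ Module.finrank ℝ W)⁻¹|
  rw [dd, e, hd.fderiv, ell_molg_eq_conv (dd h κ) G hs x]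
  simp only [ContinuousLinearMap.smul_apply, smul_eq_mul]
  rw [convolution_precompR_apply _ hG (h2.fderiv ℝ) (h1.continuous_fderiv (by simp))]
  have e2 : (fun a => fderiv ℝ (fun w => κ (s⁻¹ • w)) a h) = fun a => s⁻¹ * dd h κ (s⁻¹ • a) := funext fun a => by
    rw [fderiv_comp_smul]
    simp [dd]
  rw [e2, convolution_def, convolution_def]
  simp only [ContinuousLinearMap.mul_apply']
  have e3 : ∀ t, G t * (s⁻¹ * dd h κ (s⁻¹ • (x - t))) = s⁻¹ * (G t * dd h κ (s⁻¹ • (x - t))) := fun t => by ring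
  simp only [e3]
  rw [integral_const_mul]
  ring

/-- the local replacement of `g`. -/
theorem ell_mol_local (hU : IsOpen U) (hg : ContinuousOn g U) (hs : 0 < s) (hx : closedBall x s ⊆ U) :
    ∃ G : W → ℝ, LocallyIntegrable G ∧ ∀ κ : W → ℝ, IsKer κ → ellMol κ s g =ᶠ[𝓝 x] ellMol κ s G := by
  obtain ⟨δ, hδ, hB⟩ := ell_exists_room hU hx
  refine ⟨(closedBall x (s + δ)).indicator g, ?_, fun κ hκ => ?_⟩
  · have hi := (hg.mono hB).integrableOn_compact (μ := volume) (isCompact_closedBall x (s + δ))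
    rw [← integrable_indicator_iff measurableSet_closedBall] at hi
    exact hi.locallyIntegrable
  · filter_upwards [ball_mem_nhds x hδ] with x' hx'
    refine ell_mol_congr hκ hs.le fun z hz => ?_
    rw [Set.indicator_of_mem]
    refine closedBall_subset_closedBall' ?_ hz
    rw [mem_ball] at hx'
    linarith

theorem ell_mol_contDiffOn (hκ : IsKer κ) (hU : IsOpen U) (hg : ContinuousOn g U) (hs : 0 < s) :
    ContDiffOn ℝ ∞ (ellMol κ s g) {x | closedBall x s ⊆ U} := by
  intro x hx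
  obtain ⟨G, hG, hloc⟩ := ell_mol_local hU hg hs hx
  exact ((ell_molg_contDiff hκ hG hs).contDiffAt.congr_of_eventuallyEq (hloc κ hκ)).contDiffWithinAt

/-- the derivative falls on the kernel. -/
theorem ell_mol_dd_ker (hκ : IsKer κ) (hU : IsOpen U) (hg : ContinuousOn g U) (hs : 0 < s)
    (hx : closedBall x s ⊆ U) (h : W) : dd h (ellMol κ s g) x = s⁻¹ * ellMol (dd h κ) s g x := by
  obtain ⟨G, hG, hloc⟩ := ell_mol_local hU hg hs hx
  rw [dd, (hloc κ hκ).fderiv_eq, (hloc _ (hκ.ker_dd h)).eq_of_nhds]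
  exact ell_molg_dd hκ hG hs h x

/-- integration by parts. -/
theorem ell_mol_ibp (hκ : IsKer κ) (hU : IsOpen U) (hg : ContDiffOn ℝ 1 g U) (hs : 0 < s)
    (hx : closedBall x s ⊆ U) (h : W) : ellMol κ s (dd h g) x = s⁻¹ * ellMol (dd h κ) s g x := by
  set O : Set W := {y | x - s • y ∈ U} with hO
  have hOo : IsOpen O := hU.preimage (by fun_prop)
  have hBO : closedBall (0 : W) 1 ⊆ O := fun y hy => hx (ell_mol_mem hs.le hy)
  set G : W → ℝ := fun y => κ y * g (x - s • y) with hG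
  have hgd : ∀ y ∈ O, HasFDerivAt (fun y => g (x - s • y)) (-(s • fderiv ℝ g (x - s • y))) y := fun y hy => by
    have h1 : HasFDerivAt g (fderiv ℝ g (x - s • y)) (x - s • y) :=
      ((hg.differentiableOn (by simp) _ hy).differentiableAt (hU.mem_nhds hy)).hasFDerivAt
    have h2 : HasFDerivAt (fun y : W => x - s • y) (-(s • ContinuousLinearMap.id ℝ W)) y :=
      ((hasFDerivAt_id y).const_smul s).const_sub x
    have h3 := h1.comp y h2
    refine h3.congr_fderiv ?_
    ext w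
    simp
  have hout : ∀ y, y ∉ closedBall (0 : W) 1 → G =ᶠ[𝓝 y] fun _ => 0 := fun y hy => by
    filter_upwards [isClosed_closedBall.isOpen_compl.mem_nhds hy] with w hw
    rw [Set.mem_compl_iff, mem_closedBall, dist_zero_right, not_le] at hw
    simp [hG, hκ.2 w hw.le]
  have hGs : ContDiff ℝ 1 G := by
    rw [contDiff_iff_contDiffAt]
    intro y
    by_cases hy : y ∈ closedBall (0 : W) 1
    · have h1 : ContDiffOn ℝ 1 (fun y => g (x - s • y)) O :=
        hg.comp (by fun_prop) fun y hy => hy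
      exact (hκ.1.of_le (by simp)).contDiffAt.mul (h1.contDiffAt (hOo.mem_nhds (hBO hy)))
    · exact contDiffAt_const.congr_of_eventuallyEq (hout y hy)
  have hGc : HasCompactSupport G := hκ.hasCompactSupport.mul_right
  have h0 := ell_integral_dd_eq_zero hGs hGc h
  have hform : ∀ y, dd h G y = dd h κ y * g (x - s • y) - s * (κ y * dd h g (x - s • y)) := fun y => by
    by_cases hy : y ∈ closedBall (0 : W) 1
    · have h1 : HasFDerivAt G _ y := (hκ.differentiable y).hasFDerivAt.mul (hgd y (hBO hy))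
      rw [dd, h1.fderiv]
      simp [dd]
      ring
    · rw [dd, (hout y hy).fderiv_eq]
      rw [mem_closedBall, dist_zero_right, not_le] at hy
      simp [hκ.2 y hy.le, (hκ.ker_dd h).2 y hy.le]
  have i1 := ell_mol_integrable (hκ.ker_dd h) hs.le (hg.continuousOn.mono hx)
  have hdc : ContinuousOn (dd h g) U :=
    (ContDiffOn.ell_dd (n := 0) hU (by simpa using hg) h).continuousOn
  have i2 := ell_mol_integrable hκ hs.le (hdc.mono hx)
  simp only [hform] at h0
  rw [integral_sub i1 (i2.const_mul s), integral_const_mul] at h0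
  simp only [ellMol]
  field_simp
  linarith

/-- the derivative falls on the function. -/
theorem ell_mol_dd (hκ : IsKer κ) (hU : IsOpen U) (hg : ContDiffOn ℝ 1 g U) (hs : 0 < s)
    (hx : closedBall x s ⊆ U) (h : W) : dd h (ellMol κ s g) x = ellMol κ s (dd h g) x := by
  rw [ell_mol_dd_ker hκ hU hg.continuousOn hs hx, ell_mol_ibp hκ hU hg hs hx]

theorem ell_mol_dd2 (hκ : IsKer κ) (hU : IsOpen U) (hg : ContDiffOn ℝ 2 g U) (hs : 0 < s)
    (hx : closedBall x s ⊆ U) (h k : W) :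
    dd h (dd k (ellMol κ s g)) x = ellMol κ s (dd h (dd k g)) x := by
  have hV := ell_isOpen_inner hU s
  have hk : ContDiffOn ℝ 1 (dd k g) U := ContDiffOn.ell_dd (n := 1) hU (by exact_mod_cast hg) k
  have e : dd k (ellMol κ s g) =ᶠ[𝓝 x] ellMol κ s (dd k g) := by
    filter_upwards [hV.mem_nhds hx] with z hz
    exact ell_mol_dd hκ hU (hg.of_le (by norm_num)) hs hz k
  rw [dd, e.fderiv_eq]
  exact ell_mol_dd hκ hU hk hs hx h

theorem ell_mol_dd2_ker (hκ : IsKer κ) (hU : IsOpen U) (hg : ContinuousOn g U) (hs : 0 < s)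
    (hx : closedBall x s ⊆ U) (h k : W) :
    dd h (dd k (ellMol κ s g)) x = s⁻¹ ^ 2 * ellMol (dd h (dd k κ)) s g x := by
  have hV := ell_isOpen_inner hU s
  have e : dd k (ellMol κ s g) =ᶠ[𝓝 x] fun z => s⁻¹ * ellMol (dd k κ) s g z := by
    filter_upwards [hV.mem_nhds hx] with z hz
    exact ell_mol_dd_ker hκ hU hg hs hz k
  have hd : DifferentiableAt ℝ (ellMol (dd k κ) s g) x :=
    ((ell_mol_contDiffOn (hκ.ker_dd k) hU hg hs).contDiffAt (hV.mem_nhds hx)).differentiableAt (by simp)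
  have h1 := ell_mol_dd_ker (hκ.ker_dd k) hU hg hs hx h
  rw [dd] at h1 ⊢
  rw [e.fderiv_eq, fderiv_const_mul hd]
  simp only [ContinuousLinearMap.smul_apply, smul_eq_mul, h1]
  ring

theorem ell_mol_ibp2 (hκ : IsKer κ) (hU : IsOpen U) (hg : ContDiffOn ℝ 2 g U) (hs : 0 < s)
    (hx : closedBall x s ⊆ U) (h k : W) :
    ellMol κ s (dd h (dd k g)) x = s⁻¹ ^ 2 * ellMol (dd h (dd k κ)) s g x := by
  rw [← ell_mol_dd2 hκ hU hg hs hx, ell_mol_dd2_ker hκ hU hg.continuousOn hs hx]

theorem ell_mol_ibp3 (hκ : IsKer κ) (hU : IsOpen U) (hg : ContDiffOn ℝ 3 g U) (hs : 0 < s)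
    (hx : closedBall x s ⊆ U) (h k e : W) :
    ellMol κ s (dd h (dd k (dd e g))) x = s⁻¹ ^ 3 * ellMol (dd h (dd k (dd e κ))) s g x := by
  have he : ContDiffOn ℝ 2 (dd e g) U := ContDiffOn.ell_dd (n := 2) hU (by exact_mod_cast hg) e
  rw [ell_mol_ibp2 hκ hU he hs hx, ell_mol_ibp ((hκ.ker_dd k).ker_dd h) hU (hg.of_le (by norm_num)) hs hx]
  have c2 : ∀ {F : W → ℝ}, ContDiff ℝ ∞ F → ∀ a b : W, dd a (dd b F) = dd b (dd a F) := fun {F} hF a b =>
    funext fun y => ell_dd_comm isOpen_univ (hF.of_le (by norm_cast)).contDiffOn (Set.mem_univ y) a b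
  have e1 : dd e (dd h (dd k κ)) = dd h (dd k (dd e κ)) := by
    rw [c2 (hκ.ker_dd k).1 e h, c2 hκ.1 e k]
  rw [e1]
  ring

theorem ell_mol_lap (hκ : IsKer κ) (hU : IsOpen U) (hg : ContDiffOn ℝ 2 g U) (hs : 0 < s)
    (hx : closedBall x s ⊆ U) : ellLap (ellMol κ s g) x = ellMol κ s (ellLap g) x := by
  have hV := ell_isOpen_inner hU s
  have hm : ContDiffOn ℝ 2 (ellMol κ s g) {x | closedBall x s ⊆ U} :=
    (ell_mol_contDiffOn hκ hU hg.continuousOn hs).of_le (by norm_cast)
  rw [ell_lap_eq_sum_dd hV hm hx]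
  have hc : ∀ i ∈ (Finset.univ : Finset (Fin (Module.finrank ℝ W))), ContinuousOn
      (dd (stdOrthonormalBasis ℝ W i) (dd (stdOrthonormalBasis ℝ W i) g)) (closedBall x s) := fun i _ =>
    ((ContDiffOn.ell_dd (n := 0) hU (by
      simpa using ContDiffOn.ell_dd (n := 1) hU (by exact_mod_cast hg) (stdOrthonormalBasis ℝ W i))
      (stdOrthonormalBasis ℝ W i)).continuousOn).mono hx
  rw [ell_mol_congr hκ hs.le (g' := fun z => ∑ i, dd (stdOrthonormalBasis ℝ W i)
    (dd (stdOrthonormalBasis ℝ W i) g) z) fun z hz => ell_lap_eq_sum_dd hU hg (hx hz),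
    ell_mol_sum _ _ hκ hs.le hc]
  exact Finset.sum_congr rfl fun i _ => ell_mol_dd2 hκ hU hg hs hx _ _

theorem ell_mol_d2 (hκ : IsKer κ) (hU : IsOpen U) (hg : ContDiffOn ℝ 2 g U) (hs : 0 < s)
    (hx : closedBall x s ⊆ U) (h k : W) :
    ellD2 (ellMol κ s g) x h k = ellMol κ s (fun z => ellD2 g z h k) x := by
  have hV := ell_isOpen_inner hU s
  have hm : ContDiffOn ℝ 2 (ellMol κ s g) {x | closedBall x s ⊆ U} :=
    (ell_mol_contDiffOn hκ hU hg.continuousOn hs).of_le (by norm_cast)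
  rw [ell_d2_apply hV hm hx, ell_mol_dd2 hκ hU hg hs hx]
  exact ell_mol_congr hκ hs.le fun z hz => (ell_d2_apply hU hg (hx hz) h k).symm

theorem ell_norm_clm_le_sum {F : Type v} [NormedAddCommGroup F] [NormedSpace ℝ F] (T : W →L[ℝ] F) :
    ‖T‖ ≤ ∑ i, ‖T (stdOrthonormalBasis ℝ W i)‖ := by
  refine T.opNorm_le_bound (Finset.sum_nonneg fun i _ => norm_nonneg _) fun h => ?_
  conv_lhs => rw [← (stdOrthonormalBasis ℝ W).sum_repr' h]
  rw [map_sum, Finset.sum_mul]
  refine (norm_sum_le _ _).trans (Finset.sum_le_sum fun i _ => ?_)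
  rw [map_smul, norm_smul, mul_comm, Real.norm_eq_abs, real_inner_comm]
  exact mul_le_mul_of_nonneg_left (ell_abs_inner_basis_le h i) (norm_nonneg _)

/-- convergence of operators = convergence on the basis. -/
theorem ell_tendsto_clm {F : Type v} [NormedAddCommGroup F] [NormedSpace ℝ F] {ι : Type} {l : Filter ι}
    {T : ι → W →L[ℝ] F} {T₀ : W →L[ℝ] F}
    (h : ∀ i, Tendsto (fun a => T a (stdOrthonormalBasis ℝ W i)) l (𝓝 (T₀ (stdOrthonormalBasis ℝ W i)))) :
    Tendsto T l (𝓝 T₀) := by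
  rw [tendsto_iff_norm_sub_tendsto_zero]
  have h1 : Tendsto (fun a => ∑ i, ‖(T a - T₀) (stdOrthonormalBasis ℝ W i)‖) l (𝓝 0) := by
    have : (0 : ℝ) = ∑ _i : Fin (Module.finrank ℝ W), (0 : ℝ) := by simp
    rw [this]
    refine tendsto_finset_sum _ fun i _ => ?_
    have := tendsto_iff_norm_sub_tendsto_zero.1 (h i)
    simpa using this
  exact squeeze_zero (fun a => norm_nonneg _) (fun a => ell_norm_clm_le_sum _) h1

/-- `D(g_σ)(x) → Dg(x)` as `σ → 0+` for the standard mollifier. -/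
theorem ell_mol_fderiv_tendsto (hU : IsOpen U) (hg : ContDiffOn ℝ 1 g U) (hx : x ∈ U) :
    Tendsto (fun σ => fderiv ℝ (ellMol ellRho σ g) x) (𝓝[>] 0) (𝓝 (fderiv ℝ g x)) := by
  refine ell_tendsto_clm fun i => ?_
  set e := stdOrthonormalBasis ℝ W i
  have hdc : ContinuousOn (dd e g) U := (ContDiffOn.ell_dd (n := 0) hU (by simpa using hg) e).continuousOn
  have h1 := ell_mol_tendsto ellRho_isKer hU hdc hx
  rw [ellRho_integral, one_mul] at h1
  refine h1.congr' ?_
  obtain ⟨δ, hδ, hB⟩ := Metric.isOpen_iff.1 hU x hx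
  filter_upwards [Ioo_mem_nhdsGT hδ] with σ hσ
  exact (ell_mol_dd ellRho_isKer hU hg hσ.1 ((closedBall_subset_ball hσ.2).trans hB) e).symm

theorem ell_mol_d2_tendsto (hU : IsOpen U) (hg : ContDiffOn ℝ 2 g U) (hx : x ∈ U) :
    Tendsto (fun σ => ellD2 (ellMol ellRho σ g) x) (𝓝[>] 0) (𝓝 (ellD2 g x)) := by
  refine ell_tendsto_clm fun i => ell_tendsto_clm fun j => ?_
  set e := stdOrthonormalBasis ℝ W i
  set e' := stdOrthonormalBasis ℝ W j
  have hdc : ContinuousOn (dd e (dd e' g)) U :=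
    (ContDiffOn.ell_dd (n := 0) hU (by
      simpa using ContDiffOn.ell_dd (n := 1) hU (by exact_mod_cast hg) e') e).continuousOn
  have h1 := ell_mol_tendsto ellRho_isKer hU hdc hx
  rw [ellRho_integral, one_mul, ← ell_d2_apply hU hg hx] at h1
  refine h1.congr' ?_
  obtain ⟨δ, hδ, hB⟩ := Metric.isOpen_iff.1 hU x hx
  filter_upwards [Ioo_mem_nhdsGT hδ] with σ hσ
  have hsub : closedBall x σ ⊆ U := (closedBall_subset_ball hσ.2).trans hB
  rw [ell_mol_d2 ellRho_isKer hU hg hσ.1 hsub]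
  exact ell_mol_congr ellRho_isKer hσ.1.le fun z hz => (ell_d2_apply hU hg (hsub hz) e e').symm

end Claimed.Agent.Lib.Ell
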