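/-
Lib/Ell, package L-ell-mollC (architect helper232): MOLLIFIER CALCULUS, section C.   `ellMol κ s g x = ∫ κ(y) g(x - s y) dy`.
`g` is only continuous (C¹, C²) on an open set `U`; all statements are at points `x` with `closedBall x s ⊆ U`.
Files MollA (integrability, bounds, limits; elementary), MollB (derivatives in `x`), MollC (derivative in `s`), MollD (vector valued),
MollE (kernels as test functions).   Each file is one task; earlier files are black boxes.
HINTS.  B: near `x₀` choose `δ` with `closedBall x₀ (s+δ) ⊆ U` and replace `g` by `indicator (closedBall x₀ (s+δ)) g`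
(integrable); `ellMol κ s g x = s^{-m} ∫ κ((x-z)/s) g̃(z) dz` is a convolution: `HasCompactSupport.contDiff_convolution_left`,
`HasCompactSupport.hasFDerivAt_convolution_left`.   `ell_mol_ibp`: `G(y) = κ(y) g(x - s y)` is `C¹` with compact support (it
vanishes on the open set `1 < ‖y‖`, and is `C¹` on the open set `{y | x - s y ∈ U} ⊇ closedBall 0 1`); `ell_integral_dd_eq_zero`.
C: `hasDerivAt_integral_of_dominated_loc_of_deriv_le` on `σ ∈ (s-δ, s+δ)`.
-/
import Claimed.Agent.Lib.Ell.MollB

set_option autoImplicit false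

namespace Claimed.Agent.Lib.Ell

open MeasureTheory Metric Filter
open scoped ContDiff RealInnerProductSpace Gradient Topology

universe u v

variable {W : Type u} [NormedAddCommGroup W] [InnerProductSpace ℝ W] [FiniteDimensional ℝ W]
  [MeasurableSpace W] [BorelSpace W]

variable {U : Set W} {g g' : W → ℝ} {κ : W → ℝ} {x : W} {s K α : ℝ}

/-! ### C. derivative in `s` -/

/-- a kernel times a function which is continuous on the closed unit ball. -/
theorem ell_ker_mul_integrable (hκ : IsKer κ) {Φ : W → ℝ} (hΦ : ContinuousOn Φ (closedBall (0 : W) 1)) :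
    Integrable (fun y => κ y * Φ y) := by
  have hi := (hκ.continuous.continuousOn.mul hΦ).integrableOn_compact (μ := volume) (isCompact_closedBall (0 : W) 1)
  rw [← integrable_indicator_iff measurableSet_closedBall] at hi
  refine hi.congr (Filter.Eventually.of_forall fun y => ?_)
  by_cases hy : y ∈ closedBall (0 : W) 1
  · rw [Set.indicator_of_mem hy]
    rfl
  · rw [Set.indicator_of_notMem hy]
    rcases ell_mol_cases hκ y with h | h
    · exact absurd h hy
    · simp [h]

theorem ell_mol_hasDerivAt_s (hκ : IsKer κ) (hU : IsOpen U) (hg : ContDiffOn ℝ 1 g U) (hs : 0 < s)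
    (hx : closedBall x s ⊆ U) :
    HasDerivAt (fun σ => ellMol κ σ g x) (- ∫ y, κ y * ⟪∇ g (x - s • y), y⟫) s := by
  obtain ⟨δ, hδ, hB⟩ := ell_exists_room hU hx
  have hDc : ContinuousOn (fderiv ℝ g) U := hg.continuousOn_fderiv_of_isOpen hU le_rfl
  obtain ⟨C, hC⟩ := (isCompact_closedBall x (s + δ)).exists_bound_of_continuousOn (hDc.mono hB)
  have hmem : ∀ σ ∈ Set.Ioo (s - δ) (s + δ), ∀ y ∈ closedBall (0 : W) 1, x - σ • y ∈ closedBall x (s + δ) :=
    fun σ hσ y hy => by
      rw [mem_closedBall, dist_zero_right] at hy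
      rw [mem_closedBall, dist_eq_norm]
      have e : x - σ • y - x = -(σ • y) := by abel
      rw [e, norm_neg, norm_smul, Real.norm_eq_abs]
      have h1 : |σ| ≤ s + δ := abs_le.2 ⟨by linarith [hσ.1], hσ.2.le⟩
      calc |σ| * ‖y‖ ≤ (s + δ) * 1 := mul_le_mul h1 hy (norm_nonneg _) (by linarith)
        _ = s + δ := mul_one _
  have hs' : s ∈ Set.Ioo (s - δ) (s + δ) := ⟨by linarith, by linarith⟩
  have hF' : Integrable (fun y => κ y * (-(fderiv ℝ g (x - s • y) y))) := by
    refine ell_ker_mul_integrable hκ ?_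
    refine ContinuousOn.neg (ContinuousOn.clm_apply ?_ continuousOn_id)
    exact (hDc.mono hB).comp (by fun_prop) fun y hy => hmem s hs' y hy
  have key := hasDerivAt_integral_of_dominated_loc_of_deriv_le (μ := (volume : Measure W))
    (F := fun σ y => κ y * g (x - σ • y)) (F' := fun σ y => κ y * (-(fderiv ℝ g (x - σ • y) y)))
    (bound := fun y => |κ y| * C) (x₀ := s) (s := Set.Ioo (s - δ) (s + δ)) (Ioo_mem_nhds hs'.1 hs'.2)
    (by
      filter_upwards [Ioo_mem_nhds hs'.1 hs'.2] with σ hσ
      refine (ell_ker_mul_integrable hκ ?_).aestronglyMeasurable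
      exact (hg.continuousOn.mono hB).comp (by fun_prop) fun y hy => hmem σ hσ y hy)
    (ell_mol_integrable hκ hs.le (hg.continuousOn.mono hx)) hF'.aestronglyMeasurable
    (Filter.Eventually.of_forall fun y σ hσ => by
      rw [norm_mul, Real.norm_eq_abs, norm_neg]
      rcases ell_mol_cases hκ y with hy | hy
      · refine mul_le_mul_of_nonneg_left ?_ (abs_nonneg _)
        have h1 := (fderiv ℝ g (x - σ • y)).le_opNorm y
        have h2 := hC _ (hmem σ hσ y hy)
        rw [mem_closedBall, dist_zero_right] at hy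
        calc ‖fderiv ℝ g (x - σ • y) y‖ ≤ ‖fderiv ℝ g (x - σ • y)‖ * ‖y‖ := h1
          _ ≤ C * 1 := mul_le_mul h2 hy (norm_nonneg _) ((norm_nonneg _).trans h2)
          _ = C := mul_one _
      · simp [hy])
    (hκ.integrable.abs.mul_const C)
    (Filter.Eventually.of_forall fun y σ hσ => by
      rcases ell_mol_cases hκ y with hy | hy
      · have hz := hB (hmem σ hσ y hy)
        have h1 : HasFDerivAt g (fderiv ℝ g (x - σ • y)) (x - σ • y) :=
          ((hg.differentiableOn (by simp) _ hz).differentiableAt (hU.mem_nhds hz)).hasFDerivAt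
        have h2 : HasDerivAt (fun σ : ℝ => x - σ • y) (-y) σ := by
          simpa using ((hasDerivAt_id σ).smul_const y).const_sub x
        have h3 := (h1.comp_hasDerivAt σ h2).const_mul (κ y)
        simpa using h3
      · simp only [hy, zero_mul]
        exact hasDerivAt_const _ _)
  have e : (∫ y, κ y * (-(fderiv ℝ g (x - s • y) y))) = - ∫ y, κ y * ⟪∇ g (x - s • y), y⟫ := by
    rw [← integral_neg]
    refine integral_congr_ae (Filter.Eventually.of_forall fun y => ?_)
    simp only [← ell_dd_eq_inner, dd]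
    ring
  rw [← e]
  exact key.2

/-- `d/ds g_s = ∫ ⟪∇g(x - s y), ∇P(y)⟫ dy`. -/
theorem ell_mol_rho_ds1 (hU : IsOpen U) (hg : ContDiffOn ℝ 1 g U) (hs : 0 < s) (hx : closedBall x s ⊆ U) :
    HasDerivAt (fun σ => ellMol ellRho σ g x)
      (∑ i, ellMol (dd (stdOrthonormalBasis ℝ W i) ellP) s (dd (stdOrthonormalBasis ℝ W i) g) x) s := by
  have h1 := ell_mol_hasDerivAt_s ellRho_isKer hU hg hs hx
  have hdc : ∀ e : W, ContinuousOn (dd e g) U := fun e =>
    (ContDiffOn.ell_dd (n := 0) hU (by simpa using hg) e).continuousOn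
  have e : (∑ i, ellMol (dd (stdOrthonormalBasis ℝ W i) ellP) s (dd (stdOrthonormalBasis ℝ W i) g) x)
      = - ∫ y, ellRho y * ⟪∇ g (x - s • y), y⟫ := by
    simp only [ellMol]
    rw [← integral_finset_sum _ fun i _ =>
      ell_mol_integrable (ellP_isKer.ker_dd (stdOrthonormalBasis ℝ W i)) hs.le ((hdc _).mono hx), ← integral_neg]
    refine integral_congr_ae (Filter.Eventually.of_forall fun y => ?_)
    simp only [ell_dd_eq_inner]
    have h2 := (stdOrthonormalBasis ℝ W).sum_inner_mul_inner (∇ ellP y) (∇ g (x - s • y))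
    have h3 : ∀ i, ⟪∇ ellP y, stdOrthonormalBasis ℝ W i⟫ * ⟪∇ g (x - s • y), stdOrthonormalBasis ℝ W i⟫
        = ⟪∇ ellP y, stdOrthonormalBasis ℝ W i⟫ * ⟪stdOrthonormalBasis ℝ W i, ∇ g (x - s • y)⟫ := fun i => by
      rw [real_inner_comm (∇ g (x - s • y))]
    rw [Finset.sum_congr rfl fun i _ => h3 i, h2, ellP_gradient, inner_neg_left, real_inner_smul_left,
      real_inner_comm]
  rw [e]
  exact h1

/-- **`d/ds g_s = s (Δ g) * P_s`**. -/
theorem ell_mol_rho_ds2 (hU : IsOpen U) (hg : ContDiffOn ℝ 2 g U) (hs : 0 < s) (hx : closedBall x s ⊆ U) :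
    HasDerivAt (fun σ => ellMol ellRho σ g x) (s * ellMol ellP s (ellLap g) x) s := by
  have h1 := ell_mol_rho_ds1 hU (hg.of_le (by norm_num)) hs hx
  have hk : ∀ e : W, ContDiffOn ℝ 1 (dd e g) U := fun e => ContDiffOn.ell_dd (n := 1) hU (by exact_mod_cast hg) e
  have hc : ∀ i ∈ (Finset.univ : Finset (Fin (Module.finrank ℝ W))), ContinuousOn
      (dd (stdOrthonormalBasis ℝ W i) (dd (stdOrthonormalBasis ℝ W i) g)) (closedBall x s) := fun i _ =>
    ((ContDiffOn.ell_dd (n := 0) hU (by simpa using hk (stdOrthonormalBasis ℝ W i))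
      (stdOrthonormalBasis ℝ W i)).continuousOn).mono hx
  have e : s * ellMol ellP s (ellLap g) x
      = ∑ i, ellMol (dd (stdOrthonormalBasis ℝ W i) ellP) s (dd (stdOrthonormalBasis ℝ W i) g) x := by
    rw [ell_mol_congr ellP_isKer hs.le (g' := fun z => ∑ i, dd (stdOrthonormalBasis ℝ W i)
      (dd (stdOrthonormalBasis ℝ W i) g) z) fun z hz => ell_lap_eq_sum_dd hU hg (hx hz),
      ell_mol_sum _ _ ellP_isKer hs.le hc, Finset.mul_sum]
    refine Finset.sum_congr rfl fun i _ => ?_
    rw [ell_mol_ibp ellP_isKer hU (hk _) hs hx, ← mul_assoc, mul_inv_cancel₀ hs.ne', one_mul]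
  rw [e]
  exact h1

end Claimed.Agent.Lib.Ell
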