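/-
Lib/Ell, package L-ell-mollD (architect helper232): MOLLIFIER CALCULUS, section D.   `ellMol κ s g x = ∫ κ(y) g(x - s y) dy`.
`g` is only continuous (C¹, C²) on an open set `U`; all statements are at points `x` with `closedBall x s ⊆ U`.
Files MollA (integrability, bounds, limits; elementary), MollB (derivatives in `x`), MollC (derivative in `s`), MollD (vector valued),
MollE (kernels as test functions).   Each file is one task; earlier files are black boxes.
HINTS.  B: near `x₀` choose `δ` with `closedBall x₀ (s+δ) ⊆ U` and replace `g` by `indicator (closedBall x₀ (s+δ)) g`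
(integrable); `ellMol κ s g x = s^{-m} ∫ κ((x-z)/s) g̃(z) dz` is a convolution: `HasCompactSupport.contDiff_convolution_left`,
`HasCompactSupport.hasFDerivAt_convolution_left`.   `ell_mol_ibp`: `G(y) = κ(y) g(x - s y)` is `C¹` with compact support (it
vanishes on the open set `1 < ‖y‖`, and is `C¹` on the open set `{y | x - s y ∈ U} ⊇ closedBall 0 1`); `ell_integral_dd_eq_zero`.
C: `hasDerivAt_integral_of_dominated_loc_of_deriv_le` on `σ ∈ (s-δ, s+δ)`.
-/
import Claimed.Agent.Lib.Ell.MollB

set_option autoImplicit false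

namespace Claimed.Agent.Lib.Ell

open MeasureTheory Metric Filter
open scoped ContDiff RealInnerProductSpace Gradient Topology

universe u v

variable {W : Type u} [NormedAddCommGroup W] [InnerProductSpace ℝ W] [FiniteDimensional ℝ W]
  [MeasurableSpace W] [BorelSpace W]

variable {U : Set W} {g g' : W → ℝ} {κ : W → ℝ} {x : W} {s K α : ℝ}

/-! ### D. vector valued functions -/

section vec

variable {F : W → W}

theorem ell_molV_integrable (hκ : IsKer κ) (hs : 0 ≤ s) (hF : ContinuousOn F (closedBall x s)) :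
    Integrable (fun y => κ y • F (x - s • y)) := by
  have hc : ContinuousOn (fun y => κ y • F (x - s • y)) (closedBall (0 : W) 1) :=
    hκ.continuous.continuousOn.smul (hF.comp (by fun_prop) fun y hy => ell_mol_mem hs hy)
  have hi := hc.integrableOn_compact (μ := volume) (isCompact_closedBall (0 : W) 1)
  rw [← integrable_indicator_iff measurableSet_closedBall] at hi
  refine hi.congr (Filter.Eventually.of_forall fun y => ?_)
  by_cases hy : y ∈ closedBall (0 : W) 1
  · rw [Set.indicator_of_mem hy]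
  · rw [Set.indicator_of_notMem hy]
    rcases ell_mol_cases hκ y with h | h
    · exact absurd h hy
    · simp [h]

theorem ell_inner_molV_aux (hκ : IsKer κ) (hs : 0 ≤ s) (hF : ContinuousOn F (closedBall x s)) (ν : W) :
    ⟪ellMolV κ s F x, ν⟫ = ellMol κ s (fun z => ⟪F z, ν⟫) x := by
  rw [ellMolV, real_inner_comm, ← integral_inner (ell_molV_integrable hκ hs hF) ν, ellMol]
  refine integral_congr_ae (Filter.Eventually.of_forall fun y => ?_)
  simp only [real_inner_smul_right]
  rw [real_inner_comm]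

/-- expansion in the basis. -/
theorem ell_molV_eq_sum (hκ : IsKer κ) (hs : 0 ≤ s) (hF : ContinuousOn F (closedBall x s)) :
    ellMolV κ s F x = ∑ i, ellMol κ s (fun z => ⟪F z, stdOrthonormalBasis ℝ W i⟫) x • stdOrthonormalBasis ℝ W i := by
  conv_lhs => rw [← (stdOrthonormalBasis ℝ W).sum_repr' (ellMolV κ s F x)]
  refine Finset.sum_congr rfl fun i _ => ?_
  rw [real_inner_comm, ell_inner_molV_aux hκ hs hF]

theorem ell_inner_molV (hκ : IsKer κ) (hs : 0 ≤ s) (hF : ContinuousOn F (closedBall x s)) (ν : W) :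
    ⟪ellMolV κ s F x, ν⟫ = ellMol κ s (fun z => ⟪F z, ν⟫) x := by
  exact ell_inner_molV_aux hκ hs hF ν

theorem ell_molV_contDiffOn (hκ : IsKer κ) (hU : IsOpen U) (hF : ContinuousOn F U) (hs : 0 < s) :
    ContDiffOn ℝ ∞ (ellMolV κ s F) {x | closedBall x s ⊆ U} := by
  have h1 : ContDiffOn ℝ ∞ (fun x => ∑ i, ellMol κ s (fun z => ⟪F z, stdOrthonormalBasis ℝ W i⟫) x
      • stdOrthonormalBasis ℝ W i) {x | closedBall x s ⊆ U} :=
    ContDiffOn.sum fun i _ => (ell_mol_contDiffOn hκ hU (hF.inner continuousOn_const) hs).smul contDiffOn_const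
  exact h1.congr fun x hx => ell_molV_eq_sum hκ hs.le (hF.mono hx)

theorem ell_molV_bdOn {V : Set W} (hκ : IsKer κ) (hs : 0 ≤ s) (hV : ∀ x ∈ V, closedBall x s ⊆ U)
    (hF : ContinuousOn F U) (hb : BdOn K U F) : BdOn (kerL1 κ * K) V (ellMolV κ s F) := by
  intro x hx
  rw [ellMolV, kerL1, ← integral_mul_const]
  refine norm_integral_le_of_norm_le (hκ.integrable.abs.mul_const K) (Filter.Eventually.of_forall fun y => ?_)
  rw [norm_smul, Real.norm_eq_abs]
  rcases ell_mol_cases hκ y with hy | hy
  · exact mul_le_mul_of_nonneg_left (hb _ (hV x hx (ell_mol_mem hs hy))) (abs_nonneg _)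
  · simp [hy]

theorem ell_molV_holOn {V : Set W} (hκ : IsKer κ) (hs : 0 ≤ s) (hV : ∀ x ∈ V, closedBall x s ⊆ U)
    (hF : ContinuousOn F U) (hb : HolOn α K U F) : HolOn α (kerL1 κ * K) V (ellMolV κ s F) := by
  intro x hx x' hx'
  have i1 := ell_molV_integrable hκ hs (hF.mono (hV x hx))
  have i2 := ell_molV_integrable hκ hs (hF.mono (hV x' hx'))
  simp only [ellMolV]
  rw [← integral_sub i1 i2, kerL1, mul_assoc, ← integral_mul_const]
  refine norm_integral_le_of_norm_le (hκ.integrable.abs.mul_const _) (Filter.Eventually.of_forall fun y => ?_)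
  rw [← smul_sub, norm_smul, Real.norm_eq_abs]
  rcases ell_mol_cases hκ y with hy | hy
  · refine mul_le_mul_of_nonneg_left ?_ (abs_nonneg _)
    have := hb _ (hV x hx (ell_mol_mem hs hy)) _ (hV x' hx' (ell_mol_mem hs hy))
    have e : x - s • y - (x' - s • y) = x - x' := by abel
    rwa [e] at this
  · simp [hy]

theorem ell_div_molV (hκ : IsKer κ) (hU : IsOpen U) (hF : ContinuousOn F U) (hs : 0 < s)
    (hx : closedBall x s ⊆ U) :
    ellDiv (ellMolV κ s F) x
      = s⁻¹ * ∑ i, ellMol (dd (stdOrthonormalBasis ℝ W i) κ) s (fun z => ⟪F z, stdOrthonormalBasis ℝ W i⟫) x := by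
  have hV := ell_isOpen_inner hU s
  have hd : DifferentiableOn ℝ (ellMolV κ s F) {x | closedBall x s ⊆ U} :=
    (ell_molV_contDiffOn hκ hU hF hs).differentiableOn (by simp)
  rw [ell_div_eq_sum_dd hV hd hx, Finset.mul_sum]
  refine Finset.sum_congr rfl fun i _ => ?_
  have e : (fun z => ⟪ellMolV κ s F z, stdOrthonormalBasis ℝ W i⟫)
      =ᶠ[𝓝 x] ellMol κ s (fun z => ⟪F z, stdOrthonormalBasis ℝ W i⟫) := by
    filter_upwards [hV.mem_nhds hx] with z hz
    exact ell_inner_molV hκ hs.le (hF.mono hz) _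
  rw [dd, e.fderiv_eq]
  exact ell_mol_dd_ker hκ hU (hF.inner continuousOn_const) hs hx _

end vec

end Claimed.Agent.Lib.Ell
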