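/-
Lib/Ell, package L-ell-mollE (architect helper232): MOLLIFIER CALCULUS, section E.   `ellMol κ s g x = ∫ κ(y) g(x - s y) dy`.
`g` is only continuous (C¹, C²) on an open set `U`; all statements are at points `x` with `closedBall x s ⊆ U`.
Files MollA (integrability, bounds, limits; elementary), MollB (derivatives in `x`), MollC (derivative in `s`), MollD (vector valued),
MollE (kernels as test functions).   Each file is one task; earlier files are black boxes.
HINTS.  B: near `x₀` choose `δ` with `closedBall x₀ (s+δ) ⊆ U` and replace `g` by `indicator (closedBall x₀ (s+δ)) g`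
(integrable); `ellMol κ s g x = s^{-m} ∫ κ((x-z)/s) g̃(z) dz` is a convolution: `HasCompactSupport.contDiff_convolution_left`,
`HasCompactSupport.hasFDerivAt_convolution_left`.   `ell_mol_ibp`: `G(y) = κ(y) g(x - s y)` is `C¹` with compact support (it
vanishes on the open set `1 < ‖y‖`, and is `C¹` on the open set `{y | x - s y ∈ U} ⊇ closedBall 0 1`); `ell_integral_dd_eq_zero`.
C: `hasDerivAt_integral_of_dominated_loc_of_deriv_le` on `σ ∈ (s-δ, s+δ)`.
-/
import Claimed.Agent.Lib.Ell.MollD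

set_option autoImplicit false

namespace Claimed.Agent.Lib.Ell

open MeasureTheory Metric Filter
open scoped ContDiff RealInnerProductSpace Gradient Topology

universe u v

variable {W : Type u} [NormedAddCommGroup W] [InnerProductSpace ℝ W] [FiniteDimensional ℝ W]
  [MeasurableSpace W] [BorelSpace W]

variable {U : Set W} {g g' : W → ℝ} {κ : W → ℝ} {x : W} {s K α : ℝ}

/-! ### E. kernels as test functions -/

theorem ell_ker_isTest (hκ : IsKer κ) (hs : 0 < s) (hx : closedBall x s ⊆ U) :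
    IsTest U (fun z => κ (s⁻¹ • (x - z))) := by
  have hsupp : Function.support (fun z => κ (s⁻¹ • (x - z))) ⊆ closedBall x s := fun z hz => by
    by_contra hcon
    rw [mem_closedBall, dist_eq_norm, not_le, norm_sub_rev] at hcon
    refine hz (hκ.2 _ ?_)
    rw [norm_smul, norm_inv, Real.norm_of_nonneg hs.le, inv_mul_eq_div, le_div_iff₀ hs]
    linarith
  refine ⟨hκ.1.comp (contDiff_const.smul (contDiff_const.sub contDiff_id)),
    HasCompactSupport.of_support_subset_isCompact (isCompact_closedBall x s) hsupp,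
    (closure_minimal hsupp isClosed_closedBall).trans hx⟩

theorem ell_ker_test_gradient (hκ : IsKer κ) (x z : W) (s : ℝ) :
    ∇ (fun z => κ (s⁻¹ • (x - z))) z = - (s⁻¹ • ∇ κ (s⁻¹ • (x - z))) := by
  refine HasGradientAt.gradient ?_
  rw [hasGradientAt_iff_hasFDerivAt]
  have h1 : HasFDerivAt κ (fderiv ℝ κ (s⁻¹ • (x - z))) (s⁻¹ • (x - z)) := (hκ.differentiable _).hasFDerivAt
  have h2 : HasFDerivAt (fun z : W => s⁻¹ • (x - z)) (s⁻¹ • -(ContinuousLinearMap.id ℝ W)) z :=
    ((hasFDerivAt_id z).const_sub x).const_smul s⁻¹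
  refine (h1.comp z h2).congr_fderiv ?_
  ext w
  simp [InnerProductSpace.toDual_apply_apply, inner_neg_left, real_inner_smul_left, ← ell_dd_eq_inner, dd]

/-- change of variables `z = x - s y`. -/
theorem ell_change_var (Φ : W → ℝ) (x : W) (hs : 0 < s) :
    ∫ z, Φ z = s ^ (Module.finrank ℝ W) * ∫ y, Φ (x - s • y) := by
  have h1 := Measure.integral_comp_smul (volume : Measure W) (fun w => Φ (x - w)) s
  have h2 := integral_sub_left_eq_self Φ (volume : Measure W) x
  rw [h1, h2, smul_eq_mul, abs_of_pos (by positivity), ← mul_assoc, mul_inv_cancel₀ (by positivity), one_mul]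

omit [FiniteDimensional ℝ W] [MeasurableSpace W] [BorelSpace W] in
theorem ell_cv_arg (hs : 0 < s) (y : W) : s⁻¹ • (x - (x - s • y)) = y := by
  rw [sub_sub_cancel, smul_smul, inv_mul_cancel₀ hs.ne', one_smul]

/-- `∫ ⟪V(x - s y), ∇κ(y)⟫ dy` in components. -/
theorem ell_integral_inner_grad_ker (hκ : IsKer κ) (hs : 0 ≤ s) {V : W → W} (hV : ContinuousOn V (closedBall x s)) :
    ∫ y, ⟪V (x - s • y), ∇ κ y⟫
      = ∑ i, ellMol (dd (stdOrthonormalBasis ℝ W i) κ) s (fun z => ⟪V z, stdOrthonormalBasis ℝ W i⟫) x := by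
  simp only [ellMol]
  rw [← integral_finset_sum _ fun i _ =>
    ell_mol_integrable (hκ.ker_dd (stdOrthonormalBasis ℝ W i)) hs (hV.inner continuousOn_const)]
  refine integral_congr_ae (Filter.Eventually.of_forall fun y => ?_)
  simp only [ell_dd_eq_inner]
  rw [← (stdOrthonormalBasis ℝ W).sum_inner_mul_inner (V (x - s • y)) (∇ κ y)]
  exact Finset.sum_congr rfl fun i _ => by rw [mul_comm, real_inner_comm (∇ κ y)]

omit [MeasurableSpace W] [BorelSpace W] in
theorem ell_gradient_continuousOn (hU : IsOpen U) {u : W → ℝ} (hu : ContDiffOn ℝ 1 u U) :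
    ContinuousOn (fun z => ∇ u z) U :=
  (LinearIsometryEquiv.continuous _).comp_continuousOn (hu.continuousOn_fderiv_of_isOpen hU le_rfl)

/-- change of variables `z = x - s y` (any `g`). -/
theorem ell_mol_change_var (κ g : W → ℝ) (x : W) (hs : 0 < s) :
    ∫ z, κ (s⁻¹ • (x - z)) * g z = s ^ (Module.finrank ℝ W) * ellMol κ s g x := by
  rw [ell_change_var (fun z => κ (s⁻¹ • (x - z)) * g z) x hs, ellMol]
  congr 1
  refine integral_congr_ae (Filter.Eventually.of_forall fun y => ?_)
  simp only [ell_cv_arg hs]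

/-- **the weak equation tested with a kernel** (constant coefficients):
`∫ ⟪A∇u(x - s y), ∇κ(y)⟫ dy = ∫ ⟪F(x - s y), ∇κ(y)⟫ dy + s ∫ g(x - s y) κ(y) dy`. -/
theorem ell_weak_ker {A : W →L[ℝ] W} {u : W → ℝ} {F : W → W} (hU : IsOpen U) (hu : ContDiffOn ℝ 1 u U)
    (hF : ContinuousOn F U) (hg : ContinuousOn g U) (hw : WeakDiv U (fun _ => A) 0 0 u F g)
    (hκ : IsKer κ) (hs : 0 < s) (hx : closedBall x s ⊆ U) :
    ∑ i, ellMol (dd (stdOrthonormalBasis ℝ W i) κ) s (fun z => ⟪A (∇ u z), stdOrthonormalBasis ℝ W i⟫) x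
      = ∑ i, ellMol (dd (stdOrthonormalBasis ℝ W i) κ) s (fun z => ⟪F z, stdOrthonormalBasis ℝ W i⟫) x
        + s * ellMol κ s g x := by
  have hm : (0 : ℝ) < s ^ (Module.finrank ℝ W) := by positivity
  have h := hw _ (ell_ker_isTest hκ hs hx)
  have hGu := ell_gradient_continuousOn hU hu
  have hAu : ContinuousOn (fun z => A (∇ u z)) U := A.continuous.comp_continuousOn hGu
  rw [ell_change_var (fun z => ⟪A (∇ u z), ∇ (fun z => κ (s⁻¹ • (x - z))) z⟫) x hs,
    ell_change_var (fun z => ⟪F z, ∇ (fun z => κ (s⁻¹ • (x - z))) z⟫) x hs,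
    ell_change_var (fun z => (⟪(0 : W → W) z, ∇ u z⟫ + (0 : W → ℝ) z * u z - g z) * κ (s⁻¹ • (x - z))) x hs] at h
  simp only [ell_ker_test_gradient hκ, ell_cv_arg hs, inner_neg_right, real_inner_smul_right, Pi.zero_apply,
    inner_zero_left, zero_mul, add_zero, zero_sub, neg_mul] at h
  rw [integral_neg, integral_neg, integral_neg, integral_const_mul, integral_const_mul,
    ell_integral_inner_grad_ker hκ hs.le (hAu.mono hx), ell_integral_inner_grad_ker hκ hs.le (hF.mono hx)] at h
  have e : (∫ y, g (x - s • y) * κ y) = ellMol κ s g x :=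
    integral_congr_ae (Filter.Eventually.of_forall fun y => mul_comm _ _)
  rw [e] at h
  set S1 := ∑ i, ellMol (dd (stdOrthonormalBasis ℝ W i) κ) s (fun z => ⟪A (∇ u z), stdOrthonormalBasis ℝ W i⟫) x
  set S2 := ∑ i, ellMol (dd (stdOrthonormalBasis ℝ W i) κ) s (fun z => ⟪F z, stdOrthonormalBasis ℝ W i⟫) x
  have h2 : -(s⁻¹ * S1) = -(s⁻¹ * S2) + -ellMol κ s g x := by
    have : s ^ (Module.finrank ℝ W) * -(s⁻¹ * S1)
        = s ^ (Module.finrank ℝ W) * (-(s⁻¹ * S2) + -ellMol κ s g x) := by rw [h]; ring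
    exact mul_left_cancel₀ hm.ne' this
  field_simp at h2
  linarith

/-- **the mollified equation is classical**. -/
theorem ell_weak_mol {A : W →L[ℝ] W} {u : W → ℝ} {F : W → W} (hA : ∀ ξ η : W, ⟪A ξ, η⟫ = ⟪ξ, A η⟫)
    (hU : IsOpen U) (hu : ContDiffOn ℝ 1 u U)
    (hF : ContinuousOn F U) (hg : ContinuousOn g U) (hw : WeakDiv U (fun _ => A) 0 0 u F g)
    (hs : 0 < s) (hx : closedBall x s ⊆ U) :
    ellTr A (ellD2 (ellMol ellRho s u) x) = ellDiv (ellMolV ellRho s F) x + ellMol ellRho s g x := by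
  have hV := ell_isOpen_inner hU s
  have hρ := ellRho_isKer (W := W)
  have hm : ContDiffOn ℝ 2 (ellMol ellRho s u) {x | closedBall x s ⊆ U} :=
    (ell_mol_contDiffOn hρ hU hu.continuousOn hs).of_le (by norm_cast)
  have hdc : ∀ e : W, ContinuousOn (dd e u) U := fun e =>
    (ContDiffOn.ell_dd (n := 0) hU (by simpa using hu) e).continuousOn
  have hGu := ell_gradient_continuousOn hU hu
  have hAu : ContinuousOn (fun z => A (∇ u z)) U := A.continuous.comp_continuousOn hGu
  have h1 : ∀ i, ellD2 (ellMol ellRho s u) x (A (stdOrthonormalBasis ℝ W i)) (stdOrthonormalBasis ℝ W i)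
      = s⁻¹ * ellMol (dd (A (stdOrthonormalBasis ℝ W i)) ellRho) s (dd (stdOrthonormalBasis ℝ W i) u) x := fun i => by
    rw [ell_d2_apply hV hm hx]
    have e : dd (stdOrthonormalBasis ℝ W i) (ellMol ellRho s u)
        =ᶠ[𝓝 x] ellMol ellRho s (dd (stdOrthonormalBasis ℝ W i) u) := by
      filter_upwards [hV.mem_nhds hx] with z hz
      exact ell_mol_dd hρ hU hu hs hz _
    rw [dd, e.fderiv_eq]
    exact ell_mol_dd_ker hρ hU (hdc _) hs hx _
  have h2 : ∑ i, ellMol (dd (A (stdOrthonormalBasis ℝ W i)) ellRho) s (dd (stdOrthonormalBasis ℝ W i) u) x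
      = ∫ y, ⟪A (∇ u (x - s • y)), ∇ ellRho y⟫ := by
    simp only [ellMol]
    rw [← integral_finset_sum _ fun i _ =>
      ell_mol_integrable (hρ.ker_dd (A (stdOrthonormalBasis ℝ W i))) hs.le ((hdc _).mono hx)]
    refine integral_congr_ae (Filter.Eventually.of_forall fun y => ?_)
    simp only [ell_dd_eq_inner]
    rw [hA, real_inner_comm, ← (stdOrthonormalBasis ℝ W).sum_inner_mul_inner (A (∇ ellRho y)) (∇ u (x - s • y))]
    exact Finset.sum_congr rfl fun i _ => by rw [hA, real_inner_comm (∇ u (x - s • y))]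
  rw [ellTr, Finset.sum_congr rfl fun i _ => h1 i, ← Finset.mul_sum, h2,
    ell_integral_inner_grad_ker hρ hs.le (hAu.mono hx), ell_weak_ker hU hu hF hg hw hρ hs hx,
    ell_div_molV hρ hU hF hs hx, mul_add, ← mul_assoc, inv_mul_cancel₀ hs.ne', one_mul]

end Claimed.Agent.Lib.Ell
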