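/-
Lib/Ell, package L-ell-morrey (architect helper232): MORREY'S INEQUALITY, a priori form for `C¹` functions, gradient-only constant:
   `p > m = finrank W`,  `∫_{ball x₀ R} |Du|^p ≤ G^p`   ⟹   `|u(x) - u(y)| ≤ C G |x - y|^{1 - m/p}` on `ball x₀ (R/4)`,  `C = C(W, p)`.
(row 316: `m = 2`, `p = 3`, exponent `1/3`.)

PROOF (mollifier, no potential estimates).  (Mo1) Hoelder's inequality + change of variables `z = x - s y`:
   `|ellMol κ s g x| ≤ c(κ,p) s^{-m/p} (∫_{closedBall x s} |g|^p)^{1/p}`.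
(Mo2) `d/ds u_s(x) = Σ_i (∂_i P)_s * ∂_i u` (`ell_mol_rho_ds1`), so `|d/ds u_s(x)| ≤ c G s^{(1-m/p)-1}`;  `ell_ftc_pow`: `|u_s(x) - u(x)| ≤ c G s^{1-m/p}/(1-m/p)`.
(Mo3) `|D u_s(z)| = |(Du)_s(z)| ≤ c G s^{-m/p}` (`ell_mol_dd`);  `s = ‖x - y‖ < R/2`, mean value inequality on `ball x₀ (R/4)`.
-/
import Claimed.Agent.Lib.Ell.Moll

set_option autoImplicit false

namespace Claimed.Agent.Lib.Ell

open MeasureTheory Metric Filter
open scoped ContDiff RealInnerProductSpace Gradient Topology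

universe u

variable {W : Type u} [NormedAddCommGroup W] [InnerProductSpace ℝ W] [FiniteDimensional ℝ W]
  [MeasurableSpace W] [BorelSpace W]

/-- a function that is continuous on a compact set is in every `L^p` of that set. -/
theorem ell_memLp_of_continuousOn {K : Set W} (hK : IsCompact K) {f : W → ℝ} (hf : ContinuousOn f K)
    (p : ENNReal) : MemLp f p (volume.restrict K) := by
  have : IsFiniteMeasure (volume.restrict K) := ⟨by
    rw [Measure.restrict_apply MeasurableSet.univ, Set.univ_inter]; exact hK.measure_lt_top⟩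
  obtain ⟨C, hC⟩ := hK.exists_bound_of_continuousOn hf
  refine MemLp.of_bound (hf.aestronglyMeasurable hK.measurableSet) C ?_
  filter_upwards [ae_restrict_mem hK.measurableSet] with x hx
  exact hC x hx

/-- change of variables `z = x - s y` on balls. -/
theorem ell_setIntegral_ball_scale (G : W → ℝ) (x : W) {s : ℝ} (hs : 0 < s) :
    ∫ y in closedBall (0 : W) 1, G (x - s • y)
      = (s ^ Module.finrank ℝ W)⁻¹ * ∫ z in closedBall x s, G z := by
  have h := ell_mol_change_var ((closedBall (0 : W) 1).indicator (fun _ => (1 : ℝ))) G x hs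
  have e1 : ∫ z, (closedBall (0 : W) 1).indicator (fun _ => (1 : ℝ)) (s⁻¹ • (x - z)) * G z
      = ∫ z in closedBall x s, G z := by
    rw [← integral_indicator measurableSet_closedBall]
    congr 1
    funext z
    have hiff : s⁻¹ • (x - z) ∈ closedBall (0 : W) 1 ↔ z ∈ closedBall x s := by
      rw [mem_closedBall_zero_iff, norm_smul, Real.norm_of_nonneg (by positivity), mem_closedBall, dist_comm,
        dist_eq_norm, inv_mul_le_iff₀ hs, mul_one]
    by_cases hz : z ∈ closedBall x s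
    · rw [Set.indicator_of_mem hz, Set.indicator_of_mem (hiff.2 hz), one_mul]
    · rw [Set.indicator_of_notMem hz, Set.indicator_of_notMem (fun h => hz (hiff.1 h)), zero_mul]
  have e2 : ellMol ((closedBall (0 : W) 1).indicator (fun _ => (1 : ℝ))) s G x
      = ∫ y in closedBall (0 : W) 1, G (x - s • y) := by
    unfold ellMol
    rw [← integral_indicator measurableSet_closedBall]
    congr 1
    funext y
    by_cases hy : y ∈ closedBall (0 : W) 1
    · rw [Set.indicator_of_mem hy, Set.indicator_of_mem hy, one_mul]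
    · rw [Set.indicator_of_notMem hy, Set.indicator_of_notMem hy, zero_mul]
  rw [e1, e2] at h
  rw [h]
  have : (s ^ Module.finrank ℝ W) ≠ 0 := by positivity
  field_simp

/-- (Mo1) -/
theorem ell_mol_lp_le {κ : W → ℝ} (hκ : IsKer κ) {p : ℝ} (hp : 1 < p) :
    ∃ c : ℝ, 0 ≤ c ∧ ∀ (g : W → ℝ) (x : W) (s G : ℝ), 0 < s → 0 ≤ G → ContinuousOn g (closedBall x s) →
      ∫ z in closedBall x s, |g z| ^ p ≤ G ^ p →
      |ellMol κ s g x| ≤ c * G * s ^ (-(Module.finrank ℝ W : ℝ) / p) := by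
  set q := Real.conjExponent p with hq
  have hpq : p.HolderConjugate q := Real.HolderConjugate.conjExponent hp
  have hp0 : 0 < p := by linarith
  set B : Set W := closedBall (0 : W) 1 with hB
  have hBc : IsCompact B := isCompact_closedBall 0 1
  set c : ℝ := (∫ y in B, |κ y| ^ q) ^ (1 / q) with hc
  have hc0 : 0 ≤ c := Real.rpow_nonneg (integral_nonneg fun y => Real.rpow_nonneg (abs_nonneg _) _) _
  refine ⟨c, hc0, ?_⟩
  intro g x s G hs hG hg hint
  set m := Module.finrank ℝ W with hm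
  have hgc : ContinuousOn (fun y => g (x - s • y)) B := by
    apply hg.comp (by fun_prop)
    intro y hy
    exact ell_mol_mem hs.le hy
  have h1 : ellMol κ s g x = ∫ y in B, κ y * g (x - s • y) := by
    unfold ellMol
    symm
    apply setIntegral_eq_integral_of_forall_compl_eq_zero
    intro y hy
    rcases ell_mol_cases hκ y with h | h
    · exact absurd h hy
    · rw [h, zero_mul]
  have h2 : |ellMol κ s g x| ≤ ∫ y in B, |g (x - s • y)| * |κ y| := by
    rw [h1]
    refine (abs_integral_le_integral_abs).trans (le_of_eq ?_)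
    congr 1
    funext y
    rw [abs_mul, mul_comm]
  have h3 := integral_mul_le_Lp_mul_Lq_of_nonneg (μ := volume.restrict B) hpq
    (f := fun y => |g (x - s • y)|) (g := fun y => |κ y|)
    (Eventually.of_forall fun y => abs_nonneg _) (Eventually.of_forall fun y => abs_nonneg _)
    (ell_memLp_of_continuousOn hBc hgc.abs _) (ell_memLp_of_continuousOn hBc hκ.continuous.continuousOn.abs _)
  have h4 : ∫ y in B, |g (x - s • y)| ^ p = (s ^ m)⁻¹ * ∫ z in closedBall x s, |g z| ^ p :=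
    ell_setIntegral_ball_scale (fun z => |g z| ^ p) x hs
  have h5 : (∫ y in B, |g (x - s • y)| ^ p) ^ (1 / p) ≤ G * s ^ (-(m : ℝ) / p) := by
    rw [h4]
    have hsm : 0 < (s ^ m)⁻¹ := by positivity
    calc ((s ^ m)⁻¹ * ∫ z in closedBall x s, |g z| ^ p) ^ (1 / p)
        ≤ ((s ^ m)⁻¹ * G ^ p) ^ (1 / p) := by
          apply Real.rpow_le_rpow _ (mul_le_mul_of_nonneg_left hint hsm.le) (by positivity)
          exact mul_nonneg hsm.le (integral_nonneg fun z => Real.rpow_nonneg (abs_nonneg _) _)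
      _ = G * s ^ (-(m : ℝ) / p) := by
          rw [Real.mul_rpow hsm.le (by positivity), ← Real.rpow_mul hG, mul_one_div_cancel hp0.ne', Real.rpow_one,
            mul_comm]
          congr 1
          rw [← Real.rpow_natCast, ← Real.rpow_neg hs.le, ← Real.rpow_mul hs.le]
          congr 1
          ring
  calc |ellMol κ s g x| ≤ ∫ y in B, |g (x - s • y)| * |κ y| := h2
    _ ≤ (∫ y in B, |g (x - s • y)| ^ p) ^ (1 / p) * c := h3
    _ ≤ (G * s ^ (-(m : ℝ) / p)) * c := mul_le_mul_of_nonneg_right h5 hc0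
    _ = c * G * s ^ (-(m : ℝ) / p) := by ring

/-- the `L^p` norm of a directional derivative on a smaller ball. -/
theorem ell_morrey_dd_int {U : Set W} {u : W → ℝ} {x : W} {s σ G p : ℝ} (hU : IsOpen U) (hu : ContDiffOn ℝ 1 u U)
    (hp : 0 < p) (hG : 0 ≤ G) (hσs : σ ≤ s) (hx : closedBall x s ⊆ U)
    (hint : ∫ z in closedBall x s, ‖fderiv ℝ u z‖ ^ p ≤ G ^ p) (k : W) :
    ContinuousOn (dd k u) (closedBall x σ) ∧ ∫ z in closedBall x σ, |dd k u z| ^ p ≤ (G * ‖k‖) ^ p := by
  have hsub : closedBall x σ ⊆ closedBall x s := closedBall_subset_closedBall hσs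
  have hfc : ContinuousOn (fderiv ℝ u) U := hu.continuousOn_fderiv_of_isOpen hU le_rfl
  have hdc : ContinuousOn (dd k u) U := hfc.clm_apply continuousOn_const
  refine ⟨hdc.mono (hsub.trans hx), ?_⟩
  have hI : IntegrableOn (fun z => ‖fderiv ℝ u z‖ ^ p) (closedBall x s) :=
    (((hfc.mono hx).norm).rpow_const (fun _ _ => Or.inr hp.le)).integrableOn_compact (isCompact_closedBall x s)
  calc ∫ z in closedBall x σ, |dd k u z| ^ p
      ≤ ∫ z in closedBall x σ, ‖k‖ ^ p * ‖fderiv ℝ u z‖ ^ p := by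
        apply setIntegral_mono_on
        · exact (((hdc.mono (hsub.trans hx)).abs).rpow_const (fun _ _ => Or.inr hp.le)).integrableOn_compact
            (isCompact_closedBall x σ)
        · exact (hI.mono_set hsub).const_mul _
        · exact measurableSet_closedBall
        · intro z _
          rw [← Real.mul_rpow (norm_nonneg _) (norm_nonneg _), mul_comm]
          exact Real.rpow_le_rpow (abs_nonneg _) (ell_dd_abs_le k u z) hp.le
    _ = ‖k‖ ^ p * ∫ z in closedBall x σ, ‖fderiv ℝ u z‖ ^ p := integral_const_mul _ _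
    _ ≤ ‖k‖ ^ p * ∫ z in closedBall x s, ‖fderiv ℝ u z‖ ^ p := by
        apply mul_le_mul_of_nonneg_left _ (by positivity)
        exact setIntegral_mono_set hI (Eventually.of_forall fun z => by positivity) hsub.eventuallyLE
    _ ≤ ‖k‖ ^ p * G ^ p := mul_le_mul_of_nonneg_left hint (by positivity)
    _ = (G * ‖k‖) ^ p := by rw [Real.mul_rpow hG (norm_nonneg _), mul_comm]

/-- (Mo2) -/
theorem ell_morrey_approx (W : Type u) [NormedAddCommGroup W] [InnerProductSpace ℝ W] [FiniteDimensional ℝ W]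
    [MeasurableSpace W] [BorelSpace W] {p : ℝ} (hp1 : 1 < p) (hp : (Module.finrank ℝ W : ℝ) < p) :
    ∃ C : ℝ, 0 ≤ C ∧ ∀ (U : Set W) (u : W → ℝ) (x : W) (s G : ℝ), IsOpen U → ContDiffOn ℝ 1 u U → 0 < s → 0 ≤ G →
      closedBall x s ⊆ U → ∫ z in closedBall x s, ‖fderiv ℝ u z‖ ^ p ≤ G ^ p →
      |ellMol ellRho s u x - u x| ≤ C * G * s ^ (1 - (Module.finrank ℝ W : ℝ) / p) := by
  have hp0 : 0 < p := by linarith
  set m : ℝ := (Module.finrank ℝ W : ℝ) with hm
  set α : ℝ := 1 - m / p with hα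
  have hα0 : 0 < α := by
    rw [hα, sub_pos, div_lt_one hp0]; exact hp
  set e := stdOrthonormalBasis ℝ W with he
  choose c hc0 hc using fun i => ell_mol_lp_le ((ellP_isKer (W := W)).ker_dd (e i)) hp1
  set c₀ : ℝ := ∑ i, c i with hc₀
  have hc₀0 : 0 ≤ c₀ := Finset.sum_nonneg fun i _ => hc0 i
  refine ⟨c₀ / α, by positivity, ?_⟩
  intro U u x s G hU hu hs hG hx hint
  have hd : ∀ σ ∈ Set.Ioc 0 s, HasDerivAt (fun σ => ellMol ellRho σ u x)
      (∑ i, ellMol (dd (e i) ellP) σ (dd (e i) u) x) σ := by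
    intro σ hσ
    exact ell_mol_rho_ds1 hU hu hσ.1 ((closedBall_subset_closedBall hσ.2).trans hx)
  have hb : ∀ σ ∈ Set.Ioc 0 s, |∑ i, ellMol (dd (e i) ellP) σ (dd (e i) u) x| ≤ (c₀ * G) * σ ^ (α - 1) := by
    intro σ hσ
    refine (Finset.abs_sum_le_sum_abs _ _).trans ?_
    rw [hc₀, Finset.sum_mul, Finset.sum_mul]
    refine Finset.sum_le_sum fun i _ => ?_
    obtain ⟨h1, h2⟩ := ell_morrey_dd_int hU hu hp0 hG hσ.2 hx hint (e i)
    have hen : ‖e i‖ = 1 := e.orthonormal.1 i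
    rw [hen, mul_one] at h2
    have := hc i (dd (e i) u) x σ G hσ.1 hG h1 h2
    have e1 : α - 1 = -m / p := by rw [hα]; ring
    rw [e1]
    exact this
  have hl : Tendsto (fun σ => ellMol ellRho σ u x) (𝓝[>] 0) (𝓝 (u x)) := by
    have := ell_mol_tendsto (ellRho_isKer (W := W)) hU hu.continuousOn (hx (mem_closedBall_self hs.le))
    rwa [ellRho_integral, one_mul] at this
  have := ell_ftc_pow hs hα0 hd hb hl
  refine this.trans (le_of_eq ?_)
  ring

/-- (Mo3a) -/
theorem ell_morrey_grad (W : Type u) [NormedAddCommGroup W] [InnerProductSpace ℝ W] [FiniteDimensional ℝ W]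
    [MeasurableSpace W] [BorelSpace W] {p : ℝ} (hp1 : 1 < p) :
    ∃ C : ℝ, 0 ≤ C ∧ ∀ (U : Set W) (u : W → ℝ) (x : W) (s G : ℝ), IsOpen U → ContDiffOn ℝ 1 u U → 0 < s → 0 ≤ G →
      closedBall x s ⊆ U → ∫ z in closedBall x s, ‖fderiv ℝ u z‖ ^ p ≤ G ^ p →
      ‖fderiv ℝ (ellMol ellRho s u) x‖ ≤ C * G * s ^ (-(Module.finrank ℝ W : ℝ) / p) := by
  have hp0 : 0 < p := by linarith
  obtain ⟨c, hc0, hc⟩ := ell_mol_lp_le (ellRho_isKer (W := W)) hp1
  refine ⟨c, hc0, ?_⟩
  intro U u x s G hU hu hs hG hx hint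
  apply ell_norm_fderiv_le (by positivity)
  intro k
  rw [ell_mol_dd ellRho_isKer hU hu hs hx k]
  obtain ⟨h1, h2⟩ := ell_morrey_dd_int hU hu hp0 hG le_rfl hx hint k
  refine (hc (dd k u) x s (G * ‖k‖) hs (by positivity) h1 h2).trans (le_of_eq ?_)
  ring

/-- **Morrey's inequality.** -/
theorem ell_morrey (W : Type u) [NormedAddCommGroup W] [InnerProductSpace ℝ W] [FiniteDimensional ℝ W]
    [MeasurableSpace W] [BorelSpace W] {p : ℝ} (hp1 : 1 < p) (hp : (Module.finrank ℝ W : ℝ) < p) :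
    ∃ C : ℝ, 0 ≤ C ∧ ∀ (x₀ : W) (R G : ℝ) (u : W → ℝ), 0 < R → 0 ≤ G → ContDiffOn ℝ 1 u (ball x₀ R) →
      IntegrableOn (fun z => ‖fderiv ℝ u z‖ ^ p) (ball x₀ R) → ∫ z in ball x₀ R, ‖fderiv ℝ u z‖ ^ p ≤ G ^ p →
      HolOn (1 - (Module.finrank ℝ W : ℝ) / p) (C * G) (ball x₀ (R / 4)) u := by
  obtain ⟨C₂, hC₂, h2⟩ := ell_morrey_approx W hp1 hp
  obtain ⟨C₃, hC₃, h3⟩ := ell_morrey_grad W hp1
  refine ⟨2 * C₂ + C₃, by positivity, ?_⟩
  intro x₀ R G u hR hG hu hI hint x hx y hy
  set m : ℝ := (Module.finrank ℝ W : ℝ) with hm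
  set s : ℝ := ‖x - y‖ with hs
  rcases (norm_nonneg (x - y)).eq_or_lt with h0 | h0
  · have hxy : x = y := by rw [← sub_eq_zero, ← norm_eq_zero]; exact h0.symm
    rw [hxy, sub_self, norm_zero]
    positivity
  have hU : IsOpen (ball x₀ R) := isOpen_ball
  have hsR : s < R / 2 := by
    rw [mem_ball] at hx hy
    rw [hs, ← dist_eq_norm]
    have := dist_triangle_right x y x₀
    linarith
  have hsub : ∀ z ∈ ball x₀ (R / 4), closedBall z s ⊆ ball x₀ R := by
    intro z hz w hw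
    rw [mem_ball] at hz ⊢
    rw [mem_closedBall] at hw
    have := dist_triangle w z x₀
    linarith
  have hintz : ∀ z ∈ ball x₀ (R / 4), ∫ w in closedBall z s, ‖fderiv ℝ u w‖ ^ p ≤ G ^ p := by
    intro z hz
    refine le_trans ?_ hint
    exact setIntegral_mono_set hI (Eventually.of_forall fun w => by positivity) (hsub z hz).eventuallyLE
  have a1 := h2 _ u x s G hU hu h0 hG (hsub x hx) (hintz x hx)
  have a2 := h2 _ u y s G hU hu h0 hG (hsub y hy) (hintz y hy)
  have hcd : ContDiffOn ℝ ∞ (ellMol ellRho s u) (ball x₀ (R / 4)) :=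
    (ell_mol_contDiffOn ellRho_isKer hU hu.continuousOn h0).mono hsub
  have a3 : ‖ellMol ellRho s u x - ellMol ellRho s u y‖ ≤ (C₃ * G * s ^ (-m / p)) * ‖x - y‖ := by
    apply (convex_ball x₀ (R / 4)).norm_image_sub_le_of_norm_fderiv_le (𝕜 := ℝ) _ _ hy hx
    · intro z hz
      exact (hcd.contDiffAt (isOpen_ball.mem_nhds hz)).differentiableAt (by simp)
    · intro z hz
      exact h3 _ u z s G hU hu h0 hG (hsub z hz) (hintz z hz)
  have e1 : s ^ (-m / p) * s = s ^ (1 - m / p) := by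
    rw [show (1 : ℝ) - m / p = -m / p + 1 by ring, Real.rpow_add h0, Real.rpow_one]
  rw [Real.norm_eq_abs] at a3 ⊢
  have e2 : u x - u y = -(ellMol ellRho s u x - u x) + (ellMol ellRho s u x - ellMol ellRho s u y)
      + (ellMol ellRho s u y - u y) := by ring
  rw [e2]
  refine (abs_add_three _ _ _).trans ?_
  rw [abs_neg]
  have e3 : C₃ * G * s ^ (-m / p) * ‖x - y‖ = C₃ * G * s ^ (1 - m / p) := by
    rw [← hs, mul_assoc, e1]
  rw [e3] at a3
  calc |ellMol ellRho s u x - u x| + |ellMol ellRho s u x - ellMol ellRho s u y| + |ellMol ellRho s u y - u y|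
      ≤ C₂ * G * s ^ (1 - m / p) + C₃ * G * s ^ (1 - m / p) + C₂ * G * s ^ (1 - m / p) := by
        linarith
    _ = (2 * C₂ + C₃) * G * s ^ (1 - m / p) := by ring

end Claimed.Agent.Lib.Ell
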