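/-
Lib/Ell, package L-ell-prolong (architect helper232): PROLONGATION.   If `U ∈ C²` solves a system with scalar principal part `𝒶`, then
`U' = (U, DU) : W → V' = V × (W →L V)` solves a system of the same class:
   `𝒶'(x,(z,Q),Q') = 𝒶(x,z,Q)`,    `ℬ'(x,(z,Q),Q') = (ℬ(x,z,Q), 0)`,    `𝒜'(x,(z,Q),Q') = Q' ∘ 𝒶(x,z,Q) + 𝒢(x,z,Q)`,
   `𝒢(ξ) η = ( 𝒜(ξ) η - Q(𝒶(ξ) η) ,  k ↦ D𝒜(ξ)(k, Q k, 0) η - ⟪η,k⟫ ℬ(ξ) )`,   `ξ = (x,z,Q)`.
On the jet of `U'` (`Q' = (DU, D²U)`), by the structure condition and the symmetry of `D²U`: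
   `𝒜'(jet U') η = ( 𝒜(jet U) η ,  k ↦ ∂_k[𝒜 ∘ jet U] η - ⟪η,k⟫ ℬ(jet U) )`.
First component of the new system = the old system.  Second component, evaluated at `k`: the old system tested with `∂_k φ`, integrated by parts.
-/
import Claimed.Agent.Lib.Ell.Dq
import Claimed.Agent.Lib.Ell.Cb

set_option autoImplicit false

namespace Claimed.Agent.Lib.Ell

open MeasureTheory Metric Filter
open scoped ContDiff RealInnerProductSpace Gradient Topology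

universe u

/-! ### abstract forms (all spaces are abstract normed spaces: keeps instance unification cheap) -/

section abs

variable {X' X YA Yq Ya YD YI YF' YF Yb YP Ys : Type u}
  [NormedAddCommGroup X'] [NormedSpace ℝ X'] [NormedAddCommGroup X] [NormedSpace ℝ X]
  [NormedAddCommGroup YA] [NormedSpace ℝ YA] [NormedAddCommGroup Yq] [NormedSpace ℝ Yq]
  [NormedAddCommGroup Ya] [NormedSpace ℝ Ya] [NormedAddCommGroup YD] [NormedSpace ℝ YD]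
  [NormedAddCommGroup YI] [NormedSpace ℝ YI] [NormedAddCommGroup YF'] [NormedSpace ℝ YF']
  [NormedAddCommGroup YF] [NormedSpace ℝ YF] [NormedAddCommGroup Yb] [NormedSpace ℝ Yb]
  [NormedAddCommGroup YP] [NormedSpace ℝ YP] [NormedAddCommGroup Ys] [NormedSpace ℝ Ys]

theorem ell_prolabs_diff (P : YA × YF →L[ℝ] YP) (C₁ : Yq →L[ℝ] Ya →L[ℝ] YA) (C₂ : YD →L[ℝ] YI →L[ℝ] YF')
    (F : YF' →L[ℝ] YF) (I : Yq →L[ℝ] YI) (S : Yb →L[ℝ] YF) (c₀ : YI) (q : X →L[ℝ] Yq)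
    {A : X → YA} {a : X → Ya} {D : X → YD} {b : X → Yb} {x : X} (hA : DifferentiableAt ℝ A x)
    (ha : DifferentiableAt ℝ a x) (hD : DifferentiableAt ℝ D x) (hb : DifferentiableAt ℝ b x) :
    DifferentiableAt ℝ (fun ξ => P (A ξ - C₁ (q ξ) (a ξ), F (C₂ (D ξ) (c₀ + I (q ξ))) - S (b ξ))) x := by
  fun_prop

theorem ell_prolabs_str (π : X' →L[ℝ] X) (s : X' →L[ℝ] Ys) (C : Ys →L[ℝ] Ya →L[ℝ] YP)
    {a : X → Ya} {G : X → YP} {ξ' v : X'} (ha : DifferentiableAt ℝ a (π ξ')) (hG : DifferentiableAt ℝ G (π ξ'))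
    (hv : π v = 0) :
    fderiv ℝ (fun ζ => C (s ζ) (a (π ζ)) + G (π ζ)) ξ' v = C (s v) (a (π ξ')) := by
  have h1 : HasFDerivAt (fun ζ => a (π ζ)) ((fderiv ℝ a (π ξ')) ∘L π) ξ' := ha.hasFDerivAt.comp ξ' π.hasFDerivAt
  have h2 : HasFDerivAt (fun ζ => G (π ζ)) ((fderiv ℝ G (π ξ')) ∘L π) ξ' := hG.hasFDerivAt.comp ξ' π.hasFDerivAt
  have h3 : HasFDerivAt (fun ζ => s ζ) s ξ' := s.hasFDerivAt
  have h4 : HasFDerivAt (fun ζ => C (s ζ) (a (π ζ)) + G (π ζ)) _ ξ' := (C.hasFDerivAt_of_bilinear h3 h1).add h2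
  rw [h4.fderiv]
  simp [hv]

theorem ell_prolabs_cbG (P : YA × YF →L[ℝ] YP) (C₁ : Yq →L[ℝ] Ya →L[ℝ] YA) (C₂ : YD →L[ℝ] YI →L[ℝ] YF')
    (F : YF' →L[ℝ] YF) (I : Yq →L[ℝ] YI) (S : Yb →L[ℝ] YF) (c₀ : YI) (q : X →L[ℝ] Yq)
    (ΛA Λa ΛD Λb : ℕ → ℝ) (K : ℝ) :
    ∃ ΛG : ℕ → ℝ, ∀ (Ω : Set X) (A : X → YA) (a : X → Ya) (D : X → YD) (b : X → Yb), IsOpen Ω →
      (∀ ξ ∈ Ω, ‖q ξ‖ ≤ K) → CbLe ΛA Ω A → CbLe Λa Ω a → CbLe ΛD Ω D → CbLe Λb Ω b →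
      CbLe ΛG Ω (fun ξ => P (A ξ - C₁ (q ξ) (a ξ), F (C₂ (D ξ) (c₀ + I (q ξ))) - S (b ξ))) := by
  apply Exists.intro
  intro Ω A a D b hΩ hK hA ha hD hb
  have cQ := cbLe_clm q hK
  exact ((hA.sub hΩ (cQ.bilin hΩ ha C₁)).prodMk hΩ
    (((hD.bilin hΩ ((cbLe_const c₀).add hΩ (cQ.clm_post hΩ I)) C₂).clm_post hΩ F).sub hΩ
      (hb.clm_post hΩ S))).clm_post hΩ P

theorem ell_prolabs_cbA (π : X' →L[ℝ] X) (s : X' →L[ℝ] Ys) (C : Ys →L[ℝ] Ya →L[ℝ] YP) (Λa ΛG : ℕ → ℝ) (K'' : ℝ) :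
    ∃ ΛA' : ℕ → ℝ, ∀ (Ω : Set X) (Ω' : Set X') (a : X → Ya) (G : X → YP), IsOpen Ω → IsOpen Ω' →
      Set.MapsTo π Ω' Ω → (∀ ζ ∈ Ω', ‖s ζ‖ ≤ K'') → CbLe Λa Ω a → CbLe ΛG Ω G →
      CbLe ΛA' Ω' (fun ζ => C (s ζ) (a (π ζ)) + G (π ζ)) := by
  apply Exists.intro
  intro Ω Ω' a G hΩ hΩ' hπ hK ha hG
  exact ((cbLe_clm s hK).bilin hΩ' (ha.comp_clm hΩ hΩ' π hπ) C).add hΩ' (hG.comp_clm hΩ hΩ' π hπ)

theorem ell_prolabs_cbB (π : X' →L[ℝ] X) (Λb : ℕ → ℝ) :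
    ∃ ΛB' : ℕ → ℝ, ∀ (Ω : Set X) (Ω' : Set X') (b : X → Yb), IsOpen Ω → IsOpen Ω' →
      Set.MapsTo π Ω' Ω → CbLe Λb Ω b → CbLe ΛB' Ω' (fun ζ => (b (π ζ), (0 : YF))) := by
  apply Exists.intro
  intro Ω Ω' b hΩ hΩ' hπ hb
  exact (hb.comp_clm hΩ hΩ' π hπ).prodMk hΩ' (cbLe_const 0)

theorem ell_prolabs_cont (P : YA × YF →L[ℝ] YP) (F : YF' →L[ℝ] YF) (S : Yb →L[ℝ] YF) {B : Set X}
    {A : X → YA} {D : X → YF'} {b : X → Yb} (hA : ContinuousOn A B) (hD : ContinuousOn D B)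
    (hb : ContinuousOn b B) : ContinuousOn (fun x => P (A x, F (D x) - S (b x))) B := by
  fun_prop

theorem ell_prolabs_pair [MeasurableSpace X] {μ : Measure X} [CompleteSpace YA] [CompleteSpace YF]
    {f₁ g₁ : X → YA} {f₂ : X → YF} (i1 : Integrable f₁ μ) (i2 : Integrable f₂ μ) (j1 : Integrable g₁ μ)
    (h1 : (∫ x, f₁ x ∂μ) + ∫ x, g₁ x ∂μ = 0) (h2 : ∫ x, f₂ x ∂μ = 0) :
    (∫ x, (f₁ x, f₂ x) ∂μ) + ∫ x, (g₁ x, (0 : YF)) ∂μ = 0 := by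
  rw [integral_pair i1 i2, integral_pair j1 (integrable_zero _ _ _), h2, integral_zero, Prod.mk_add_mk, h1, add_zero]
  rfl

end abs

variable {W : Type u} [NormedAddCommGroup W] [InnerProductSpace ℝ W] [FiniteDimensional ℝ W]
variable {V : Type u} [NormedAddCommGroup V] [NormedSpace ℝ V]

/-- the prolonged value space. -/
abbrev PV (W V : Type u) [NormedAddCommGroup W] [InnerProductSpace ℝ W] [NormedAddCommGroup V] [NormedSpace ℝ V] :=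
  V × (W →L[ℝ] V)

/-- the prolonged map `(U, DU)`. -/
noncomputable def prolU (U : W → V) (x : W) : PV W V := (U x, fderiv ℝ U x)

/-- the projection `(x,(z,Q),Q') ↦ (x,z,Q)`. -/
noncomputable def jetPr : Jet W (PV W V) →L[ℝ] Jet W V :=
  (ContinuousLinearMap.fst ℝ W (PV W V × (W →L[ℝ] PV W V))).prod
    ((ContinuousLinearMap.fst ℝ (PV W V) (W →L[ℝ] PV W V)).comp
      (ContinuousLinearMap.snd ℝ W (PV W V × (W →L[ℝ] PV W V))))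

/-- `k ↦ (k, Q k, 0)`. -/
noncomputable def jetIn (Q : W →L[ℝ] V) : W →L[ℝ] Jet W V :=
  (ContinuousLinearMap.id ℝ W).prod (Q.prod 0)

/-- the lower order part of the prolonged system. -/
noncomputable def prolG (𝒜 : Jet W V → W →L[ℝ] V) (ℬ : Jet W V → V) (𝒶 : Jet W V → W →L[ℝ] W) (ξ : Jet W V) :
    W →L[ℝ] PV W V :=
  (𝒜 ξ - ξ.2.2 ∘L 𝒶 ξ).prod
    (((fderiv ℝ 𝒜 ξ) ∘L jetIn ξ.2.2).flip - ((ContinuousLinearMap.smulRightL ℝ W V).flip (ℬ ξ)) ∘L (innerSL ℝ))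

noncomputable def prolA (𝒜 : Jet W V → W →L[ℝ] V) (ℬ : Jet W V → V) (𝒶 : Jet W V → W →L[ℝ] W)
    (ξ' : Jet W (PV W V)) : W →L[ℝ] PV W V :=
  ξ'.2.2 ∘L 𝒶 (jetPr ξ') + prolG 𝒜 ℬ 𝒶 (jetPr ξ')

noncomputable def prolB (ℬ : Jet W V → V) (ξ' : Jet W (PV W V)) : PV W V := (ℬ (jetPr ξ'), 0)

noncomputable def prola (𝒶 : Jet W V → W →L[ℝ] W) (ξ' : Jet W (PV W V)) : W →L[ℝ] W := 𝒶 (jetPr ξ')

/-- the prolonged jet domain. -/
def prolΩ (Ω : Set (Jet W V)) (x₀ : W) (r K : ℝ) : Set (Jet W (PV W V)) :=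
  {ξ' | jetPr ξ' ∈ Ω ∧ ξ'.1 ∈ ball x₀ r ∧ ‖ξ'.2.2‖ < K}

/-! ### A. algebra of the definitions -/

omit [FiniteDimensional ℝ W] in
@[simp] theorem jetPr_apply (ξ' : Jet W (PV W V)) : jetPr ξ' = (ξ'.1, ξ'.2.1.1, ξ'.2.1.2) := by
  rfl

omit [FiniteDimensional ℝ W] in
@[simp] theorem jetIn_apply (Q : W →L[ℝ] V) (k : W) : jetIn Q k = (k, Q k, 0) := by
  rfl

omit [FiniteDimensional ℝ W] in
theorem jetPr_norm_le : ‖(jetPr : Jet W (PV W V) →L[ℝ] Jet W V)‖ ≤ 1 := by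
  refine ContinuousLinearMap.opNorm_le_bound _ zero_le_one fun ξ' => ?_
  rw [one_mul, jetPr_apply]
  refine max_le (le_max_left _ _) ?_
  exact (le_max_left ‖ξ'.2.1‖ ‖ξ'.2.2‖).trans (le_max_right ‖ξ'.1‖ ‖ξ'.2‖)

omit [FiniteDimensional ℝ W] in
theorem prolG_apply_fst (𝒜 : Jet W V → W →L[ℝ] V) (ℬ : Jet W V → V) (𝒶 : Jet W V → W →L[ℝ] W) (ξ : Jet W V) (η : W) :
    (prolG 𝒜 ℬ 𝒶 ξ η).1 = 𝒜 ξ η - ξ.2.2 (𝒶 ξ η) := by
  rfl

omit [FiniteDimensional ℝ W] in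
theorem prolG_apply_snd (𝒜 : Jet W V → W →L[ℝ] V) (ℬ : Jet W V → V) (𝒶 : Jet W V → W →L[ℝ] W) (ξ : Jet W V)
    (η k : W) : (prolG 𝒜 ℬ 𝒶 ξ η).2 k = fderiv ℝ 𝒜 ξ (k, ξ.2.2 k, 0) η - ⟪η, k⟫ • ℬ ξ := by
  rfl

omit [FiniteDimensional ℝ W] in
theorem prolΩ_isOpen {Ω : Set (Jet W V)} (hΩ : IsOpen Ω) (x₀ : W) (r K : ℝ) : IsOpen (prolΩ Ω x₀ r K) := by
  have h1 : IsOpen {ξ' : Jet W (PV W V) | jetPr ξ' ∈ Ω} := hΩ.preimage jetPr.continuous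
  have h2 : IsOpen {ξ' : Jet W (PV W V) | ξ'.1 ∈ ball x₀ r} := isOpen_ball.preimage continuous_fst
  have h3 : IsOpen {ξ' : Jet W (PV W V) | ‖ξ'.2.2‖ < K} := isOpen_lt (by fun_prop) continuous_const
  exact h1.inter (h2.inter h3)

omit [FiniteDimensional ℝ W] in
theorem prolΩ_convex {Ω : Set (Jet W V)} (hΩ : Convex ℝ Ω) (x₀ : W) (r K : ℝ) : Convex ℝ (prolΩ Ω x₀ r K) := by
  have h1 : Convex ℝ {ξ' : Jet W (PV W V) | jetPr ξ' ∈ Ω} := hΩ.linear_preimage jetPr.toLinearMap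
  have h2 : Convex ℝ {ξ' : Jet W (PV W V) | ξ'.1 ∈ ball x₀ r} :=
    (convex_ball x₀ r).linear_preimage (LinearMap.fst ℝ W (PV W V × (W →L[ℝ] PV W V)))
  have h3 : Convex ℝ {ξ' : Jet W (PV W V) | ‖ξ'.2.2‖ < K} := by
    have := (convex_ball (0 : W →L[ℝ] PV W V) K).linear_preimage
      ((LinearMap.snd ℝ (PV W V) (W →L[ℝ] PV W V)).comp (LinearMap.snd ℝ W (PV W V × (W →L[ℝ] PV W V))))
    have e : {ξ' : Jet W (PV W V) | ‖ξ'.2.2‖ < K} = (⇑((LinearMap.snd ℝ (PV W V) (W →L[ℝ] PV W V)).comp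
        (LinearMap.snd ℝ W (PV W V × (W →L[ℝ] PV W V)))) ⁻¹' ball 0 K) := Set.ext fun ξ' => by
      show ‖ξ'.2.2‖ < K ↔ ξ'.2.2 ∈ ball (0 : W →L[ℝ] PV W V) K
      rw [mem_ball_zero_iff]
    rw [e]; exact this
  exact h1.inter (h2.inter h3)

/-- the jet of the prolonged map. -/
theorem jet_prolU {B : Set W} (hB : IsOpen B) {U : W → V} (hU : ContDiffOn ℝ 2 U B) {x : W} (hx : x ∈ B) :
    jet (prolU U) x = (x, (U x, fderiv ℝ U x), (fderiv ℝ U x).prod (fderiv ℝ (fderiv ℝ U) x)) := by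
  have h1 : DifferentiableAt ℝ U x := (hU.contDiffAt (hB.mem_nhds hx)).differentiableAt (by norm_num)
  have h2 : DifferentiableAt ℝ (fderiv ℝ U) x :=
    ((hU.fderiv_of_isOpen hB (m := 1) (by norm_num)).contDiffAt (hB.mem_nhds hx)).differentiableAt (by norm_num)
  have h3 : HasFDerivAt (prolU U) ((fderiv ℝ U x).prod (fderiv ℝ (fderiv ℝ U) x)) x :=
    h1.hasFDerivAt.prodMk h2.hasFDerivAt
  simp only [jet, h3.fderiv, prolU]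

/-- derivative of `𝒜 ∘ jet U`. -/
theorem fderiv_comp_jet {Y : Type u} [NormedAddCommGroup Y] [NormedSpace ℝ Y] {B : Set W} (hB : IsOpen B) {U : W → V}
    (hU : ContDiffOn ℝ 2 U B) {Ω : Set (Jet W V)} (hΩ : IsOpen Ω) {f : Jet W V → Y} (hf : ContDiffOn ℝ 1 f Ω) {x : W}
    (hx : x ∈ B) (hj : jet U x ∈ Ω) (k : W) :
    fderiv ℝ (fun y => f (jet U y)) x k = fderiv ℝ f (jet U x) (k, fderiv ℝ U x k, fderiv ℝ (fderiv ℝ U) x k) := by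
  have h1 : DifferentiableAt ℝ U x := (hU.contDiffAt (hB.mem_nhds hx)).differentiableAt (by norm_num)
  have h2 : DifferentiableAt ℝ (fderiv ℝ U) x :=
    ((hU.fderiv_of_isOpen hB (m := 1) (by norm_num)).contDiffAt (hB.mem_nhds hx)).differentiableAt (by norm_num)
  have h3 : HasFDerivAt (jet U)
      ((ContinuousLinearMap.id ℝ W).prod ((fderiv ℝ U x).prod (fderiv ℝ (fderiv ℝ U) x))) x :=
    (hasFDerivAt_id x).prodMk (h1.hasFDerivAt.prodMk h2.hasFDerivAt)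
  have h4 : HasFDerivAt f (fderiv ℝ f (jet U x)) (jet U x) :=
    ((hf.contDiffAt (hΩ.mem_nhds hj)).differentiableAt (by norm_num)).hasFDerivAt
  have h5 : HasFDerivAt (fun y => f (jet U y)) _ x := h4.comp x h3
  rw [h5.fderiv]
  rfl

/-- **the prolonged flux on the jet of `U'`** (structure condition + symmetry of `D²U`). -/
theorem prolA_jet {B : Set W} (hB : IsOpen B) {U : W → V} (hU : ContDiffOn ℝ 2 U B) {Ω : Set (Jet W V)} (hΩ : IsOpen Ω)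
    {𝒜 : Jet W V → W →L[ℝ] V} {ℬ : Jet W V → V} {𝒶 : Jet W V → W →L[ℝ] W} (hA : ContDiffOn ℝ 1 𝒜 Ω)
    (hstr : ∀ ξ ∈ Ω, ∀ Q' : W →L[ℝ] V, fderiv ℝ 𝒜 ξ (0, 0, Q') = Q' ∘L 𝒶 ξ) {x : W} (hx : x ∈ B) (hj : jet U x ∈ Ω)
    (η : W) :
    (prolA 𝒜 ℬ 𝒶 (jet (prolU U) x) η).1 = 𝒜 (jet U x) η ∧
      ∀ k, (prolA 𝒜 ℬ 𝒶 (jet (prolU U) x) η).2 k
        = fderiv ℝ (fun y => 𝒜 (jet U y)) x k η - ⟪η, k⟫ • ℬ (jet U x) := by
  have hjp : jetPr (jet (prolU U) x) = jet U x := by rw [jet_prolU hB hU hx]; rfl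
  have h22 : (jet (prolU U) x).2.2 = (fderiv ℝ U x).prod (fderiv ℝ (fderiv ℝ U) x) := by
    rw [jet_prolU hB hU hx]
  constructor
  · simp only [prolA, hjp, h22, ContinuousLinearMap.add_apply, Prod.fst_add, prolG_apply_fst]
    simp [jet]
  · intro k
    have hs : fderiv ℝ (fderiv ℝ U) x (𝒶 (jet U x) η) k = fderiv ℝ (fderiv ℝ U) x k (𝒶 (jet U x) η) :=
      ((hU.contDiffAt (hB.mem_nhds hx)).isSymmSndFDerivAt (by simp)) _ _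
    have hd : ((k, fderiv ℝ U x k, fderiv ℝ (fderiv ℝ U) x k) : Jet W V)
        = (k, fderiv ℝ U x k, 0) + (0, 0, fderiv ℝ (fderiv ℝ U) x k) := by simp
    rw [fderiv_comp_jet hB hU hΩ hA hx hj k, hd, map_add, hstr _ hj]
    simp only [prolA, hjp, h22, ContinuousLinearMap.add_apply, Prod.snd_add, prolG_apply_snd]
    have hj22 : (jet U x).2.2 = fderiv ℝ U x := rfl
    simp only [ContinuousLinearMap.comp_apply, ContinuousLinearMap.prod_apply, hs, hj22]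
    abel

/-! helper continuous linear maps: all operations in `prolG` are (bi)linear -/

/-- `(x, z, Q) ↦ Q`. -/
noncomputable def jetQ (W V : Type u) [NormedAddCommGroup W] [InnerProductSpace ℝ W] [NormedAddCommGroup V]
    [NormedSpace ℝ V] : Jet W V →L[ℝ] (W →L[ℝ] V) :=
  (ContinuousLinearMap.snd ℝ V (W →L[ℝ] V)) ∘L (ContinuousLinearMap.snd ℝ W (V × (W →L[ℝ] V)))

/-- `(f, g) ↦ f.prod g`. -/
noncomputable def prolPairL (W V : Type u) [NormedAddCommGroup W] [InnerProductSpace ℝ W] [NormedAddCommGroup V]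
    [NormedSpace ℝ V] : (W →L[ℝ] V) × (W →L[ℝ] W →L[ℝ] V) →L[ℝ] (W →L[ℝ] PV W V) :=
  ((ContinuousLinearMap.prodₗᵢ ℝ : (W →L[ℝ] V) × (W →L[ℝ] W →L[ℝ] V) ≃ₗᵢ[ℝ]
    (W →L[ℝ] V × (W →L[ℝ] V))).toContinuousLinearEquiv : _ →L[ℝ] _)

/-- `flip`. -/
noncomputable def prolFlipL (W V : Type u) [NormedAddCommGroup W] [InnerProductSpace ℝ W] [NormedAddCommGroup V]
    [NormedSpace ℝ V] : (W →L[ℝ] W →L[ℝ] V) →L[ℝ] (W →L[ℝ] W →L[ℝ] V) :=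
  ((ContinuousLinearMap.flipₗᵢ ℝ W W V).toContinuousLinearEquiv : _ →L[ℝ] _)

/-- `Q ↦ (k ↦ (0, Q k, 0))`. -/
noncomputable def prolInL (W V : Type u) [NormedAddCommGroup W] [InnerProductSpace ℝ W] [NormedAddCommGroup V]
    [NormedSpace ℝ V] : (W →L[ℝ] V) →L[ℝ] (W →L[ℝ] Jet W V) :=
  ContinuousLinearMap.compL ℝ W V (Jet W V)
    ((ContinuousLinearMap.inr ℝ W (V × (W →L[ℝ] V))) ∘L (ContinuousLinearMap.inl ℝ V (W →L[ℝ] V)))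

/-- `b ↦ (η ↦ k ↦ ⟪η,k⟫ b)`. -/
noncomputable def prolSmL (W V : Type u) [NormedAddCommGroup W] [InnerProductSpace ℝ W] [NormedAddCommGroup V]
    [NormedSpace ℝ V] : V →L[ℝ] (W →L[ℝ] W →L[ℝ] V) :=
  ((ContinuousLinearMap.compL ℝ W (W →L[ℝ] ℝ) (W →L[ℝ] V)).flip (innerSL ℝ)) ∘L
    (ContinuousLinearMap.smulRightL ℝ W V).flip

omit [FiniteDimensional ℝ W] in
theorem jetIn_eq (Q : W →L[ℝ] V) : jetIn Q = jetIn 0 + prolInL W V Q := by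
  ext k <;> simp [prolInL]

omit [FiniteDimensional ℝ W] in
theorem prolG_eq (𝒜 : Jet W V → W →L[ℝ] V) (ℬ : Jet W V → V) (𝒶 : Jet W V → W →L[ℝ] W) (ξ : Jet W V) :
    prolG 𝒜 ℬ 𝒶 ξ = prolPairL W V (𝒜 ξ - ContinuousLinearMap.compL ℝ W W V (jetQ W V ξ) (𝒶 ξ),
      prolFlipL W V (ContinuousLinearMap.compL ℝ W (Jet W V) (W →L[ℝ] V) (fderiv ℝ 𝒜 ξ)
        (jetIn 0 + prolInL W V (jetQ W V ξ))) - prolSmL W V (ℬ ξ)) := by
  rw [← jetIn_eq]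
  rfl

set_option maxHeartbeats 1600000 in
omit [FiniteDimensional ℝ W] in
theorem prolG_differentiableAt {𝒜 : Jet W V → W →L[ℝ] V} {ℬ : Jet W V → V}
    {𝒶 : Jet W V → W →L[ℝ] W} {ξ : Jet W V} (dA : DifferentiableAt ℝ 𝒜 ξ) (dDA : DifferentiableAt ℝ (fderiv ℝ 𝒜) ξ)
    (dB : DifferentiableAt ℝ ℬ ξ) (da : DifferentiableAt ℝ 𝒶 ξ) : DifferentiableAt ℝ (prolG 𝒜 ℬ 𝒶) ξ := by
  rw [funext (prolG_eq 𝒜 ℬ 𝒶)]
  exact ell_prolabs_diff (X := Jet W V) (YA := W →L[ℝ] V) (Yq := W →L[ℝ] V) (Ya := W →L[ℝ] W)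
    (YD := Jet W V →L[ℝ] W →L[ℝ] V) (YI := W →L[ℝ] Jet W V) (YF' := W →L[ℝ] W →L[ℝ] V)
    (YF := W →L[ℝ] W →L[ℝ] V) (Yb := V) (YP := W →L[ℝ] PV W V) (prolPairL W V)
    (ContinuousLinearMap.compL ℝ W W V) (ContinuousLinearMap.compL ℝ W (Jet W V) (W →L[ℝ] V)) (prolFlipL W V)
    (prolInL W V) (prolSmL W V) (jetIn 0) (jetQ W V) dA da dDA dB

set_option maxHeartbeats 1600000 in
/-- the structure condition of the prolonged system. -/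
theorem prolA_str {Ω : Set (Jet W V)} (hΩ : IsOpen Ω) {𝒜 : Jet W V → W →L[ℝ] V} {ℬ : Jet W V → V}
    {𝒶 : Jet W V → W →L[ℝ] W} (hA : ContDiffOn ℝ 2 𝒜 Ω) (hB : ContDiffOn ℝ 1 ℬ Ω) (ha : ContDiffOn ℝ 1 𝒶 Ω)
    {ξ' : Jet W (PV W V)} (hξ' : jetPr ξ' ∈ Ω) (Q'' : W →L[ℝ] PV W V) :
    fderiv ℝ (prolA 𝒜 ℬ 𝒶) ξ' (0, 0, Q'') = Q'' ∘L prola 𝒶 ξ' := by
  have hΩn := hΩ.mem_nhds hξ'
  have dA : DifferentiableAt ℝ 𝒜 (jetPr ξ') := (hA.contDiffAt hΩn).differentiableAt (by norm_num)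
  have dDA : DifferentiableAt ℝ (fderiv ℝ 𝒜) (jetPr ξ') :=
    ((hA.fderiv_of_isOpen hΩ (m := 1) (by norm_num)).contDiffAt hΩn).differentiableAt (by norm_num)
  have dB : DifferentiableAt ℝ ℬ (jetPr ξ') := (hB.contDiffAt hΩn).differentiableAt (by norm_num)
  have da : DifferentiableAt ℝ 𝒶 (jetPr ξ') := (ha.contDiffAt hΩn).differentiableAt (by norm_num)
  have dG := prolG_differentiableAt dA dDA dB da
  exact ell_prolabs_str (X' := Jet W (PV W V)) (X := Jet W V) (Ys := W →L[ℝ] PV W V) (Ya := W →L[ℝ] W)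
    (YP := W →L[ℝ] PV W V) jetPr (jetQ W (PV W V)) (ContinuousLinearMap.compL ℝ W W (PV W V)) da dG
    (v := ((0 : W), (0 : PV W V), Q'')) rfl

/-! ### B. bounds of the prolonged structure functions -/

set_option maxHeartbeats 3200000 in
/-- the new bounds depend only on the old bounds, on `K` (bound of `Q` on `Ω`) and on `K''` (bound of `Q'`). -/
theorem ell_prol_cb (W V : Type u) [NormedAddCommGroup W] [InnerProductSpace ℝ W] [FiniteDimensional ℝ W]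
    [NormedAddCommGroup V] [NormedSpace ℝ V] (Λ : ℕ → ℝ) (K K'' : ℝ) :
    ∃ Λ' : ℕ → ℝ, ∀ (Ω : Set (Jet W V)) (x₀ : W) (r : ℝ) (𝒜 : Jet W V → W →L[ℝ] V) (ℬ : Jet W V → V)
      (𝒶 : Jet W V → W →L[ℝ] W), IsOpen Ω → (∀ ξ ∈ Ω, ‖ξ.2.2‖ ≤ K) → CbLe Λ Ω 𝒜 → CbLe Λ Ω ℬ → CbLe Λ Ω 𝒶 →
      CbLe Λ' (prolΩ Ω x₀ r K'') (prolA 𝒜 ℬ 𝒶) ∧ CbLe Λ' (prolΩ Ω x₀ r K'') (prolB ℬ) ∧
        CbLe Λ' (prolΩ Ω x₀ r K'') (prola 𝒶) := by
  obtain ⟨ΛG, hG⟩ := ell_prolabs_cbG (X := Jet W V) (YA := W →L[ℝ] V) (Yq := W →L[ℝ] V) (Ya := W →L[ℝ] W)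
    (YD := Jet W V →L[ℝ] W →L[ℝ] V) (YI := W →L[ℝ] Jet W V) (YF' := W →L[ℝ] W →L[ℝ] V)
    (YF := W →L[ℝ] W →L[ℝ] V) (Yb := V) (YP := W →L[ℝ] PV W V) (prolPairL W V)
    (ContinuousLinearMap.compL ℝ W W V) (ContinuousLinearMap.compL ℝ W (Jet W V) (W →L[ℝ] V)) (prolFlipL W V)
    (prolInL W V) (prolSmL W V) (jetIn 0) (jetQ W V) Λ Λ (fun j => Λ (j + 1)) Λ K
  obtain ⟨ΛA', hA'⟩ := ell_prolabs_cbA (X' := Jet W (PV W V)) (X := Jet W V) (Ys := W →L[ℝ] PV W V)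
    (Ya := W →L[ℝ] W) (YP := W →L[ℝ] PV W V) jetPr (jetQ W (PV W V))
    (ContinuousLinearMap.compL ℝ W W (PV W V)) Λ ΛG K''
  obtain ⟨ΛB', hB'⟩ := ell_prolabs_cbB (X' := Jet W (PV W V)) (X := Jet W V) (Yb := V) (YF := W →L[ℝ] V) jetPr Λ
  refine ⟨fun j => max (ΛA' j) (max (ΛB' j) (Λ j * ‖(jetPr : Jet W (PV W V) →L[ℝ] Jet W V)‖ ^ j)), ?_⟩
  intro Ω x₀ r 𝒜 ℬ 𝒶 hΩ hK hA hB ha
  have hΩ' := prolΩ_isOpen hΩ x₀ r K''
  have hπ : Set.MapsTo (jetPr : Jet W (PV W V) →L[ℝ] Jet W V) (prolΩ Ω x₀ r K'') Ω := fun ξ' h => h.1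
  have cG : CbLe ΛG Ω (prolG 𝒜 ℬ 𝒶) := by
    rw [funext (prolG_eq 𝒜 ℬ 𝒶)]
    exact hG Ω 𝒜 𝒶 (fderiv ℝ 𝒜) ℬ hΩ hK hA ha (hA.fd hΩ) hB
  exact ⟨(hA' Ω _ 𝒶 _ hΩ hΩ' hπ (fun ζ h => h.2.2.le) ha cG).mono subset_rfl (fun j => le_max_left _ _),
    (hB' Ω _ ℬ hΩ hΩ' hπ hB).mono subset_rfl (fun j => (le_max_left _ _).trans (le_max_right _ _)),
    (ha.comp_clm hΩ hΩ' jetPr hπ).mono subset_rfl (fun j => (le_max_right _ _).trans (le_max_right _ _))⟩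

/-! ### C. the prolonged weak system -/

variable [MeasurableSpace W] [BorelSpace W] [FiniteDimensional ℝ V]

theorem IsTest.dd_test {B : Set W} {φ : W → ℝ} (hφ : IsTest B φ) (k : W) : IsTest B (dd k φ) := by
  exact ⟨(hφ.1.fderiv_right (m := ∞) (by simp)).clm_apply contDiff_const, hφ.2.1.fderiv_apply ℝ k,
    (tsupport_fderiv_apply_subset ℝ k).trans hφ.2.2⟩

/-- `∂_k ∇φ = ∇ ∂_k φ`. -/
theorem ell_prol_grad_lineDeriv {φ : W → ℝ} (hφ : ContDiff ℝ ∞ φ) (x k : W) :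
    HasLineDerivAt ℝ (fun y => ∇ φ y) (∇ (dd k φ) x) x k := by
  have h1 : HasFDerivAt (fderiv ℝ φ) (fderiv ℝ (fderiv ℝ φ) x) x :=
    ((hφ.fderiv_right (m := 1) (by norm_cast)).differentiable (by norm_num) x).hasFDerivAt
  obtain ⟨T, hT⟩ : ∃ T : (W →L[ℝ] ℝ) →L[ℝ] W, ∀ f, T f = (InnerProductSpace.toDual ℝ W).symm f :=
    ⟨LinearMap.toContinuousLinearMap
      { toFun := fun f => (InnerProductSpace.toDual ℝ W).symm f
        map_add' := fun f g => map_add _ f g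
        map_smul' := fun c f => by simp }, fun f => rfl⟩
  have h2 : HasFDerivAt (fun y => ∇ φ y) (T ∘L (fderiv ℝ (fderiv ℝ φ) x)) x := by
    have := T.hasFDerivAt.comp x h1
    refine this.congr_of_eventuallyEq (Eventually.of_forall fun y => ?_)
    simp only [gradient, Function.comp, hT]
  have h3 : HasFDerivAt (dd k φ) ((fderiv ℝ (fderiv ℝ φ) x).flip k) x := by
    have := h1.clm_apply (hasFDerivAt_const k x)
    refine this.congr_fderiv ?_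
    ext w
    simp
  have h4 : ∇ (dd k φ) x = (InnerProductSpace.toDual ℝ W).symm (fderiv ℝ (fderiv ℝ φ) x k) := by
    rw [gradient, h3.fderiv]
    congr 1
    ext w
    exact ((hφ.contDiffAt (x := x)).isSymmSndFDerivAt
      (by simp only [minSmoothness_of_isRCLikeNormedField]; norm_cast)) _ _
  rw [h4, ← hT]
  exact h2.hasLineDerivAt k

/-- integration by parts for operator valued `C¹` maps against `∇φ`. -/
theorem ell_ibp_clm {B : Set W} (hB : IsOpen B) {G : W → W →L[ℝ] V} (hG : ContDiffOn ℝ 1 G B) {φ : W → ℝ}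
    (hφ : IsTest B φ) (k : W) : ∫ x, G x (∇ (dd k φ) x) = - ∫ x, fderiv ℝ G x k (∇ φ x) := by
  have hsupp : tsupport (fun x => ∇ φ x) ⊆ tsupport φ :=
    closure_minimal (fun x hx => by
      by_contra hcon
      exact hx (ell_sys_gradient_zero_off hcon)) (isClosed_tsupport φ)
  have hG' : ContinuousOn (fun x => fderiv ℝ G x k) B :=
    (hG.continuousOn_fderiv_of_isOpen hB le_rfl).clm_apply continuousOn_const
  exact integral_bilinear_hasLineDerivAt_right_eq_neg_left_of_integrable (μ := (volume : Measure W))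
    (f := G) (f' := fun x => fderiv ℝ G x k) (g := fun x => ∇ φ x) (g' := fun x => ∇ (dd k φ) x) (v := k)
    (B := ContinuousLinearMap.id ℝ (W →L[ℝ] V))
    (ell_sys_integrable_clm_test hB hG' hφ)
    (ell_sys_integrable_clm_test hB hG.continuousOn (hφ.dd_test k))
    (ell_sys_integrable_clm_test hB hG.continuousOn hφ)
    (fun x hx => ((hG.contDiffAt (hB.mem_nhds (hφ.2.2 (hsupp hx)))).differentiableAt
      (by norm_num)).hasFDerivAt.hasLineDerivAt k)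
    (fun x _ => ell_prol_grad_lineDeriv hφ.1 x k)

theorem ell_prol_integrable_smul {B : Set W} (hB : IsOpen B) {β : W → V} (hβ : ContinuousOn β B) {φ : W → ℝ}
    (hφ : IsTest B φ) : Integrable (fun x => φ x • β x) := by
  have hc : Continuous (fun x => φ x • β x) :=
    ell_sys_continuous_of_zero_off hB (isClosed_tsupport φ) hφ.2.2 (hφ.1.continuous.continuousOn.smul hβ)
      (fun x hx => by rw [image_eq_zero_of_notMem_tsupport hx, zero_smul])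
  exact hc.integrable_of_hasCompactSupport hφ.2.1.smul_right

/-- **the prolonged map solves the prolonged system**. -/
theorem ell_prol_weak {B : Set W} (hB : IsOpen B) {U : W → V} (hU : ContDiffOn ℝ 2 U B) {Ω : Set (Jet W V)}
    (hΩ : IsOpen Ω) {𝒜 : Jet W V → W →L[ℝ] V} {ℬ : Jet W V → V} {𝒶 : Jet W V → W →L[ℝ] W}
    (hA : ContDiffOn ℝ 1 𝒜 Ω) (hBc : ContinuousOn ℬ Ω)
    (hstr : ∀ ξ ∈ Ω, ∀ Q' : W →L[ℝ] V, fderiv ℝ 𝒜 ξ (0, 0, Q') = Q' ∘L 𝒶 ξ) (hj : ∀ x ∈ B, jet U x ∈ Ω)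
    (hw : WeakSys B 𝒜 ℬ U) : WeakSys B (prolA 𝒜 ℬ 𝒶) (prolB ℬ) (prolU U) := by
  intro φ hφ
  haveI : CompleteSpace V := FiniteDimensional.complete ℝ V
  have hjc : ContDiffOn ℝ 1 (jet U) B :=
    contDiffOn_id.prodMk ((hU.of_le (by norm_num)).prodMk (hU.fderiv_of_isOpen hB (m := 1) (by norm_num)))
  have hG : ContDiffOn ℝ 1 (fun x => 𝒜 (jet U x)) B := hA.comp hjc hj
  have hβ : ContinuousOn (fun x => ℬ (jet U x)) B := hBc.comp hjc.continuousOn hj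
  have hT : ContinuousOn (fun x => prolFlipL W V (fderiv ℝ (fun y => 𝒜 (jet U y)) x)
      - prolSmL W V (ℬ (jet U x))) B :=
    ((prolFlipL W V).continuous.comp_continuousOn (hG.continuousOn_fderiv_of_isOpen hB le_rfl)).sub
      ((prolSmL W V).continuous.comp_continuousOn hβ)
  have e1 : ∀ x, prolA 𝒜 ℬ 𝒶 (jet (prolU U) x) (∇ φ x) = (𝒜 (jet U x) (∇ φ x),
      (prolFlipL W V (fderiv ℝ (fun y => 𝒜 (jet U y)) x) - prolSmL W V (ℬ (jet U x))) (∇ φ x)) := fun x => by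
    by_cases hx : x ∈ tsupport φ
    · have hxB := hφ.2.2 hx
      obtain ⟨h1, h2⟩ := prolA_jet (ℬ := ℬ) hB hU hΩ hA hstr hxB (hj x hxB) (∇ φ x)
      refine Prod.ext h1 (ContinuousLinearMap.ext fun k => ?_)
      rw [h2 k]; rfl
    · rw [ell_sys_gradient_zero_off hx, map_zero, map_zero, map_zero]; rfl
  have e2 : ∀ x, φ x • prolB ℬ (jet (prolU U) x) = (φ x • ℬ (jet U x), (0 : W →L[ℝ] V)) := fun x => by
    show φ x • ((ℬ (jet U x), 0) : PV W V) = _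
    rw [Prod.smul_mk, smul_zero]
  simp only [e1, e2]
  have i1 := ell_sys_integrable_clm_test hB hG.continuousOn hφ
  have i2 := ell_sys_integrable_clm_test (V := W →L[ℝ] V) hB hT hφ
  have j1 := ell_prol_integrable_smul hB hβ hφ
  refine ell_prolabs_pair (X := W) (YA := V) (YF := W →L[ℝ] V) i1 i2 j1 (hw φ hφ) ?_
  ext k
  rw [ContinuousLinearMap.integral_apply i2 k]
  have e3 : ∀ x, (prolFlipL W V (fderiv ℝ (fun y => 𝒜 (jet U y)) x) - prolSmL W V (ℬ (jet U x))) (∇ φ x) k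
      = fderiv ℝ (fun y => 𝒜 (jet U y)) x k (∇ φ x) - dd k φ x • ℬ (jet U x) := fun x => by
    rw [ell_dd_eq_inner]; rfl
  simp only [e3]
  have hG' : ContinuousOn (fun x => fderiv ℝ (fun y => 𝒜 (jet U y)) x k) B :=
    (hG.continuousOn_fderiv_of_isOpen hB le_rfl).clm_apply continuousOn_const
  rw [integral_sub (ell_sys_integrable_clm_test hB hG' hφ) (ell_prol_integrable_smul hB hβ (hφ.dd_test k))]
  have hb := ell_ibp_clm hB hG hφ k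
  have hbc := hw _ (hφ.dd_test k)
  have ha : ∫ x, fderiv ℝ (fun y => 𝒜 (jet U y)) x k (∇ φ x) = - ∫ x, 𝒜 (jet U x) (∇ (dd k φ) x) := by
    rw [hb, neg_neg]
  rw [ha, ← neg_add', hbc, neg_zero]
  rfl

/-! ### D. the induction step -/

/-- the hypotheses of the smoothness theorem: as `SysData`, with bounds on ALL derivatives of the structure functions. -/
structure SysInf (α lam : ℝ) (Λ : ℕ → ℝ) (K : ℝ) (Ω : Set (Jet W V)) (x₀ : W) (R : ℝ) (𝒜 : Jet W V → W →L[ℝ] V)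
    (ℬ : Jet W V → V) (𝒶 : Jet W V → W →L[ℝ] W) (U : W → V) : Prop where
  Ω_open : IsOpen Ω
  Ω_convex : Convex ℝ Ω
  Ω_bd : ∀ ξ ∈ Ω, ‖ξ.2.2‖ ≤ K
  A_cb : CbLe Λ Ω 𝒜
  B_cb : CbLe Λ Ω ℬ
  a_cb : CbLe Λ Ω 𝒶
  a_sym : ∀ ξ ∈ Ω, ∀ η ζ : W, ⟪𝒶 ξ η, ζ⟫ = ⟪η, 𝒶 ξ ζ⟫
  a_pos : ∀ ξ ∈ Ω, ∀ η : W, lam * ‖η‖ ^ 2 ≤ ⟪𝒶 ξ η, η⟫
  str : ∀ ξ ∈ Ω, ∀ Q' : W →L[ℝ] V, fderiv ℝ 𝒜 ξ (0, 0, Q') = Q' ∘L 𝒶 ξ
  U_c1 : ContDiffOn ℝ 1 U (ball x₀ R)
  U_jet : ∀ x ∈ ball x₀ R, jet U x ∈ Ω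
  U_hol : HolOn α K (ball x₀ R) (fderiv ℝ U)
  weak : WeakSys (ball x₀ R) 𝒜 ℬ U

theorem SysInf.toData {α lam K R : ℝ} {Λ : ℕ → ℝ} {Ω : Set (Jet W V)} {x₀ : W} {𝒜 : Jet W V → W →L[ℝ] V}
    {ℬ : Jet W V → V} {𝒶 : Jet W V → W →L[ℝ] W} {U : W → V} (H : SysInf α lam Λ K Ω x₀ R 𝒜 ℬ 𝒶 U) :
    SysData α lam (max lam (max (Λ 0) (max (Λ 1) (Λ 2)))) K Ω x₀ R 𝒜 ℬ 𝒶 U := by
  have h0 : Λ 0 ≤ max lam (max (Λ 0) (max (Λ 1) (Λ 2))) := (le_max_left _ _).trans (le_max_right _ _)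
  have h1 : Λ 1 ≤ max lam (max (Λ 0) (max (Λ 1) (Λ 2))) :=
    ((le_max_left _ _).trans (le_max_right _ _)).trans (le_max_right _ _)
  have h2 : Λ 2 ≤ max lam (max (Λ 0) (max (Λ 1) (Λ 2))) :=
    ((le_max_right _ _).trans (le_max_right _ _)).trans (le_max_right _ _)
  exact
    { Ω_open := H.Ω_open
      Ω_convex := H.Ω_convex
      Ω_bd := H.Ω_bd
      A_c2 := H.A_cb.c2Le H.Ω_open h0 h1 h2
      B_c2 := H.B_cb.c2Le H.Ω_open h0 h1 h2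
      a_c2 := H.a_cb.c2Le H.Ω_open h0 h1 h2
      a_ell := fun ξ hξ => ⟨H.a_sym ξ hξ, H.a_pos ξ hξ, by
        have := H.a_cb.bd 0 ξ hξ
        rw [norm_iteratedFDeriv_zero] at this
        exact this.trans h0⟩
      str := H.str
      U_c1 := H.U_c1
      U_jet := H.U_jet
      U_hol := H.U_hol
      weak := H.weak }

theorem ell_prol_norm_prod_sub {E F G : Type u} [NormedAddCommGroup E] [NormedSpace ℝ E] [NormedAddCommGroup F]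
    [NormedSpace ℝ F] [NormedAddCommGroup G] [NormedSpace ℝ G] (f f' : E →L[ℝ] F) (g g' : E →L[ℝ] G) :
    ‖f.prod g - f'.prod g'‖ = max ‖f - f'‖ ‖g - g'‖ := by
  have : f.prod g - f'.prod g' = (f - f').prod (g - g') := rfl
  rw [this, ContinuousLinearMap.opNorm_prod]; rfl

/-- **prolongation**: `K''`, `Λ'` depend only on the constants. -/
theorem ell_sys_prolong (W V : Type u) [NormedAddCommGroup W] [InnerProductSpace ℝ W] [FiniteDimensional ℝ W]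
    [MeasurableSpace W] [BorelSpace W] [NormedAddCommGroup V] [NormedSpace ℝ V] [FiniteDimensional ℝ V]
    {α lam K r R : ℝ} (Λ : ℕ → ℝ) (hα : 0 < α) (hα1 : α < 1) (hlam : 0 < lam) (hr : 0 < r) (hrR : r < R) :
    ∃ (K'' : ℝ) (Λ' : ℕ → ℝ), ∀ (Ω : Set (Jet W V)) (x₀ : W) (𝒜 : Jet W V → W →L[ℝ] V) (ℬ : Jet W V → V)
      (𝒶 : Jet W V → W →L[ℝ] W) (U : W → V), SysInf α lam Λ K Ω x₀ R 𝒜 ℬ 𝒶 U →
      ContDiffOn ℝ 2 U (ball x₀ r) ∧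
      SysInf α lam Λ' K'' (prolΩ Ω x₀ r K'') x₀ r (prolA 𝒜 ℬ 𝒶) (prolB ℬ) (prola 𝒶) (prolU U) := by
  obtain ⟨K', hK'0, Hstep⟩ := ell_sys_step W V (α := α) (lam := lam)
    (Lam := max lam (max (Λ 0) (max (Λ 1) (Λ 2)))) (K := K) (r := r) (R := R) hα hα1 hlam (le_max_left _ _) hr hrR
  obtain ⟨Λ', HΛ⟩ := ell_prol_cb W V Λ K (max K K' + 1)
  refine ⟨max K K' + 1, Λ', ?_⟩
  intro Ω x₀ 𝒜 ℬ 𝒶 U H
  obtain ⟨h1, h2, h3⟩ := Hstep Ω x₀ 𝒜 ℬ 𝒶 U H.toData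
  have hsub : ball x₀ r ⊆ ball x₀ R := ball_subset_ball hrR.le
  have hU1 : ContDiffOn ℝ 1 U (ball x₀ r) := H.U_c1.mono hsub
  have hU2 : ContDiffOn ℝ 2 U (ball x₀ r) := by
    rw [show (2 : WithTop ℕ∞) = 1 + 1 by norm_num, contDiffOn_succ_iff_fderiv_of_isOpen isOpen_ball]
    exact ⟨hU1.differentiableOn one_ne_zero, by simp, h1⟩
  obtain ⟨cA, cB, ca⟩ := HΛ Ω x₀ r 𝒜 ℬ 𝒶 H.Ω_open H.Ω_bd H.A_cb H.B_cb H.a_cb
  have hfd : ∀ x ∈ ball x₀ r, fderiv ℝ (prolU U) x = (fderiv ℝ U x).prod (fderiv ℝ (fderiv ℝ U) x) :=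
    fun x hx => congrArg (fun ξ : Jet W (PV W V) => ξ.2.2) (jet_prolU isOpen_ball hU2 hx)
  have hKK : max K K' < max K K' + 1 := by linarith
  refine ⟨hU2, ?_⟩
  exact
    { Ω_open := prolΩ_isOpen H.Ω_open _ _ _
      Ω_convex := prolΩ_convex H.Ω_convex _ _ _
      Ω_bd := fun ξ' h => h.2.2.le
      A_cb := cA
      B_cb := cB
      a_cb := ca
      a_sym := fun ξ' h => H.a_sym _ h.1
      a_pos := fun ξ' h => H.a_pos _ h.1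
      str := fun ξ' h Q'' => prolA_str H.Ω_open (H.A_cb.smooth.of_le (by norm_cast))
        (H.B_cb.smooth.of_le (by norm_cast)) (H.a_cb.smooth.of_le (by norm_cast)) h.1 Q''
      U_c1 := hU1.prodMk h1
      U_jet := fun x hx => ⟨H.U_jet x (hsub hx), hx, by
        show ‖fderiv ℝ (prolU U) x‖ < _
        rw [hfd x hx, ContinuousLinearMap.opNorm_prod]
        exact (max_le_max (H.Ω_bd _ (H.U_jet x (hsub hx))) (h2 x hx)).trans_lt hKK⟩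
      U_hol := fun x hx y hy => by
        rw [hfd x hx, hfd y hy, ell_prol_norm_prod_sub]
        have hp : 0 ≤ ‖x - y‖ ^ α := Real.rpow_nonneg (norm_nonneg _) _
        refine max_le ((H.U_hol x (hsub hx) y (hsub hy)).trans (mul_le_mul_of_nonneg_right ?_ hp))
          ((h3 x hx y hy).trans (mul_le_mul_of_nonneg_right ?_ hp))
        · exact (le_max_left _ _).trans hKK.le
        · exact (le_max_right _ _).trans hKK.le
      weak := ell_prol_weak isOpen_ball hU2 H.Ω_open (H.A_cb.smooth.of_le (by norm_cast))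
        H.B_cb.smooth.continuousOn H.str (fun x hx => H.U_jet x (hsub hx))
        (fun φ hφ => H.weak φ (hφ.mono hsub)) }

end Claimed.Agent.Lib.Ell
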