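/-
Lib/Ell, package L-ell-systop (architect helper232): SMOOTHNESS OF `C^{1,α}` WEAK SOLUTIONS of systems with scalar principal part, with
UNIFORM bounds of all derivatives; convergence lemma.

`ell_sys_smooth`: induction on `k`, GENERALISING the value space `V`:  step `k → k+1`: `r' = (r+R)/2`, `ell_sys_prolong` on `ball x₀ r'`,
induction hypothesis for `V' = PV W V`, `U' = prolU U` on `r < r'`;  `DU = snd ∘ U'`, `‖D^{j+1}U‖ = ‖D^j(DU)‖ ≤ ‖D^j U'‖`
(`norm_iteratedFDeriv_fderiv`, `ContinuousLinearMap.iteratedFDeriv_comp_left`, on the open ball via `iteratedFDerivWithin_of_isOpen`).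
-/
import Claimed.Agent.Lib.Ell.Prolong

set_option autoImplicit false

namespace Claimed.Agent.Lib.Ell

open MeasureTheory Metric Filter
open scoped ContDiff RealInnerProductSpace Gradient Topology

universe u

/-- **uniform `C^{k+1}` bounds**. -/
theorem ell_sys_smooth (W : Type u) [NormedAddCommGroup W] [InnerProductSpace ℝ W] [FiniteDimensional ℝ W]
    [MeasurableSpace W] [BorelSpace W] (k : ℕ) :
    ∀ (V : Type u) [NormedAddCommGroup V] [NormedSpace ℝ V] [FiniteDimensional ℝ V] (α lam K r R : ℝ) (Λ : ℕ → ℝ),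
      0 < α → α < 1 → 0 < lam → 0 < r → r < R →
      ∃ C : ℝ, ∀ (Ω : Set (Jet W V)) (x₀ : W) (𝒜 : Jet W V → W →L[ℝ] V) (ℬ : Jet W V → V)
        (𝒶 : Jet W V → W →L[ℝ] W) (U : W → V), SysInf α lam Λ K Ω x₀ R 𝒜 ℬ 𝒶 U →
        ContDiffOn ℝ (k + 1 : ℕ) U (ball x₀ r) ∧
          ∀ j : ℕ, 1 ≤ j → j ≤ k + 1 → ∀ x ∈ ball x₀ r, ‖iteratedFDeriv ℝ j U x‖ ≤ C := by
  induction k with
  | zero =>
    intro V _ _ _ α lam K r R Λ hα hα1 hlam hr hrR
    refine ⟨K, fun Ω x₀ 𝒜 ℬ 𝒶 U H => ⟨?_, ?_⟩⟩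
    · simpa using H.U_c1.mono (ball_subset_ball hrR.le)
    · intro j hj1 hj2 x hx
      obtain rfl : j = 1 := by omega
      rw [norm_iteratedFDeriv_one]
      exact H.Ω_bd _ (H.U_jet x (ball_subset_ball hrR.le hx))
  | succ k ih =>
    intro V _ _ _ α lam K r R Λ hα hα1 hlam hr hrR
    have hr' : r < (r + R) / 2 := by linarith
    have hr'R : (r + R) / 2 < R := by linarith
    obtain ⟨K'', Λ', hP⟩ := ell_sys_prolong W V (K := K) (r := (r + R) / 2) (R := R) Λ hα hα1 hlam (by linarith) hr'R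
    obtain ⟨C', hC'⟩ := ih (PV W V) α lam K'' r ((r + R) / 2) Λ' hα hα1 hlam hr hr'
    refine ⟨max K C', fun Ω x₀ 𝒜 ℬ 𝒶 U H => ?_⟩
    obtain ⟨hU2, H'⟩ := hP Ω x₀ 𝒜 ℬ 𝒶 U H
    obtain ⟨hc, hbd⟩ := hC' _ x₀ _ _ _ _ H'
    have hsnd : fderiv ℝ U = fun x => (ContinuousLinearMap.snd ℝ V (W →L[ℝ] V)) (prolU U x) := by
      funext x; rfl
    have hcd : ContDiffOn ℝ (k + 1 : ℕ) (fderiv ℝ U) (ball x₀ r) := by
      rw [hsnd]
      exact (ContinuousLinearMap.snd ℝ V (W →L[ℝ] V)).contDiff.comp_contDiffOn hc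
    refine ⟨?_, ?_⟩
    · rw [Nat.cast_succ, contDiffOn_succ_iff_fderiv_of_isOpen isOpen_ball]
      refine ⟨?_, by simp, hcd⟩
      exact (H.U_c1.mono (ball_subset_ball hrR.le)).differentiableOn (by simp)
    · intro j hj1 hj2 x hx
      rcases Nat.lt_or_ge 1 j with hj | hj
      · obtain ⟨i, rfl⟩ : ∃ i, j = i + 1 := ⟨j - 1, by omega⟩
        rw [← norm_iteratedFDeriv_fderiv, hsnd]
        have hat : ContDiffAt ℝ i (prolU U) x :=
          (hc.contDiffAt (isOpen_ball.mem_nhds hx)).of_le (by exact_mod_cast (by omega : i ≤ k + 1))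
        have h1 := (ContinuousLinearMap.snd ℝ V (W →L[ℝ] V)).norm_iteratedFDeriv_comp_left hat le_rfl
        refine h1.trans ?_
        have h2 := hbd i (by omega) (by omega) x hx
        have h3 : ‖ContinuousLinearMap.snd ℝ V (W →L[ℝ] V)‖ ≤ 1 := ContinuousLinearMap.norm_snd_le _ _ _
        calc _ ≤ 1 * ‖iteratedFDeriv ℝ i (prolU U) x‖ := by gcongr
          _ ≤ C' := by rw [one_mul]; exact h2
          _ ≤ _ := le_max_right _ _
      · obtain rfl : j = 1 := by omega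
        rw [norm_iteratedFDeriv_one]
        exact (H.Ω_bd _ (H.U_jet x (ball_subset_ball hrR.le hx))).trans (le_max_left _ _)

variable {W : Type u} [NormedAddCommGroup W] [InnerProductSpace ℝ W] [FiniteDimensional ℝ W]
  [MeasurableSpace W] [BorelSpace W]
variable {V : Type u} [NormedAddCommGroup V] [NormedSpace ℝ V] [FiniteDimensional ℝ V]

/-- **smoothness**. -/
theorem SysInf.contDiffOn {α lam K R : ℝ} {Λ : ℕ → ℝ} {Ω : Set (Jet W V)} {x₀ : W} {𝒜 : Jet W V → W →L[ℝ] V}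
    {ℬ : Jet W V → V} {𝒶 : Jet W V → W →L[ℝ] W} {U : W → V} (hα : 0 < α) (hα1 : α < 1) (hlam : 0 < lam)
    (H : SysInf α lam Λ K Ω x₀ R 𝒜 ℬ 𝒶 U) : ContDiffOn ℝ ∞ U (ball x₀ R) := by
  rw [contDiffOn_infty]
  intro k x hx
  rw [mem_ball] at hx
  have hd : 0 ≤ dist x x₀ := dist_nonneg
  set r := (dist x x₀ + R) / 2 with hr
  have hr0 : 0 < r := by rw [hr]; linarith
  have hrR : r < R := by rw [hr]; linarith
  have hxr : x ∈ ball x₀ r := by rw [mem_ball, hr]; linarith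
  obtain ⟨C, hC⟩ := ell_sys_smooth W k V α lam K r R Λ hα hα1 hlam hr0 hrR
  obtain ⟨h1, -⟩ := hC Ω x₀ 𝒜 ℬ 𝒶 U H
  exact ((h1.contDiffAt (isOpen_ball.mem_nhds hxr)).of_le (by exact_mod_cast Nat.le_succ k)).contDiffWithinAt

/-- one step of the convergence lemma: the derivatives satisfy the same hypotheses. -/
theorem ell_conv_step {W : Type u} [NormedAddCommGroup W] [InnerProductSpace ℝ W] [FiniteDimensional ℝ W]
    {V : Type u} [NormedAddCommGroup V] [NormedSpace ℝ V] [FiniteDimensional ℝ V]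
    {x₀ : W} {R : ℝ} {un : ℕ → W → V} {u : W → V} (hs : ∀ n, ContDiffOn ℝ ∞ (un n) (ball x₀ R))
    (hb : ∀ k : ℕ, ∃ C : ℝ, ∀ n, ∀ x ∈ ball x₀ R, ‖iteratedFDeriv ℝ k (un n) x‖ ≤ C)
    (hlim : ∀ x ∈ ball x₀ R, Tendsto (fun n => un n x) atTop (𝓝 (u x))) :
    DifferentiableOn ℝ u (ball x₀ R) ∧ (∀ n, ContDiffOn ℝ ∞ (fderiv ℝ (un n)) (ball x₀ R)) ∧
      (∀ k : ℕ, ∃ C : ℝ, ∀ n, ∀ x ∈ ball x₀ R, ‖iteratedFDeriv ℝ k (fderiv ℝ (un n)) x‖ ≤ C) ∧
      (∀ x ∈ ball x₀ R, Tendsto (fun n => fderiv ℝ (un n) x) atTop (𝓝 (fderiv ℝ u x))) := by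
  have hB : IsOpen (ball x₀ R) := isOpen_ball
  have hs' : ∀ n, ContDiffOn ℝ ∞ (fderiv ℝ (un n)) (ball x₀ R) := fun n =>
    (hs n).fderiv_of_isOpen hB (by simp)
  have hb' : ∀ k : ℕ, ∃ C : ℝ, ∀ n, ∀ x ∈ ball x₀ R, ‖iteratedFDeriv ℝ k (fderiv ℝ (un n)) x‖ ≤ C := by
    intro k
    obtain ⟨C, hC⟩ := hb (k + 1)
    refine ⟨C, fun n x hx => ?_⟩
    rw [norm_iteratedFDeriv_fderiv]
    exact hC n x hx
  obtain ⟨C₁, hC₁⟩ := hb 1
  obtain ⟨C₂, hC₂⟩ := hb' 1
  set K := max C₁ C₂ with hK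
  have h1 : ∀ n, BdOn K (ball x₀ R) (fderiv ℝ (un n)) := by
    intro n x hx
    rw [← norm_iteratedFDeriv_one]
    exact (hC₁ n x hx).trans (le_max_left _ _)
  have h2 : ∀ n, HolOn 1 K (ball x₀ R) (fderiv ℝ (un n)) := by
    intro n
    apply holOn_one_of_fderiv_le (convex_ball x₀ R) hB ((hs' n).differentiableOn (by simp))
    intro x hx
    rw [← norm_iteratedFDeriv_one]
    exact (hC₂ n x hx).trans (le_max_right _ _)
  obtain ⟨d1, -, -, d4⟩ := ell_c1a_limit hB (convex_ball x₀ R) one_pos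
    (fun n => (hs n).differentiableOn (by simp)) h1 h2 hlim
  exact ⟨d1, hs', hb', d4⟩

/-- the limit is of class `C^k`. -/
theorem ell_conv_contDiffOn (W : Type u) [NormedAddCommGroup W] [InnerProductSpace ℝ W] [FiniteDimensional ℝ W]
    (k : ℕ) : ∀ (V : Type u) [NormedAddCommGroup V] [NormedSpace ℝ V] [FiniteDimensional ℝ V]
    (x₀ : W) (R : ℝ) (un : ℕ → W → V) (u : W → V), (∀ n, ContDiffOn ℝ ∞ (un n) (ball x₀ R)) →
    (∀ k : ℕ, ∃ C : ℝ, ∀ n, ∀ x ∈ ball x₀ R, ‖iteratedFDeriv ℝ k (un n) x‖ ≤ C) →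
    (∀ x ∈ ball x₀ R, Tendsto (fun n => un n x) atTop (𝓝 (u x))) → ContDiffOn ℝ k u (ball x₀ R) := by
  induction k with
  | zero =>
    intro V _ _ _ x₀ R un u hs hb hlim
    obtain ⟨d1, -, -, -⟩ := ell_conv_step hs hb hlim
    rw [Nat.cast_zero, contDiffOn_zero]
    exact d1.continuousOn
  | succ k ih =>
    intro V _ _ _ x₀ R un u hs hb hlim
    obtain ⟨d1, d2, d3, d4⟩ := ell_conv_step hs hb hlim
    have := ih (W →L[ℝ] V) x₀ R _ _ d2 d3 d4
    rw [Nat.cast_succ, contDiffOn_succ_iff_fderiv_of_isOpen isOpen_ball]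
    exact ⟨d1, by simp, this⟩

/-- all derivatives converge pointwise. -/
theorem ell_conv_tendsto (W : Type u) [NormedAddCommGroup W] [InnerProductSpace ℝ W] [FiniteDimensional ℝ W]
    (k : ℕ) : ∀ (V : Type u) [NormedAddCommGroup V] [NormedSpace ℝ V] [FiniteDimensional ℝ V]
    (x₀ : W) (R : ℝ) (un : ℕ → W → V) (u : W → V), (∀ n, ContDiffOn ℝ ∞ (un n) (ball x₀ R)) →
    (∀ k : ℕ, ∃ C : ℝ, ∀ n, ∀ x ∈ ball x₀ R, ‖iteratedFDeriv ℝ k (un n) x‖ ≤ C) →
    (∀ x ∈ ball x₀ R, Tendsto (fun n => un n x) atTop (𝓝 (u x))) →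
    ∀ x ∈ ball x₀ R, Tendsto (fun n => iteratedFDeriv ℝ k (un n) x) atTop (𝓝 (iteratedFDeriv ℝ k u x)) := by
  induction k with
  | zero =>
    intro V _ _ _ x₀ R un u hs hb hlim x hx
    simp only [iteratedFDeriv_zero_eq_comp, Function.comp]
    exact ((continuousMultilinearCurryFin0 ℝ W V).symm.continuous.tendsto _).comp (hlim x hx)
  | succ k ih =>
    intro V _ _ _ x₀ R un u hs hb hlim x hx
    obtain ⟨d1, d2, d3, d4⟩ := ell_conv_step hs hb hlim
    have := ih (W →L[ℝ] V) x₀ R _ _ d2 d3 d4 x hx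
    simp only [iteratedFDeriv_succ_eq_comp_right, Function.comp]
    exact ((continuousMultilinearCurryRightEquiv' ℝ k W V).symm.continuous.tendsto _).comp this

/-- equi-Lipschitz + pointwise convergence on a totally bounded set ⟹ uniform convergence. -/
theorem ell_unif_of_lip {X : Type u} [NormedAddCommGroup X] {F : Type u} [NormedAddCommGroup F] {s : Set X}
    (hs : TotallyBounded s) {K : ℝ} {fn : ℕ → X → F} {f : X → F} (h : ∀ n, HolOn 1 K s (fn n))
    (hl : ∀ x ∈ s, Tendsto (fun n => fn n x) atTop (𝓝 (f x))) : TendstoUniformlyOn fn f atTop s := by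
  have hf : HolOn 1 K s f := HolOn.of_tendsto (Eventually.of_forall h) hl
  rw [Metric.tendstoUniformlyOn_iff]
  intro ε hε
  set K' := max K 1 with hK'
  have hK'1 : 0 < K' := lt_of_lt_of_le one_pos (le_max_right _ _)
  obtain ⟨t, hts, htf, hcov⟩ := Metric.finite_approx_of_totallyBounded hs (ε / (3 * K')) (by positivity)
  have hev : ∀ᶠ n in atTop, ∀ y ∈ t, dist (fn n y) (f y) < ε / 3 := by
    rw [eventually_all_finite htf]
    intro y hy
    exact (Metric.tendsto_nhds.1 (hl y (hts hy))) (ε / 3) (by positivity)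
  filter_upwards [hev] with n hn x hx
  obtain ⟨y, hy, hxy⟩ : ∃ y ∈ t, x ∈ ball y (ε / (3 * K')) := by
    have := hcov hx
    simpa using this
  have hd : ‖x - y‖ < ε / (3 * K') := by rwa [mem_ball, dist_eq_norm] at hxy
  have hKd : K * ‖x - y‖ < ε / 3 := by
    calc K * ‖x - y‖ ≤ K' * ‖x - y‖ := by gcongr; exact le_max_left _ _
      _ < K' * (ε / (3 * K')) := by gcongr
      _ = ε / 3 := by field_simp
  have h1 := hf x hx y (hts hy)
  have h2 := h n x hx y (hts hy)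
  rw [Real.rpow_one] at h1 h2
  have h3 := hn y hy
  rw [dist_eq_norm] at h3 ⊢
  calc ‖f x - fn n x‖ = ‖(f x - f y) - (fn n y - f y) - (fn n x - fn n y)‖ := by congr 1; abel
    _ ≤ ‖f x - f y‖ + ‖fn n y - f y‖ + ‖fn n x - fn n y‖ := by
      refine (norm_sub_le _ _).trans ?_
      gcongr
      exact norm_sub_le _ _
    _ < ε := by linarith

omit [MeasurableSpace W] [BorelSpace W] in
/-- **convergence**: uniform bounds of all derivatives + pointwise convergence ⟹ the limit is smooth and all derivatives converge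
uniformly.  (Induction on `k` with `ell_c1a_limit` (`α = 1`) for `w_n = D^k u_n`; `iteratedFDeriv_succ_eq_comp_left`; uniformity: the
ball is totally bounded and the `D^k u_n` are equi-Lipschitz.) -/
theorem ell_smooth_conv {x₀ : W} {R : ℝ} {un : ℕ → W → V} {u : W → V} (hs : ∀ n, ContDiffOn ℝ ∞ (un n) (ball x₀ R))
    (hb : ∀ k : ℕ, ∃ C : ℝ, ∀ n, ∀ x ∈ ball x₀ R, ‖iteratedFDeriv ℝ k (un n) x‖ ≤ C)
    (hlim : ∀ x ∈ ball x₀ R, Tendsto (fun n => un n x) atTop (𝓝 (u x))) :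
    ContDiffOn ℝ ∞ u (ball x₀ R) ∧
      ∀ k : ℕ, TendstoUniformlyOn (fun n x => iteratedFDeriv ℝ k (un n) x) (fun x => iteratedFDeriv ℝ k u x) atTop
        (ball x₀ R) := by
  refine ⟨contDiffOn_infty.2 fun k => ell_conv_contDiffOn W k V x₀ R un u hs hb hlim, fun k => ?_⟩
  obtain ⟨C, hC⟩ := hb (k + 1)
  have htb : TotallyBounded (ball x₀ R) :=
    (isCompact_closedBall x₀ R).totallyBounded.subset ball_subset_closedBall
  refine ell_unif_of_lip htb (K := C) (fun n => ?_) (ell_conv_tendsto W k V x₀ R un u hs hb hlim)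
  apply holOn_one_of_fderiv_le (convex_ball x₀ R) isOpen_ball
  · intro x hx
    have : ContDiffAt ℝ ∞ (un n) x := (hs n).contDiffAt (isOpen_ball.mem_nhds hx)
    exact (this.differentiableAt_iteratedFDeriv (m := k) (by exact_mod_cast WithTop.coe_lt_top _)).differentiableWithinAt
  · intro x hx
    rw [norm_fderiv_iteratedFDeriv]
    exact hC n x hx

end Claimed.Agent.Lib.Ell
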