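/-
Lib/Ell, package L-ell-quasi (architect helper232): SCALAR QUASILINEAR EQUATIONS  `div A(x,u,∇u) = B(x,u,∇u)`  (weak form `WeakQuasi`).
`C^{1,α}` weak solutions are smooth, with bounds of all derivatives depending only on `(W, k, α, lam, K, Kz, Kp, r, R)` and on the bounds `Λ j` of the
derivatives of `A, B` on the box `qbox x₀ R Kz Kp = {x ∈ ball x₀ R, |z| < Kz, ‖p‖ < Kp}`.   So the theorem applies to SEQUENCES of equations.
`K` = Hoelder constant of `Du` (and `Kp ≤ K`, so that `K` also bounds the `p`-range as `SysInf` wants); `Kz, Kp` may be small.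

ADAPTER to the class of file Sys with `V = ℝ`:  `♯ = (InnerProductSpace.toDual ℝ W).symm`,  `T(x,z,Q) = (x,z,Q♯)` (a linear isometry),
`𝒜 ξ = toDual (A (T ξ))`, `ℬ ξ = B (T ξ)`, `𝒶 ξ = ∂_p A (T ξ)`, `Ω = T⁻¹ (qbox)`;  structure condition: symmetry of `∂_p A`.
`jet u x = (x, u x, Du x)`, `T (jet u x) = (x, u x, ∇u x)`.   Here `W : Type` (universe 0) because `V = ℝ`.
-/
import Claimed.Agent.Lib.Ell.SysTop
import Claimed.Agent.Lib.Ell.Hopf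

set_option autoImplicit false

namespace Claimed.Agent.Lib.Ell

open MeasureTheory Metric Filter
open scoped ContDiff RealInnerProductSpace Gradient Topology

variable {W : Type} [NormedAddCommGroup W] [InnerProductSpace ℝ W] [FiniteDimensional ℝ W]

/-- the box of `(x, z, p)`. -/
def qbox (x₀ : W) (R Kz Kp : ℝ) : Set (W × ℝ × W) := {ζ | ζ.1 ∈ ball x₀ R ∧ |ζ.2.1| < Kz ∧ ‖ζ.2.2‖ < Kp}

/-- `∂_p A`. -/
noncomputable def dpA (A : W × ℝ × W → W) (ζ : W × ℝ × W) : W →L[ℝ] W :=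
  (fderiv ℝ A ζ) ∘L ((ContinuousLinearMap.inr ℝ W (ℝ × W)) ∘L (ContinuousLinearMap.inr ℝ ℝ W))

/-- `Q ↦ Q♯` as a continuous linear map. -/
noncomputable def sharpL : (W →L[ℝ] ℝ) →L[ℝ] W :=
  LinearMap.toContinuousLinearMap
    { toFun := fun Q => (InnerProductSpace.toDual ℝ W).symm Q
      map_add' := by intro a b; simp
      map_smul' := by intro c a; simp }

/-- `(x,z,Q) ↦ (x,z,Q♯)`. -/
noncomputable def jetSharp : Jet W ℝ →L[ℝ] W × ℝ × W :=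
  (ContinuousLinearMap.fst ℝ W (ℝ × (W →L[ℝ] ℝ))).prod
    (((ContinuousLinearMap.fst ℝ ℝ (W →L[ℝ] ℝ)).comp (ContinuousLinearMap.snd ℝ W (ℝ × (W →L[ℝ] ℝ)))).prod
      ((sharpL : (W →L[ℝ] ℝ) →L[ℝ] W).comp
        ((ContinuousLinearMap.snd ℝ ℝ (W →L[ℝ] ℝ)).comp (ContinuousLinearMap.snd ℝ W (ℝ × (W →L[ℝ] ℝ))))))

theorem ell_sharpL_apply (Q : W →L[ℝ] ℝ) : sharpL Q = (InnerProductSpace.toDual ℝ W).symm Q := rfl

theorem ell_jetSharp_apply (ξ : Jet W ℝ) :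
    jetSharp ξ = (ξ.1, ξ.2.1, (InnerProductSpace.toDual ℝ W).symm ξ.2.2) := rfl

theorem ell_jetSharp_jet (u : W → ℝ) (x : W) : jetSharp (jet u x) = (x, u x, ∇ u x) := rfl

theorem ell_toDual_eq (v : W) : InnerProductSpace.toDual ℝ W v = innerSL ℝ v := by
  ext w
  simp

theorem ell_qbox_isOpen (x₀ : W) (R Kz Kp : ℝ) : IsOpen (qbox x₀ R Kz Kp) := by
  have h1 : IsOpen {ζ : W × ℝ × W | ζ.1 ∈ ball x₀ R} := isOpen_ball.preimage continuous_fst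
  have h2 : IsOpen {ζ : W × ℝ × W | |ζ.2.1| < Kz} :=
    isOpen_lt (continuous_abs.comp (continuous_fst.comp continuous_snd)) continuous_const
  have h3 : IsOpen {ζ : W × ℝ × W | ‖ζ.2.2‖ < Kp} :=
    isOpen_lt (continuous_norm.comp (continuous_snd.comp continuous_snd)) continuous_const
  exact h1.inter (h2.inter h3)

theorem ell_qbox_convex (x₀ : W) (R Kz Kp : ℝ) : Convex ℝ (qbox x₀ R Kz Kp) := by
  have e : qbox x₀ R Kz Kp = ball x₀ R ×ˢ (ball (0 : ℝ) Kz ×ˢ ball (0 : W) Kp) := by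
    ext ζ
    simp [qbox, Real.norm_eq_abs]
  rw [e]
  exact (convex_ball _ _).prod ((convex_ball _ _).prod (convex_ball _ _))

/-- the inclusion `p ↦ (0,0,p)`. -/
noncomputable def ellInP : W →L[ℝ] W × ℝ × W :=
  (ContinuousLinearMap.inr ℝ W (ℝ × W)) ∘L (ContinuousLinearMap.inr ℝ ℝ W)

theorem ell_dpA_eq (A : W × ℝ × W → W) (ζ : W × ℝ × W) :
    dpA A ζ = (ContinuousLinearMap.compL ℝ W (W × ℝ × W) W).flip ellInP (fderiv ℝ A ζ) := rfl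

variable [MeasurableSpace W] [BorelSpace W]

/-- the hypotheses on a scalar quasilinear problem. -/
structure QuasiData (α lam : ℝ) (Λ : ℕ → ℝ) (K Kz Kp : ℝ) (x₀ : W) (R : ℝ) (A : W × ℝ × W → W) (B : W × ℝ × W → ℝ)
    (u : W → ℝ) : Prop where
  Kp_le : Kp ≤ K
  A_cb : CbLe Λ (qbox x₀ R Kz Kp) A
  B_cb : CbLe Λ (qbox x₀ R Kz Kp) B
  A_sym : ∀ ζ ∈ qbox x₀ R Kz Kp, ∀ η η' : W, ⟪dpA A ζ η, η'⟫ = ⟪η, dpA A ζ η'⟫
  A_pos : ∀ ζ ∈ qbox x₀ R Kz Kp, ∀ η : W, lam * ‖η‖ ^ 2 ≤ ⟪dpA A ζ η, η⟫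
  u_c1 : ContDiffOn ℝ 1 u (ball x₀ R)
  u_box : ∀ x ∈ ball x₀ R, (x, u x, ∇ u x) ∈ qbox x₀ R Kz Kp
  u_hol : HolOn α K (ball x₀ R) (fderiv ℝ u)
  weak : WeakQuasi (ball x₀ R) A B u

/-- the adapter for a general open convex set of `(x,z,p)`. -/
theorem ell_quasi_toSys_gen (Λ : ℕ → ℝ) :
    ∃ Λ' : ℕ → ℝ, ∀ (α lam K R : ℝ) (x₀ : W) (𝒬 : Set (W × ℝ × W)) (A : W × ℝ × W → W) (B : W × ℝ × W → ℝ)
      (u : W → ℝ), IsOpen 𝒬 → Convex ℝ 𝒬 → (∀ ζ ∈ 𝒬, ‖ζ.2.2‖ ≤ K) → CbLe Λ 𝒬 A → CbLe Λ 𝒬 B →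
      (∀ ζ ∈ 𝒬, ∀ η η' : W, ⟪dpA A ζ η, η'⟫ = ⟪η, dpA A ζ η'⟫) →
      (∀ ζ ∈ 𝒬, ∀ η : W, lam * ‖η‖ ^ 2 ≤ ⟪dpA A ζ η, η⟫) → ContDiffOn ℝ 1 u (ball x₀ R) →
      (∀ x ∈ ball x₀ R, (x, u x, ∇ u x) ∈ 𝒬) → HolOn α K (ball x₀ R) (fderiv ℝ u) →
      WeakQuasi (ball x₀ R) A B u →
      SysInf α lam Λ' K (jetSharp ⁻¹' 𝒬) x₀ R
        (fun ξ => InnerProductSpace.toDual ℝ W (A (jetSharp ξ))) (fun ξ => B (jetSharp ξ))
        (fun ξ => dpA A (jetSharp ξ)) u := by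
  set T : Jet W ℝ →L[ℝ] W × ℝ × W := jetSharp with hT
  set L := (ContinuousLinearMap.compL ℝ W (W × ℝ × W) W).flip ellInP with hL
  refine ⟨fun j => max (‖innerSL ℝ (E := W)‖ * (Λ j * ‖T‖ ^ j)) (max (Λ j * ‖T‖ ^ j) (‖L‖ * Λ (j + 1) * ‖T‖ ^ j)), ?_⟩
  intro α lam K R x₀ 𝒬 A B u hQo hQc hQb hA hB hsym hpos hu hbox hhol hw
  have hΩo : IsOpen (T ⁻¹' 𝒬) := hQo.preimage T.continuous
  have hmaps : Set.MapsTo T (T ⁻¹' 𝒬) 𝒬 := fun ξ hξ => hξ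
  have hAT := hA.comp_clm hQo hΩo T hmaps
  refine
    { Ω_open := hΩo
      Ω_convex := hQc.linear_preimage T.toLinearMap
      Ω_bd := ?_
      A_cb := ?_
      B_cb := ?_
      a_cb := ?_
      a_sym := fun ξ hξ => hsym _ hξ
      a_pos := fun ξ hξ => hpos _ hξ
      str := ?_
      U_c1 := hu
      U_jet := fun x hx => hbox x hx
      U_hol := hhol
      weak := ?_ }
  · intro ξ hξ
    have := hQb _ hξ
    rw [hT, ell_jetSharp_apply] at this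
    simpa using this
  · have h1 := hAT.clm_post hΩo (innerSL ℝ (E := W))
    have h2 : (fun ξ => InnerProductSpace.toDual ℝ W (A (T ξ))) = fun ξ => innerSL ℝ (A (T ξ)) := by
      funext ξ; exact ell_toDual_eq _
    rw [h2]
    exact h1.mono subset_rfl fun j => le_max_left _ _
  · exact (hB.comp_clm hQo hΩo T hmaps).mono subset_rfl fun j => (le_max_left _ _).trans (le_max_right _ _)
  · have h1 := ((hA.fd hQo).clm_post hQo L).comp_clm hQo hΩo T hmaps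
    exact h1.mono subset_rfl fun j => (le_max_right _ _).trans (le_max_right _ _)
  · intro ξ hξ Q'
    have hAd : DifferentiableAt ℝ A (T ξ) :=
      ((hA.smooth.contDiffAt (hQo.mem_nhds hξ)).differentiableAt (by simp))
    have h2 : (fun ξ => InnerProductSpace.toDual ℝ W (A (T ξ))) = fun ξ => innerSL ℝ (A (T ξ)) := by
      funext ξ; exact ell_toDual_eq _
    have h3 : HasFDerivAt (fun ξ => innerSL ℝ (A (T ξ)))
        ((innerSL ℝ (E := W)).comp ((fderiv ℝ A (T ξ)).comp T)) ξ :=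
      (innerSL ℝ (E := W)).hasFDerivAt.comp ξ (hAd.hasFDerivAt.comp ξ T.hasFDerivAt)
    rw [h2, h3.fderiv]
    ext η
    have e1 : T ((0 : W), (0 : ℝ), Q') = ellInP ((InnerProductSpace.toDual ℝ W).symm Q') := by
      rw [hT, ell_jetSharp_apply]
      simp [ellInP]
    have e2 : fderiv ℝ A (T ξ) (ellInP ((InnerProductSpace.toDual ℝ W).symm Q'))
        = dpA A (T ξ) ((InnerProductSpace.toDual ℝ W).symm Q') := rfl
    simp only [ContinuousLinearMap.comp_apply, e1, e2, innerSL_apply_apply]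
    rw [hsym _ hξ]
    simp
  · intro φ hφ
    have := hw φ hφ
    simp only [ell_jetSharp_jet, hT, InnerProductSpace.toDual_apply_apply, smul_eq_mul]
    rw [← this]
    congr 2
    funext x
    ring

/-- the adapter; `Λ'` depends only on `Λ`. -/
theorem ell_quasi_toSys (Λ : ℕ → ℝ) :
    ∃ Λ' : ℕ → ℝ, ∀ (α lam K Kz Kp R : ℝ) (x₀ : W) (A : W × ℝ × W → W) (B : W × ℝ × W → ℝ) (u : W → ℝ),
      QuasiData α lam Λ K Kz Kp x₀ R A B u →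
      SysInf α lam Λ' K (jetSharp ⁻¹' qbox x₀ R Kz Kp) x₀ R
        (fun ξ => InnerProductSpace.toDual ℝ W (A (jetSharp ξ))) (fun ξ => B (jetSharp ξ))
        (fun ξ => dpA A (jetSharp ξ)) u := by
  obtain ⟨Λ', h⟩ := ell_quasi_toSys_gen (W := W) Λ
  refine ⟨Λ', fun α lam K Kz Kp R x₀ A B u H => ?_⟩
  exact h α lam K R x₀ _ A B u (ell_qbox_isOpen _ _ _ _) (ell_qbox_convex _ _ _ _)
    (fun ζ hζ => (hζ.2.2.le).trans H.Kp_le) H.A_cb H.B_cb H.A_sym H.A_pos H.u_c1 H.u_box H.u_hol H.weak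

/-- **Quasilinear regularity with uniform estimates.** -/
theorem ell_quasi_est (W : Type) [NormedAddCommGroup W] [InnerProductSpace ℝ W] [FiniteDimensional ℝ W]
    [MeasurableSpace W] [BorelSpace W] (k : ℕ) {α lam K Kz Kp r R : ℝ} (Λ : ℕ → ℝ) (hα : 0 < α) (hα1 : α < 1)
    (hlam : 0 < lam) (hr : 0 < r) (hrR : r < R) :
    ∃ C : ℝ, ∀ (x₀ : W) (A : W × ℝ × W → W) (B : W × ℝ × W → ℝ) (u : W → ℝ), QuasiData α lam Λ K Kz Kp x₀ R A B u →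
      ContDiffOn ℝ ∞ u (ball x₀ R) ∧ ∀ j : ℕ, j ≤ k → ∀ x ∈ ball x₀ r, ‖iteratedFDeriv ℝ j u x‖ ≤ C := by
  obtain ⟨Λ', h⟩ := ell_quasi_toSys (W := W) Λ
  obtain ⟨C, hC⟩ := ell_sys_smooth W k ℝ α lam K r R Λ' hα hα1 hlam hr hrR
  refine ⟨max C Kz, fun x₀ A B u H => ?_⟩
  have HS := h α lam K Kz Kp R x₀ A B u H
  refine ⟨HS.contDiffOn hα hα1 hlam, fun j hj x hx => ?_⟩
  rcases Nat.eq_zero_or_pos j with rfl | hj0
  · rw [norm_iteratedFDeriv_zero, Real.norm_eq_abs]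
    exact ((H.u_box x (ball_subset_ball hrR.le hx)).2.1.le).trans (le_max_right _ _)
  · exact ((hC _ x₀ _ _ _ u HS).2 j hj0 (by omega) x hx).trans (le_max_left _ _)

/-- bounds of all derivatives on a compact subset. -/
theorem ell_cb_of_compact {X Y : Type} [NormedAddCommGroup X] [NormedSpace ℝ X] [NormedAddCommGroup Y] [NormedSpace ℝ Y]
    {𝒪 S : Set X} (h𝒪 : IsOpen 𝒪) (hS : IsCompact S) (hS𝒪 : S ⊆ 𝒪) {f : X → Y} (hf : ContDiffOn ℝ ∞ f 𝒪) :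
    ∃ Λ : ℕ → ℝ, CbLe Λ S f := by
  have h : ∀ j : ℕ, ∃ C, ∀ x ∈ S, ‖iteratedFDeriv ℝ j f x‖ ≤ C := by
    intro j
    have hc : ContinuousOn (iteratedFDeriv ℝ j f) 𝒪 := by
      have := hf.continuousOn_iteratedFDerivWithin (m := j) (by exact_mod_cast le_top) h𝒪.uniqueDiffOn
      exact this.congr fun x hx => (iteratedFDerivWithin_of_isOpen j h𝒪 hx).symm
    exact hS.exists_bound_of_continuousOn (hc.mono hS𝒪)
  choose Λ hΛ using h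
  exact ⟨Λ, hf.mono hS𝒪, hΛ⟩

/-- qualitative version on open sets: structure functions smooth on an open set `𝒪` of `(x,z,p)` containing the graph of `(u, ∇u)`,
`∂_p A` symmetric positive definite, `∇u` locally Hoelder. -/
theorem ell_quasi_smooth {U : Set W} (hU : IsOpen U) {𝒪 : Set (W × ℝ × W)} (h𝒪 : IsOpen 𝒪) {A : W × ℝ × W → W}
    {B : W × ℝ × W → ℝ} {u : W → ℝ} {α : ℝ} (hα : 0 < α) (hA : ContDiffOn ℝ ∞ A 𝒪) (hB : ContDiffOn ℝ ∞ B 𝒪)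
    (hsym : ∀ ζ ∈ 𝒪, ∀ η η' : W, ⟪dpA A ζ η, η'⟫ = ⟪η, dpA A ζ η'⟫)
    (hpos : ∀ ζ ∈ 𝒪, ∀ η : W, η ≠ 0 → 0 < ⟪dpA A ζ η, η⟫) (hu : ContDiffOn ℝ 1 u U)
    (hgr : ∀ x ∈ U, (x, u x, ∇ u x) ∈ 𝒪)
    (hhol : ∀ x ∈ U, ∃ r > 0, ∃ K, HolOn α K (ball x r) (fderiv ℝ u)) (hw : WeakQuasi U A B u) :
    ContDiffOn ℝ ∞ u U := by
  intro x₁ hx₁
  apply ContDiffAt.contDiffWithinAt
  set ζ₁ : W × ℝ × W := (x₁, u x₁, ∇ u x₁) with hζ₁
  have hζ₁𝒪 : ζ₁ ∈ 𝒪 := hgr x₁ hx₁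
  -- coercivity near `ζ₁`
  obtain ⟨μ, hμ, hco⟩ := ell_coercive_of_pos (dpA A ζ₁) (hpos ζ₁ hζ₁𝒪)
  have hdc : ContinuousAt (dpA A) ζ₁ := by
    have h1 : ContinuousOn (fderiv ℝ A) 𝒪 := hA.continuousOn_fderiv_of_isOpen h𝒪 (by simp)
    have h2 : ContinuousAt (fderiv ℝ A) ζ₁ := h1.continuousAt (h𝒪.mem_nhds hζ₁𝒪)
    have h3 : dpA A = fun ζ => (ContinuousLinearMap.compL ℝ W (W × ℝ × W) W).flip ellInP (fderiv ℝ A ζ) := by
      funext ζ; rfl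
    rw [h3]
    exact ((ContinuousLinearMap.compL ℝ W (W × ℝ × W) W).flip ellInP).continuous.continuousAt.comp h2
  have hev1 : ∀ᶠ ζ in 𝓝 ζ₁, dist (dpA A ζ) (dpA A ζ₁) < μ / 2 := Metric.tendsto_nhds.1 hdc _ (by positivity)
  obtain ⟨ρ', hρ', hball'⟩ := Metric.eventually_nhds_iff_ball.1 (hev1.and (h𝒪.mem_nhds hζ₁𝒪))
  set ρ := ρ' / 2 with hρ
  have hρ0 : 0 < ρ := by positivity
  have hcb : closedBall ζ₁ ρ ⊆ ball ζ₁ ρ' := closedBall_subset_ball (by rw [hρ]; linarith)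
  have hcb𝒪 : closedBall ζ₁ ρ ⊆ 𝒪 := fun ζ hζ => (hball' ζ (hcb hζ)).2
  obtain ⟨ΛA, hΛA⟩ := ell_cb_of_compact h𝒪 (isCompact_closedBall ζ₁ ρ) hcb𝒪 hA
  obtain ⟨ΛB, hΛB⟩ := ell_cb_of_compact h𝒪 (isCompact_closedBall ζ₁ ρ) hcb𝒪 hB
  set Λ : ℕ → ℝ := fun j => max (ΛA j) (ΛB j) with hΛ
  obtain ⟨Λ', hadapt⟩ := ell_quasi_toSys_gen (W := W) Λ
  -- the radius
  obtain ⟨r₀, hr₀, K₀, hK₀⟩ := hhol x₁ hx₁
  have hcont : ContinuousAt (fun x => ((x, u x, ∇ u x) : W × ℝ × W)) x₁ := by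
    have h1 : ContinuousAt u x₁ := (hu.continuousOn).continuousAt (hU.mem_nhds hx₁)
    have h2 : ContinuousAt (fderiv ℝ u) x₁ :=
      (hu.continuousOn_fderiv_of_isOpen hU le_rfl).continuousAt (hU.mem_nhds hx₁)
    have h3 : ContinuousAt (fun x => ∇ u x) x₁ :=
      (InnerProductSpace.toDual ℝ W).symm.continuous.continuousAt.comp h2
    exact continuousAt_id.prodMk (h1.prodMk h3)
  have hev2 : ∀ᶠ x in 𝓝 x₁, ((x, u x, ∇ u x) : W × ℝ × W) ∈ ball ζ₁ ρ := hcont (ball_mem_nhds _ hρ0)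
  obtain ⟨R', hR', hballR⟩ := Metric.eventually_nhds_iff_ball.1 (hev2.and (hU.mem_nhds hx₁))
  set R := min R' r₀ with hR
  have hR0 : 0 < R := lt_min hR' hr₀
  have hRU : ball x₁ R ⊆ U := fun x hx => (hballR x (ball_subset_ball (min_le_left _ _) hx)).2
  -- the Hoelder exponent
  set α' := min α (1 / 2) with hα'
  have hα'0 : 0 < α' := lt_min hα (by norm_num)
  have hα'1 : α' < 1 := lt_of_le_of_lt (min_le_right _ _) (by norm_num)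
  have hK₀' : HolOn α (max K₀ 0) (ball x₁ R) (fderiv ℝ u) :=
    hK₀.mono (ball_subset_ball (min_le_right _ _)) (le_max_left _ _)
  have hhol' : HolOn α' (max K₀ 0 * (2 * R) ^ (α - α')) (ball x₁ R) (fderiv ℝ u) := by
    refine hK₀'.of_exponent_le (min_le_left _ _) (le_max_right _ _) (by positivity) ?_
    intro x hx y hy
    rw [← dist_eq_norm]
    have := dist_triangle_right x y x₁
    rw [mem_ball] at hx hy
    linarith
  set K := max (max K₀ 0 * (2 * R) ^ (α - α')) (‖ζ₁‖ + ρ) with hK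
  have HS := hadapt α' (μ / 2) K R x₁ (ball ζ₁ ρ) A B u isOpen_ball (convex_ball _ _) ?_
    (hΛA.mono ball_subset_closedBall fun j => le_max_left _ _)
    (hΛB.mono ball_subset_closedBall fun j => le_max_right _ _)
    (fun ζ hζ => hsym ζ (hcb𝒪 (ball_subset_closedBall hζ))) ?_ (hu.mono hRU)
    (fun x hx => (hballR x (ball_subset_ball (min_le_left _ _) hx)).1)
    (hhol'.mono subset_rfl (le_max_left _ _)) ?_
  · exact (HS.contDiffOn hα'0 hα'1 (by positivity)).contDiffAt (ball_mem_nhds _ hR0)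
  · intro ζ hζ
    have h1 : ‖ζ.2.2‖ ≤ ‖ζ‖ := (norm_snd_le ζ.2).trans (norm_snd_le ζ)
    have h2 : ‖ζ‖ ≤ ‖ζ₁‖ + ρ := by
      rw [mem_ball, dist_eq_norm] at hζ
      have := norm_le_insert' ζ ζ₁
      linarith
    exact (h1.trans h2).trans (le_max_right _ _)
  · intro ζ hζ η
    have g1 := (hball' ζ (hcb (ball_subset_closedBall hζ))).1
    rw [dist_eq_norm] at g1
    have e : ⟪dpA A ζ η, η⟫ = ⟪dpA A ζ₁ η, η⟫ + ⟪(dpA A ζ - dpA A ζ₁) η, η⟫ := by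
      rw [sub_apply, inner_sub_left]; ring
    have h1 : |⟪(dpA A ζ - dpA A ζ₁) η, η⟫| ≤ μ / 2 * ‖η‖ ^ 2 := by
      calc _ ≤ ‖(dpA A ζ - dpA A ζ₁) η‖ * ‖η‖ := abs_real_inner_le_norm _ _
        _ ≤ (‖dpA A ζ - dpA A ζ₁‖ * ‖η‖) * ‖η‖ := by gcongr; exact ContinuousLinearMap.le_opNorm _ _
        _ ≤ (μ / 2 * ‖η‖) * ‖η‖ := by gcongr
        _ = _ := by ring
    have h2 := hco η
    have h3 := (abs_le.1 h1).1
    rw [e]
    linarith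
  · intro φ hφ
    exact hw φ ⟨hφ.1, hφ.2.1, hφ.2.2.trans hRU⟩

end Claimed.Agent.Lib.Ell
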