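/-
Lib/Ell, package L-ell-schnd (architect helper232): INTERIOR SCHAUDER ESTIMATE, NON-DIVERGENCE FORM (a priori form):
   tr(a D²u) + Du(b) + c u = f  in `ball x₀ R`,  `u ∈ C²`, `D²u` Hoelder on every smaller ball (any constant), `a, b, c, f ∈ C^α`
   ⟹  `sup|Du| + sup|D²u| + [D²u]_α ≤ C M` on `ball x₀ r`,  `M ≥ sup|u|, sup|f|, [f]_α`,  `C = C(W, α, lam, Lam, K, r, R)`.

PROOF.  No new potential theory: for a CONSTANT matrix `A`, `tr(A D²u) = f` implies that `∂_k u` is a weak `C¹` solution of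
`div(A ∇ ∂_k u) = div(f k)` (N1: two integrations by parts), so `ell_cc_weak` gives (N2)
   `[D²u]_{α; ball x₁ (θϱ)} ≤ C₀ ([f]_α + D₁ / ϱ^{1+α})`,   `D₁ ≥ sup|Du|` on `ball x₁ ϱ`.
(N3) freezing at `x₁`, `ϱ ≤ 1`:  `f̃ = f - Du(b) - c u + tr((a(x₁) - a) D²u)`,  `m = finrank W`,
   `[f̃]_{α; ball x₁ ϱ} ≤ M(1+K) + 3K D₁ + (2+m) K D₂ + m K ϱ^α Z`     (`[Du]_α ≤ 2 D₂`, `[u]_α ≤ 2 D₁` on a ball of radius `ϱ ≤ 1`).
(N4) radii `t < s₁ < s₂ < s` (thirds of `d = s - t`), `ϱ, ε ≤ d/3`:  `D₂ = 8M/ε² + 2ε^α Z` on `B_{s₂}` (`ell_interp_c2a`),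
   `D₁ = 2M/ε + (ε/2) D₂` on `B_{s₁}` (`ell_interp_c2`).      (N5) `ϱ = min (d/3) r⋆`, `ε = η ϱ`: pure inequality.      (N6) `ell_iter`, `γ = 2 + α`.
-/
import Claimed.Agent.Lib.Ell.SchDiv

set_option autoImplicit false

namespace Claimed.Agent.Lib.Ell

open MeasureTheory Metric Filter
open scoped ContDiff RealInnerProductSpace Gradient Topology

universe u

variable {W : Type u} [NormedAddCommGroup W] [InnerProductSpace ℝ W] [FiniteDimensional ℝ W]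
  [MeasurableSpace W] [BorelSpace W]

/-- the data of a non-divergence problem on a set `B` (open in all uses). -/
structure NdData (α lam Lam K M : ℝ) (B : Set W) (a : W → W →L[ℝ] W) (b : W → W) (c : W → ℝ) (u : W → ℝ)
    (f : W → ℝ) : Prop where
  ell : EllOn lam Lam B a
  a_hol : HolOn α K B a
  b_bd : BdOn K B b
  b_hol : HolOn α K B b
  c_bd : BdOn K B c
  c_hol : HolOn α K B c
  u_c2 : ContDiffOn ℝ 2 u B
  u_bd : BdOn M B u
  f_bd : BdOn M B f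
  f_hol : HolOn α M B f
  eq : ∀ x ∈ B, ndOp a b c u x = f x

theorem NdData.mono {α lam Lam K M : ℝ} {U V : Set W} {a : W → W →L[ℝ] W} {b : W → W} {c : W → ℝ} {u : W → ℝ}
    {f : W → ℝ} (h : NdData α lam Lam K M U a b c u f) (hVU : V ⊆ U) : NdData α lam Lam K M V a b c u f := by
  exact ⟨fun x hx => h.ell x (hVU hx), h.a_hol.mono hVU le_rfl, h.b_bd.mono hVU le_rfl,
    h.b_hol.mono hVU le_rfl, h.c_bd.mono hVU le_rfl, h.c_hol.mono hVU le_rfl, h.u_c2.mono hVU,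
    h.u_bd.mono hVU le_rfl, h.f_bd.mono hVU le_rfl, h.f_hol.mono hVU le_rfl,
    fun x hx => h.eq x (hVU hx)⟩

/-- scalar integration by parts on an open set: `∫ (∂_k w) ψ = - ∫ w ∂_k ψ`. -/
theorem ell_ibp_scalar {B : Set W} (hB : IsOpen B) {w ψ : W → ℝ} (hw : ContDiffOn ℝ 1 w B) (hψ : ContDiff ℝ 1 ψ)
    (hc : HasCompactSupport ψ) (hs : tsupport ψ ⊆ B) (k : W) : ∫ x, dd k w x * ψ x = - ∫ x, w x * dd k ψ x := by
  set G : W → ℝ := fun x => w x * ψ x with hG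
  have hout : ∀ y, y ∉ tsupport ψ → ψ =ᶠ[𝓝 y] fun _ => 0 :=
    fun y hy => notMem_tsupport_iff_eventuallyEq.1 hy
  have hGout : ∀ y, y ∉ tsupport ψ → G =ᶠ[𝓝 y] fun _ => 0 := by
    intro y hy
    filter_upwards [hout y hy] with z hz
    simp [hG, hz]
  have hGs : ContDiff ℝ 1 G := by
    rw [contDiff_iff_contDiffAt]
    intro y
    by_cases hy : y ∈ tsupport ψ
    · exact (hw.contDiffAt (hB.mem_nhds (hs hy))).mul hψ.contDiffAt
    · exact contDiffAt_const.congr_of_eventuallyEq (hGout y hy)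
  have hGc : HasCompactSupport G := hc.mul_left
  have h0 := ell_integral_dd_eq_zero hGs hGc k
  have hform : ∀ y, dd k G y = dd k w y * ψ y + w y * dd k ψ y := by
    intro y
    by_cases hy : y ∈ tsupport ψ
    · have h1 : HasFDerivAt G _ y :=
        ((hw.differentiableOn (by simp) y (hs hy)).differentiableAt
          (hB.mem_nhds (hs hy))).hasFDerivAt.mul (hψ.differentiable (by simp) y).hasFDerivAt
      rw [dd, h1.fderiv]
      simp [dd]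
      ring
    · have e1 : ψ y = 0 := (hout y hy).self_of_nhds
      have e2 : dd k ψ y = 0 := by
        rw [dd, (hout y hy).fderiv_eq]
        simp
      rw [dd, (hGout y hy).fderiv_eq, e1, e2]
      simp
  have hdc : ContinuousOn (dd k w) B :=
    (ContDiffOn.ell_dd (n := 0) hB (by simpa using hw) k).continuousOn
  have i1 : Integrable (fun x => dd k w x * ψ x) :=
    ell_integrable_mul_test hB hdc hψ.continuous hc hs
  have hdψ : Continuous (dd k ψ) := (hψ.continuous_fderiv (by simp)).clm_apply continuous_const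
  have i2 : Integrable (fun x => w x * dd k ψ x) :=
    ell_integrable_mul_test hB hw.continuousOn hdψ (hc.fderiv_apply ℝ k)
      ((tsupport_fderiv_apply_subset ℝ k).trans hs)
  simp only [hform] at h0
  rw [integral_add i1 i2] at h0
  linarith

omit [MeasurableSpace W] [BorelSpace W] in
/-- directional derivatives of smooth functions are smooth. -/
theorem ell_dd_contDiff {φ : W → ℝ} (hφ : ContDiff ℝ ∞ φ) (h : W) : ContDiff ℝ ∞ (dd h φ) :=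
  (hφ.fderiv_right (m := ∞) (by simp)).clm_apply contDiff_const

omit [MeasurableSpace W] [BorelSpace W] in
/-- directional derivatives vanish off the support. -/
theorem ell_dd_eq_zero_of_notMem {φ : W → ℝ} {x : W} (hx : x ∉ tsupport φ) (h : W) : dd h φ x = 0 := by
  rw [dd, (notMem_tsupport_iff_eventuallyEq.1 hx).fderiv_eq]
  simp

/-- (N1) derivatives of solutions of constant coefficient equations are weak solutions. -/
theorem ell_cc_nd_weak {B : Set W} (hB : IsOpen B) {A : W →L[ℝ] W} (hA : ∀ ξ η : W, ⟪A ξ, η⟫ = ⟪ξ, A η⟫) {u f : W → ℝ}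
    (hu : ContDiffOn ℝ 2 u B) (hf : ContinuousOn f B) (heq : ∀ x ∈ B, ellTr A (ellD2 u x) = f x) (k : W) :
    WeakDiv B (fun _ => A) 0 0 (dd k u) (fun x => f x • k) 0 := by
  intro φ hφ
  obtain ⟨hφs, hφc, hφB⟩ := hφ
  have hz : ∫ x, (⟪(0 : W → W) x, ∇ (dd k u) x⟫ + (0 : W → ℝ) x * dd k u x - (0 : W → ℝ) x) * φ x = 0 := by
    simp
  rw [hz, add_zero]
  have hL : ∀ x, ⟪A (∇ (dd k u) x), ∇ φ x⟫
      = ∑ i, dd k (dd (stdOrthonormalBasis ℝ W i) u) x * dd (A (stdOrthonormalBasis ℝ W i)) φ x := by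
    intro x
    rw [hA, ← ell_dd_eq_inner, ell_dd_eq_sum]
    refine Finset.sum_congr rfl (fun i _ => ?_)
    rw [hA, ← ell_dd_eq_inner, mul_comm]
    by_cases hx : x ∈ tsupport φ
    · rw [ell_dd_comm hB hu (hφB hx)]
    · rw [ell_dd_eq_zero_of_notMem hx, mul_zero, mul_zero]
  have hR : ∀ x, ⟪f x • k, ∇ φ x⟫
      = ∑ i, dd (A (stdOrthonormalBasis ℝ W i)) (dd (stdOrthonormalBasis ℝ W i) u) x * dd k φ x := by
    intro x
    rw [← Finset.sum_mul, real_inner_smul_left, real_inner_comm, ← ell_dd_eq_inner]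
    by_cases hx : x ∈ tsupport φ
    · rw [← heq x (hφB hx), ellTr]
      congr 1
      exact Finset.sum_congr rfl (fun i _ => ell_d2_apply hB hu (hφB hx) _ _)
    · rw [ell_dd_eq_zero_of_notMem hx, mul_zero, mul_zero]
  simp only [hL, hR]
  have hw : ∀ i, ContDiffOn ℝ 1 (dd (stdOrthonormalBasis ℝ W i) u) B := fun i =>
    ContDiffOn.ell_dd (n := 1) hB (by exact_mod_cast hu) _
  have hwc : ∀ i (h : W), ContinuousOn (dd h (dd (stdOrthonormalBasis ℝ W i) u)) B := fun i h =>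
    (ContDiffOn.ell_dd (n := 0) hB (by simpa using hw i) h).continuousOn
  have hψ : ∀ h : W, ContDiff ℝ 1 (dd h φ) := fun h => (ell_dd_contDiff hφs h).of_le (by simp)
  have hψc : ∀ h : W, HasCompactSupport (dd h φ) := fun h => hφc.fderiv_apply ℝ h
  have hψB : ∀ h : W, tsupport (dd h φ) ⊆ B := fun h => (tsupport_fderiv_apply_subset ℝ h).trans hφB
  rw [integral_finsetSum _ (fun i _ => ell_integrable_mul_test hB (hwc i k) (hψ _).continuous (hψc _) (hψB _)),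
    integral_finsetSum _ (fun i _ => ell_integrable_mul_test hB (hwc i _) (hψ _).continuous (hψc _) (hψB _))]
  refine Finset.sum_congr rfl (fun i _ => ?_)
  rw [ell_ibp_scalar hB (hw i) (hψ _) (hψc _) (hψB _) k,
    ell_ibp_scalar hB (hw i) (hψ _) (hψc _) (hψB _) (A (stdOrthonormalBasis ℝ W i))]
  congr 1
  refine integral_congr_ae (Eventually.of_forall fun x => ?_)
  simp only
  rw [ell_dd_comm isOpen_univ (hφs.of_le (by norm_cast)).contDiffOn (Set.mem_univ x)]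

/-- (N2) constant coefficients, centred form. -/
theorem ell_cc_nd (W : Type u) [NormedAddCommGroup W] [InnerProductSpace ℝ W] [FiniteDimensional ℝ W]
    [MeasurableSpace W] [BorelSpace W] {α lam Lam : ℝ} (hα : 0 < α) (hα1 : α < 1) (hlam : 0 < lam)
    (hLam : lam ≤ Lam) :
    ∃ C₀ θ : ℝ, 0 ≤ C₀ ∧ 0 < θ ∧ θ ≤ 1 / 2 ∧ ∀ (A : W →L[ℝ] W) (x₁ : W) (ϱ Mf D₁ : ℝ) (u f : W → ℝ),
      EllMat lam Lam A → 0 < ϱ → 0 ≤ Mf → ContDiffOn ℝ 2 u (ball x₁ ϱ) →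
      (∀ x ∈ ball x₁ ϱ, ellTr A (ellD2 u x) = f x) → BdOn D₁ (ball x₁ ϱ) (fderiv ℝ u) →
      HolOn α Mf (ball x₁ ϱ) f →
      HolOn α (C₀ * (Mf + D₁ / ϱ ^ (1 + α))) (ball x₁ (θ * ϱ)) (ellD2 u) := by
  obtain ⟨C, θ, hC, hθ, hθ1, H⟩ := ell_cc_weak W hα hα1 hlam hLam
  refine ⟨C, θ, hC, hθ, hθ1, ?_⟩
  intro A x₁ ϱ Mf D₁ u f hA hϱ hMf hu heq hD₁ hf
  have hB : IsOpen (ball x₁ ϱ) := isOpen_ball
  have hD₁0 : 0 ≤ D₁ := le_trans (norm_nonneg (fderiv ℝ u x₁)) (hD₁ x₁ (mem_ball_self hϱ))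
  have hp : 0 < ϱ ^ (1 + α) := Real.rpow_pos_of_pos hϱ _
  set M₀ : ℝ := D₁ + Mf * ϱ ^ (1 + α) with hM₀
  have hM₀0 : 0 ≤ M₀ := by positivity
  have hsub : ball x₁ (θ * ϱ) ⊆ ball x₁ ϱ := ball_subset_ball (by nlinarith)
  have key : ∀ k : W, HolOn α (C * (‖k‖ * M₀) / ϱ ^ (1 + α)) (ball x₁ (θ * ϱ)) (fderiv ℝ (dd k u)) := by
    intro k
    refine (H A x₁ ϱ (‖k‖ * M₀) (dd k u) (fun x => f x • k) 0 hA hϱ (by positivity)
      (ContDiffOn.ell_dd (n := 1) hB (by exact_mod_cast hu) k) continuousOn_const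
      (ell_cc_nd_weak hB hA.1 hu (hf.continuousOn hα) heq k) ?_ ?_ ?_).2
    · intro x hx
      rw [Real.norm_eq_abs]
      refine (ell_dd_abs_le k u x).trans ?_
      have h1 := hD₁ x hx
      have h2 : 0 ≤ Mf * ϱ ^ (1 + α) := by positivity
      calc ‖fderiv ℝ u x‖ * ‖k‖ ≤ M₀ * ‖k‖ :=
            mul_le_mul_of_nonneg_right (by rw [hM₀]; linarith) (norm_nonneg _)
        _ = ‖k‖ * M₀ := mul_comm _ _
    · intro x hx y hy
      have e : f x • k - f y • k = (f x - f y) • k := by rw [sub_smul]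
      rw [e, norm_smul]
      have h1 := hf x hx y hy
      have h2 : 0 ≤ ‖x - y‖ ^ α := Real.rpow_nonneg (norm_nonneg _) _
      have h3 : Mf * ‖k‖ ≤ ‖k‖ * M₀ / ϱ ^ (1 + α) := by
        rw [le_div_iff₀ hp, hM₀]
        nlinarith [mul_nonneg (norm_nonneg k) hD₁0]
      calc ‖f x - f y‖ * ‖k‖ ≤ Mf * ‖x - y‖ ^ α * ‖k‖ := mul_le_mul_of_nonneg_right h1 (norm_nonneg _)
        _ = Mf * ‖k‖ * ‖x - y‖ ^ α := by ring
        _ ≤ ‖k‖ * M₀ / ϱ ^ (1 + α) * ‖x - y‖ ^ α := mul_le_mul_of_nonneg_right h3 h2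
    · intro x _
      simp only [Pi.zero_apply, norm_zero]
      positivity
  intro x hx y hy
  have h2 : 0 ≤ ‖x - y‖ ^ α := Real.rpow_nonneg (norm_nonneg _) _
  refine ell_norm_d2_le (H := ellD2 u x - ellD2 u y) (by positivity) ?_
  intro h k
  have e : ∀ z ∈ ball x₁ ϱ, ellD2 u z h k = fderiv ℝ (dd k u) z h :=
    fun z hz => ell_d2_apply hB hu hz h k
  have e1 : (ellD2 u x - ellD2 u y) h k = (fderiv ℝ (dd k u) x - fderiv ℝ (dd k u) y) h := by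
    simp only [sub_apply]
    rw [e x (hsub hx), e y (hsub hy)]
  rw [e1, ← Real.norm_eq_abs]
  refine (ContinuousLinearMap.le_opNorm _ _).trans ?_
  have h3 := key k x hx y hy
  calc ‖fderiv ℝ (dd k u) x - fderiv ℝ (dd k u) y‖ * ‖h‖
      ≤ C * (‖k‖ * M₀) / ϱ ^ (1 + α) * ‖x - y‖ ^ α * ‖h‖ := mul_le_mul_of_nonneg_right h3 (norm_nonneg _)
    _ = C * (Mf + D₁ / ϱ ^ (1 + α)) * ‖x - y‖ ^ α * ‖h‖ * ‖k‖ := by
        rw [hM₀]
        field_simp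
        ring

omit [FiniteDimensional ℝ W] [MeasurableSpace W] [BorelSpace W] in
/-- a bound of the derivative gives a Hoelder bound on a ball of radius `≤ 1`. -/
theorem ell_hol_of_fderiv_ball {F : Type*} [NormedAddCommGroup F] [NormedSpace ℝ F] {g : W → F} {x₁ : W}
    {α ϱ D : ℝ} (hα : 0 ≤ α) (hα1 : α < 1) (hϱ : 0 < ϱ) (hϱ1 : ϱ ≤ 1) (hg : DifferentiableOn ℝ g (ball x₁ ϱ))
    (hD : BdOn D (ball x₁ ϱ) (fderiv ℝ g)) : HolOn α (2 * D) (ball x₁ ϱ) g := by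
  have hD0 : 0 ≤ D := le_trans (norm_nonneg (fderiv ℝ g x₁)) (hD x₁ (mem_ball_self hϱ))
  intro x hx y hy
  have h1 : ‖g x - g y‖ ≤ D * ‖x - y‖ :=
    Convex.norm_image_sub_le_of_norm_fderiv_le (𝕜 := ℝ)
      (fun z hz => (hg z hz).differentiableAt (isOpen_ball.mem_nhds hz)) hD (convex_ball x₁ ϱ) hy hx
  by_cases hxy : x = y
  · subst hxy
    simp only [sub_self, norm_zero]
    positivity
  have hpos : 0 < ‖x - y‖ := norm_pos_iff.2 (sub_ne_zero.2 hxy)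
  have hle : ‖x - y‖ ≤ 2 := by
    have a1 : ‖x - x₁‖ < ϱ := by simpa [dist_eq_norm] using hx
    have a2 : ‖y - x₁‖ < ϱ := by simpa [dist_eq_norm] using hy
    have e : x - y = (x - x₁) - (y - x₁) := by abel
    rw [e]
    exact (norm_sub_le _ _).trans (by linarith)
  have h2 : ‖x - y‖ = ‖x - y‖ ^ (1 - α) * ‖x - y‖ ^ α := by
    rw [← Real.rpow_add hpos]
    simp
  have h3 : ‖x - y‖ ^ (1 - α) ≤ 2 := by
    calc ‖x - y‖ ^ (1 - α) ≤ 2 ^ (1 - α) := Real.rpow_le_rpow hpos.le hle (by linarith)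
      _ ≤ 2 ^ (1 : ℝ) := Real.rpow_le_rpow_of_exponent_le (by norm_num) (by linarith)
      _ = 2 := Real.rpow_one 2
  have h4 : 0 ≤ ‖x - y‖ ^ α := Real.rpow_nonneg hpos.le _
  calc ‖g x - g y‖ ≤ D * ‖x - y‖ := h1
    _ = D * (‖x - y‖ ^ (1 - α) * ‖x - y‖ ^ α) := by rw [← h2]
    _ ≤ D * (2 * ‖x - y‖ ^ α) := by gcongr
    _ = 2 * D * ‖x - y‖ ^ α := by ring

/-- (N3) Hoelder bound of the frozen right hand side. -/
theorem ell_schnd_freeze {α lam Lam K M Z D₁ D₂ ϱ : ℝ} {x₁ : W} {a : W → W →L[ℝ] W} {b : W → W} {c : W → ℝ}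
    {u f : W → ℝ} (hα : 0 < α) (hα1 : α < 1) (hK : 0 ≤ K) (hϱ : 0 < ϱ) (hϱ1 : ϱ ≤ 1)
    (H : NdData α lam Lam K M (ball x₁ ϱ) a b c u f) (hD₁ : BdOn D₁ (ball x₁ ϱ) (fderiv ℝ u))
    (hD₂ : BdOn D₂ (ball x₁ ϱ) (ellD2 u)) (hZ0 : 0 ≤ Z) (hZ : HolOn α Z (ball x₁ ϱ) (ellD2 u)) :
    (∀ x ∈ ball x₁ ϱ, ellTr (a x₁) (ellD2 u x)
        = f x - fderiv ℝ u x (b x) - c x * u x + ellTr (a x₁ - a x) (ellD2 u x)) ∧
      HolOn α (M * (1 + K) + 3 * K * D₁ + (2 + Module.finrank ℝ W) * K * D₂ + Module.finrank ℝ W * K * ϱ ^ α * Z)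
        (ball x₁ ϱ) (fun x => f x - fderiv ℝ u x (b x) - c x * u x + ellTr (a x₁ - a x) (ellD2 u x)) := by
  have hB : IsOpen (ball x₁ ϱ) := isOpen_ball
  have hx₁ : x₁ ∈ ball x₁ ϱ := mem_ball_self hϱ
  have hD₁0 : 0 ≤ D₁ := le_trans (norm_nonneg (fderiv ℝ u x₁)) (hD₁ x₁ hx₁)
  have hD₂0 : 0 ≤ D₂ := le_trans (norm_nonneg (ellD2 u x₁)) (hD₂ x₁ hx₁)
  have hm0 : (0 : ℝ) ≤ (Module.finrank ℝ W : ℝ) := Nat.cast_nonneg _
  refine ⟨?_, ?_⟩
  · intro x hx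
    have := H.eq x hx
    rw [ndOp] at this
    rw [ellTr_sub_left, ← this]
    ring
  have hdu : DifferentiableOn ℝ u (ball x₁ ϱ) := H.u_c2.differentiableOn (by norm_num)
  have hddu : DifferentiableOn ℝ (fderiv ℝ u) (ball x₁ ϱ) :=
    (H.u_c2.fderiv_of_isOpen hB (m := 1) (by norm_num)).differentiableOn (by simp)
  have hu_hol : HolOn α (2 * D₁) (ball x₁ ϱ) u := ell_hol_of_fderiv_ball hα.le hα1 hϱ hϱ1 hdu hD₁
  have hdu_hol : HolOn α (2 * D₂) (ball x₁ ϱ) (fderiv ℝ u) :=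
    ell_hol_of_fderiv_ball hα.le hα1 hϱ hϱ1 hddu hD₂
  have h2 : HolOn α (2 * D₂ * K + D₁ * K) (ball x₁ ϱ) (fun x => fderiv ℝ u x (b x)) := by
    intro x hx y hy
    have hp : 0 ≤ ‖x - y‖ ^ α := Real.rpow_nonneg (norm_nonneg _) _
    have e : fderiv ℝ u x (b x) - fderiv ℝ u y (b y)
        = (fderiv ℝ u x - fderiv ℝ u y) (b x) + fderiv ℝ u y (b x - b y) := by
      simp
    rw [e]
    refine (norm_add_le _ _).trans ?_
    have a1 : ‖(fderiv ℝ u x - fderiv ℝ u y) (b x)‖ ≤ (2 * D₂ * ‖x - y‖ ^ α) * K :=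
      (ContinuousLinearMap.le_opNorm _ _).trans
        (mul_le_mul (hdu_hol x hx y hy) (H.b_bd x hx) (norm_nonneg _) (by positivity))
    have a2 : ‖fderiv ℝ u y (b x - b y)‖ ≤ D₁ * (K * ‖x - y‖ ^ α) :=
      (ContinuousLinearMap.le_opNorm _ _).trans
        (mul_le_mul (hD₁ y hy) (H.b_hol x hx y hy) (norm_nonneg _) hD₁0)
    calc _ ≤ (2 * D₂ * ‖x - y‖ ^ α) * K + D₁ * (K * ‖x - y‖ ^ α) := add_le_add a1 a2
      _ = (2 * D₂ * K + D₁ * K) * ‖x - y‖ ^ α := by ring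
  have h3 : HolOn α (K * M + K * (2 * D₁)) (ball x₁ ϱ) (fun x => c x * u x) :=
    HolOn.mul H.c_hol hu_hol H.c_bd H.u_bd
  have h4 : HolOn α (Module.finrank ℝ W * K * D₂ + Module.finrank ℝ W * K * ϱ ^ α * Z) (ball x₁ ϱ)
      (fun x => ellTr (a x₁ - a x) (ellD2 u x)) := by
    intro x hx y hy
    have hp : 0 ≤ ‖x - y‖ ^ α := Real.rpow_nonneg (norm_nonneg _) _
    have e : ellTr (a x₁ - a x) (ellD2 u x) - ellTr (a x₁ - a y) (ellD2 u y)
        = ellTr (a y - a x) (ellD2 u x) + ellTr (a x₁ - a y) (ellD2 u x - ellD2 u y) := by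
      simp only [ellTr_sub_left, ellTr_sub_right]
      ring
    rw [e, Real.norm_eq_abs]
    refine (abs_add_le _ _).trans ?_
    have b1 : ‖a y - a x‖ ≤ K * ‖x - y‖ ^ α := by
      have := H.a_hol y hy x hx
      rwa [norm_sub_rev y x] at this
    have b2 : ‖a x₁ - a y‖ ≤ K * ϱ ^ α := by
      refine (H.a_hol x₁ hx₁ y hy).trans (mul_le_mul_of_nonneg_left ?_ hK)
      refine Real.rpow_le_rpow (norm_nonneg _) ?_ hα.le
      have : ‖y - x₁‖ < ϱ := by simpa [dist_eq_norm] using hy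
      rw [norm_sub_rev]
      exact this.le
    have hϱα : 0 ≤ ϱ ^ α := Real.rpow_nonneg hϱ.le _
    have a1 : |ellTr (a y - a x) (ellD2 u x)| ≤ Module.finrank ℝ W * (K * ‖x - y‖ ^ α) * D₂ :=
      (ellTr_abs_le _ _).trans
        (mul_le_mul (mul_le_mul_of_nonneg_left b1 hm0) (hD₂ x hx) (norm_nonneg (ellD2 u x)) (by positivity))
    have a2 : |ellTr (a x₁ - a y) (ellD2 u x - ellD2 u y)|
        ≤ Module.finrank ℝ W * (K * ϱ ^ α) * (Z * ‖x - y‖ ^ α) :=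
      (ellTr_abs_le _ _).trans
        (mul_le_mul (mul_le_mul_of_nonneg_left b2 hm0) (hZ x hx y hy) (norm_nonneg (ellD2 u x - ellD2 u y)) (by positivity))
    calc _ ≤ Module.finrank ℝ W * (K * ‖x - y‖ ^ α) * D₂
          + Module.finrank ℝ W * (K * ϱ ^ α) * (Z * ‖x - y‖ ^ α) := add_le_add a1 a2
      _ = _ := by ring
  exact (((H.f_hol.sub h2).sub h3).add h4).mono subset_rfl (le_of_eq (by ring))

/-- algebraic core of (N5), first term. -/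
theorem ell_schnd_choice_alg1 {C₀ K m M Z η ϱ p A D₁ D₂ : ℝ} (hC₀ : 0 ≤ C₀) (hK : 0 ≤ K) (hm : 0 ≤ m)
    (hM : 0 ≤ M) (hZ : 0 ≤ Z) (hη : 0 < η) (hη1 : η ≤ 1) (hϱ : 0 < ϱ) (hϱ1 : ϱ ≤ 1) (hp : 0 < p) (hp1 : p ≤ 1)
    (hA : 0 < A) (hA1 : A ≤ 1) (hQ : C₀ * (7 + 3 * m) * K * p ≤ 1 / 4) (hCη : C₀ * η ≤ 1 / 4)
    (hD₂ : D₂ = 8 * M / (η * ϱ) ^ 2 + 2 * (A * p) * Z) (hD₁ : D₁ = 2 * M / (η * ϱ) + η * ϱ / 2 * D₂) :
    C₀ * ((M * (1 + K) + 3 * K * D₁ + (2 + m) * K * D₂ + m * K * p * Z) + D₁ / (ϱ * p))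
      ≤ Z / 2 + C₀ * ((1 + K) + 18 * K / η + 8 * (2 + m) * K / η ^ 2 + 6 / η) * (M / (ϱ ^ 2 * p)) := by
  set X : ℝ := M / (ϱ ^ 2 * p) with hX
  have hX0 : 0 ≤ X := by positivity
  have hϱ2 : ϱ ^ 2 ≤ 1 := by nlinarith
  have e1 : M / ϱ = X * (ϱ * p) := by rw [hX]; field_simp
  have e2 : M / ϱ ^ 2 = X * p := by rw [hX]; field_simp
  have e0 : M = X * (ϱ ^ 2 * p) := by rw [hX]; field_simp
  have hϱp : ϱ * p ≤ 1 := by nlinarith
  have hϱ2p : ϱ ^ 2 * p ≤ 1 := by nlinarith [sq_nonneg ϱ]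
  have h0 : M ≤ X := by
    calc M = X * (ϱ ^ 2 * p) := e0
      _ ≤ X * 1 := mul_le_mul_of_nonneg_left hϱ2p hX0
      _ = X := mul_one X
  have h1 : M / ϱ ≤ X := by
    rw [e1]
    calc X * (ϱ * p) ≤ X * 1 := mul_le_mul_of_nonneg_left hϱp hX0
      _ = X := mul_one X
  have h2 : M / ϱ ^ 2 ≤ X := by
    rw [e2]
    calc X * p ≤ X * 1 := mul_le_mul_of_nonneg_left hp1 hX0
      _ = X := mul_one X
  have eD₂ : D₂ = 8 * (M / ϱ ^ 2) / η ^ 2 + 2 * A * (p * Z) := by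
    rw [hD₂]; field_simp
  have eD₁ : D₁ = 6 * (M / ϱ) / η + (η * ϱ * A) * (p * Z) := by
    rw [hD₁, hD₂]; field_simp; ring
  have hpZ : 0 ≤ p * Z := by positivity
  have bD₂ : D₂ ≤ 8 * X / η ^ 2 + 2 * (p * Z) := by
    rw [eD₂]
    have a1 : 8 * (M / ϱ ^ 2) / η ^ 2 ≤ 8 * X / η ^ 2 := by gcongr
    have a2 : 2 * A * (p * Z) ≤ 2 * 1 * (p * Z) := by gcongr
    linarith
  have hηϱA : η * ϱ * A ≤ 1 := by
    have : η * ϱ ≤ 1 := by nlinarith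
    nlinarith [mul_pos hη hϱ]
  have bD₁ : D₁ ≤ 6 * X / η + p * Z := by
    rw [eD₁]
    have a1 : 6 * (M / ϱ) / η ≤ 6 * X / η := by gcongr
    have a2 : (η * ϱ * A) * (p * Z) ≤ 1 * (p * Z) := mul_le_mul_of_nonneg_right hηϱA hpZ
    linarith
  have eD₁' : D₁ / (ϱ * p) = 6 * X / η + (η * A) * Z := by
    rw [eD₁, hX]; field_simp
  have bD₁' : D₁ / (ϱ * p) ≤ 6 * X / η + η * Z := by
    rw [eD₁']
    have : (η * A) * Z ≤ (η * 1) * Z := by gcongr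
    linarith
  have hsum : (M * (1 + K) + 3 * K * D₁ + (2 + m) * K * D₂ + m * K * p * Z) + D₁ / (ϱ * p)
      ≤ ((1 + K) + 18 * K / η + 8 * (2 + m) * K / η ^ 2 + 6 / η) * X + ((7 + 3 * m) * K * p + η) * Z := by
    have c1 : M * (1 + K) ≤ X * (1 + K) := mul_le_mul_of_nonneg_right h0 (by positivity)
    have c2 : 3 * K * D₁ ≤ 3 * K * (6 * X / η + p * Z) := mul_le_mul_of_nonneg_left bD₁ (by positivity)
    have c3 : (2 + m) * K * D₂ ≤ (2 + m) * K * (8 * X / η ^ 2 + 2 * (p * Z)) :=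
      mul_le_mul_of_nonneg_left bD₂ (by positivity)
    calc (M * (1 + K) + 3 * K * D₁ + (2 + m) * K * D₂ + m * K * p * Z) + D₁ / (ϱ * p)
        ≤ (X * (1 + K) + 3 * K * (6 * X / η + p * Z) + (2 + m) * K * (8 * X / η ^ 2 + 2 * (p * Z))
            + m * K * p * Z) + (6 * X / η + η * Z) := by linarith
      _ = _ := by field_simp; ring
  calc C₀ * ((M * (1 + K) + 3 * K * D₁ + (2 + m) * K * D₂ + m * K * p * Z) + D₁ / (ϱ * p))
      ≤ C₀ * (((1 + K) + 18 * K / η + 8 * (2 + m) * K / η ^ 2 + 6 / η) * X + ((7 + 3 * m) * K * p + η) * Z) :=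
        mul_le_mul_of_nonneg_left hsum hC₀
    _ = (C₀ * (7 + 3 * m) * K * p + C₀ * η) * Z
        + C₀ * ((1 + K) + 18 * K / η + 8 * (2 + m) * K / η ^ 2 + 6 / η) * X := by ring
    _ ≤ (1 / 4 + 1 / 4) * Z + C₀ * ((1 + K) + 18 * K / η + 8 * (2 + m) * K / η ^ 2 + 6 / η) * X := by
        have := mul_le_mul_of_nonneg_right (add_le_add hQ hCη) hZ
        linarith
    _ = _ := by ring

/-- algebraic core of (N5), second term. -/
theorem ell_schnd_choice_alg2 {M Z η ϱ p A T D₂ : ℝ} (hM : 0 ≤ M) (hZ : 0 ≤ Z) (hη : 0 < η) (hϱ : 0 < ϱ)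
    (hp : 0 < p) (hT : 0 < T) (hAT : 8 * A ≤ T)
    (hD₂ : D₂ = 8 * M / (η * ϱ) ^ 2 + 2 * (A * p) * Z) :
    2 * D₂ / (T * p) ≤ Z / 2 + 16 / (η ^ 2 * T) * (M / (ϱ ^ 2 * p)) := by
  have e : 2 * D₂ / (T * p) = (4 * A / T) * Z + 16 / (η ^ 2 * T) * (M / (ϱ ^ 2 * p)) := by
    rw [hD₂]; field_simp; ring
  rw [e]
  have h1 : 4 * A / T ≤ 1 / 2 := by
    rw [div_le_iff₀ hT]; linarith
  have := mul_le_mul_of_nonneg_right h1 hZ
  linarith

/-- (N5) the choice of the parameters: a pure inequality (`m` = dimension). -/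
theorem ell_schnd_choice {α C₀ θ K m : ℝ} (hα : 0 < α) (hα1 : α < 1) (hC₀ : 0 ≤ C₀) (hθ : 0 < θ) (hθ1 : θ ≤ 1 / 2)
    (hK : 0 ≤ K) (hm : 0 ≤ m) :
    ∃ rs η C₁ : ℝ, 0 < rs ∧ rs ≤ 1 ∧ 0 < η ∧ η ≤ 1 ∧ 0 ≤ C₁ ∧ ∀ d M Z ϱ ε D₁ D₂ : ℝ, 0 < d → 0 ≤ M → 0 ≤ Z →
      ϱ = min (d / 3) rs → ε = η * ϱ → D₂ = 8 * M / ε ^ 2 + 2 * ε ^ α * Z → D₁ = 2 * M / ε + ε / 2 * D₂ →
      max (C₀ * ((M * (1 + K) + 3 * K * D₁ + (2 + m) * K * D₂ + m * K * ϱ ^ α * Z) + D₁ / ϱ ^ (1 + α)))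
          (2 * D₂ / (θ * ϱ) ^ α)
        ≤ Z / 2 + C₁ * M * (1 + 1 / d ^ (2 + α)) := by
  set Q : ℝ := C₀ * (7 + 3 * m) * K with hQdef
  have hQ0 : 0 ≤ Q := by positivity
  set rs : ℝ := min 1 ((1 / (4 * (Q + 1))) ^ (1 / α)) with hrs
  have hrs0 : 0 < rs := lt_min one_pos (Real.rpow_pos_of_pos (by positivity) _)
  have hrs1 : rs ≤ 1 := min_le_left _ _
  have hrsα : rs ^ α ≤ 1 / (4 * (Q + 1)) := by
    calc rs ^ α ≤ ((1 / (4 * (Q + 1))) ^ (1 / α)) ^ α :=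
          Real.rpow_le_rpow hrs0.le (min_le_right _ _) hα.le
      _ = 1 / (4 * (Q + 1)) := by
          rw [← Real.rpow_mul (by positivity), one_div α, inv_mul_cancel₀ hα.ne', Real.rpow_one]
  set η : ℝ := min (1 / (4 * (C₀ + 1))) (θ * (1 / 8 : ℝ) ^ (1 / α)) with hηdef
  have hη0 : 0 < η := lt_min (by positivity) (mul_pos hθ (Real.rpow_pos_of_pos (by norm_num) _))
  have hη4 : η ≤ 1 / (4 * (C₀ + 1)) := min_le_left _ _
  have hη1 : η ≤ 1 := by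
    refine hη4.trans ?_
    rw [div_le_one (by positivity)]
    linarith
  have hCη : C₀ * η ≤ 1 / 4 := by
    have h1 : C₀ * η ≤ C₀ * (1 / (4 * (C₀ + 1))) := mul_le_mul_of_nonneg_left hη4 hC₀
    have h2 : C₀ * (1 / (4 * (C₀ + 1))) ≤ 1 / 4 := by
      rw [mul_one_div, div_le_iff₀ (by positivity)]
      linarith
    linarith
  set A : ℝ := η ^ α with hAdef
  set T : ℝ := θ ^ α with hTdef
  have hA0 : 0 < A := Real.rpow_pos_of_pos hη0 _
  have hA1 : A ≤ 1 := Real.rpow_le_one hη0.le hη1 hα.le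
  have hT0 : 0 < T := Real.rpow_pos_of_pos hθ _
  have hAT : 8 * A ≤ T := by
    have h1 : A ≤ (θ * (1 / 8 : ℝ) ^ (1 / α)) ^ α :=
      Real.rpow_le_rpow hη0.le (min_le_right _ _) hα.le
    have h2 : (θ * (1 / 8 : ℝ) ^ (1 / α)) ^ α = T * (1 / 8) := by
      rw [Real.mul_rpow hθ.le (Real.rpow_nonneg (by norm_num) _), ← Real.rpow_mul (by norm_num),
        one_div α, inv_mul_cancel₀ hα.ne', Real.rpow_one]
    rw [h2] at h1
    linarith
  set E : ℝ := C₀ * ((1 + K) + 18 * K / η + 8 * (2 + m) * K / η ^ 2 + 6 / η) + 16 / (η ^ 2 * T) with hE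
  have hE1 : 0 ≤ C₀ * ((1 + K) + 18 * K / η + 8 * (2 + m) * K / η ^ 2 + 6 / η) := by positivity
  have hE2 : 0 ≤ 16 / (η ^ 2 * T) := by positivity
  have hE0 : 0 ≤ E := by positivity
  set G : ℝ := 27 + 1 / rs ^ (2 + α) with hG
  have hrsp : 0 < rs ^ (2 + α) := Real.rpow_pos_of_pos hrs0 _
  have hG0 : 0 ≤ G := by positivity
  refine ⟨rs, η, E * G, hrs0, hrs1, hη0, hη1, by positivity, ?_⟩
  intro d M Z ϱ ε D₁ D₂ hd hM hZ hϱdef hε hD₂ hD₁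
  have hϱ0 : 0 < ϱ := by rw [hϱdef]; exact lt_min (by positivity) hrs0
  have hϱrs : ϱ ≤ rs := by rw [hϱdef]; exact min_le_right _ _
  have hϱ1 : ϱ ≤ 1 := hϱrs.trans hrs1
  set p : ℝ := ϱ ^ α with hpdef
  have hp0 : 0 < p := Real.rpow_pos_of_pos hϱ0 _
  have hp1 : p ≤ 1 := Real.rpow_le_one hϱ0.le hϱ1 hα.le
  have hprs : p ≤ 1 / (4 * (Q + 1)) := (Real.rpow_le_rpow hϱ0.le hϱrs hα.le).trans hrsα
  have hQp : C₀ * (7 + 3 * m) * K * p ≤ 1 / 4 := by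
    have h1 : Q * p ≤ Q * (1 / (4 * (Q + 1))) := mul_le_mul_of_nonneg_left hprs hQ0
    have h2 : Q * (1 / (4 * (Q + 1))) ≤ 1 / 4 := by
      rw [mul_one_div, div_le_iff₀ (by positivity)]
      linarith
    linarith
  have eεα : ε ^ α = A * p := by rw [hε, Real.mul_rpow hη0.le hϱ0.le]
  have e1α : ϱ ^ (1 + α) = ϱ * p := by rw [Real.rpow_add hϱ0, Real.rpow_one]
  have eθ : (θ * ϱ) ^ α = T * p := Real.mul_rpow hθ.le hϱ0.le
  have e2α : ϱ ^ (2 + α) = ϱ ^ 2 * p := by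
    rw [Real.rpow_add hϱ0, Real.rpow_two]
  rw [eεα, hε] at hD₂
  rw [hε] at hD₁
  rw [e1α, eθ]
  have t1 := ell_schnd_choice_alg1 hC₀ hK hm hM hZ hη0 hη1 hϱ0 hϱ1 hp0 hp1 hA0 hA1 hQp hCη hD₂ hD₁
  have t2 := ell_schnd_choice_alg2 hM hZ hη0 hϱ0 hp0 hT0 hAT hD₂
  -- bound of `M / ϱ^{2+α}`
  have hdp : 0 < d ^ (2 + α) := Real.rpow_pos_of_pos hd _
  have hP : 1 / (ϱ ^ 2 * p) ≤ G * (1 + 1 / d ^ (2 + α)) := by
    rw [← e2α]
    have hGexp : G * (1 + 1 / d ^ (2 + α)) = 27 + 27 / d ^ (2 + α) + 1 / rs ^ (2 + α)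
        + 1 / rs ^ (2 + α) / d ^ (2 + α) := by
      rw [hG]; field_simp; ring
    have hn1 : 0 ≤ 27 / d ^ (2 + α) := by positivity
    have hn2 : 0 ≤ 1 / rs ^ (2 + α) := by positivity
    have hn3 : 0 ≤ 1 / rs ^ (2 + α) / d ^ (2 + α) := by positivity
    rcases le_total (d / 3) rs with hc | hc
    · have : ϱ = d / 3 := by rw [hϱdef, min_eq_left hc]
      rw [this, Real.div_rpow hd.le (by norm_num), one_div_div]
      have h3 : (3 : ℝ) ^ (2 + α) ≤ 27 := by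
        calc (3 : ℝ) ^ (2 + α) ≤ 3 ^ (3 : ℝ) :=
              Real.rpow_le_rpow_of_exponent_le (by norm_num) (by linarith)
          _ = 27 := by norm_num
      have h4 : (3 : ℝ) ^ (2 + α) / d ^ (2 + α) ≤ 27 / d ^ (2 + α) := by gcongr
      rw [hGexp]
      linarith
    · have : ϱ = rs := by rw [hϱdef, min_eq_right hc]
      rw [this, hGexp]
      linarith
  have hX : M / (ϱ ^ 2 * p) ≤ M * (G * (1 + 1 / d ^ (2 + α))) := by
    rw [div_eq_mul_one_div]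
    exact mul_le_mul_of_nonneg_left hP hM
  have hX0 : 0 ≤ M / (ϱ ^ 2 * p) := by positivity
  have hfin : ∀ c : ℝ, 0 ≤ c → c ≤ E → Z / 2 + c * (M / (ϱ ^ 2 * p)) ≤ Z / 2 + E * G * M * (1 + 1 / d ^ (2 + α)) := by
    intro c _ hcE
    have a1 : c * (M / (ϱ ^ 2 * p)) ≤ E * (M / (ϱ ^ 2 * p)) := mul_le_mul_of_nonneg_right hcE hX0
    have a2 : E * (M / (ϱ ^ 2 * p)) ≤ E * (M * (G * (1 + 1 / d ^ (2 + α)))) :=
      mul_le_mul_of_nonneg_left hX hE0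
    have a3 : E * (M * (G * (1 + 1 / d ^ (2 + α)))) = E * G * M * (1 + 1 / d ^ (2 + α)) := by ring
    linarith
  refine max_le (t1.trans (hfin _ hE1 ?_)) (t2.trans (hfin _ hE2 ?_))
  · rw [hE]; linarith
  · rw [hE]; linarith

/-- (N2)-(N5) one step. -/
theorem ell_schnd_step (W : Type u) [NormedAddCommGroup W] [InnerProductSpace ℝ W] [FiniteDimensional ℝ W]
    [MeasurableSpace W] [BorelSpace W] {α lam Lam K : ℝ} (hα : 0 < α) (hα1 : α < 1) (hlam : 0 < lam)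
    (hLam : lam ≤ Lam) (hK : 0 ≤ K) :
    ∃ C₁ : ℝ, 0 ≤ C₁ ∧ ∀ (M Z t s : ℝ) (x₀ : W) (a : W → W →L[ℝ] W) (b : W → W)
      (c : W → ℝ) (u f : W → ℝ), 0 ≤ M → 0 ≤ Z → 0 < t → t < s →
      NdData α lam Lam K M (ball x₀ s) a b c u f → HolOn α Z (ball x₀ s) (ellD2 u) →
      HolOn α (Z / 2 + C₁ * M * (1 + 1 / (s - t) ^ (2 + α))) (ball x₀ t) (ellD2 u) := by
  obtain ⟨C₀, θ, hC₀, hθ, hθ1, Hcc⟩ := ell_cc_nd W hα hα1 hlam hLam
  obtain ⟨rs, η, C₁, hrs0, hrs1, hη0, hη1, hC₁, Hch⟩ := ell_schnd_choice hα hα1 hC₀ hθ hθ1 hK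
    (Nat.cast_nonneg (Module.finrank ℝ W))
  refine ⟨C₁, hC₁, ?_⟩
  intro M Z t s x₀ a b c u f hM hZ ht hts H hZh
  set d : ℝ := s - t with hd'
  have hd : 0 < d := by rw [hd']; linarith
  set ϱ : ℝ := min (d / 3) rs with hϱdef
  set ε : ℝ := η * ϱ with hεdef
  set D₂ : ℝ := 8 * M / ε ^ 2 + 2 * ε ^ α * Z with hD₂def
  set D₁ : ℝ := 2 * M / ε + ε / 2 * D₂ with hD₁def
  have hϱ0 : 0 < ϱ := lt_min (by positivity) hrs0
  have hϱd : ϱ ≤ d / 3 := min_le_left _ _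
  have hϱ1 : ϱ ≤ 1 := (min_le_right _ _).trans hrs1
  have hε0 : 0 < ε := mul_pos hη0 hϱ0
  have hεϱ : ε ≤ ϱ := by rw [hεdef]; nlinarith
  have hεα : 0 < ε ^ α := Real.rpow_pos_of_pos hε0 _
  have hD₂0 : 0 ≤ D₂ := by positivity
  have hD₁0 : 0 ≤ D₁ := by positivity
  have hs2 : ball x₀ (t + 2 * d / 3) ⊆ ball x₀ s := ball_subset_ball (by rw [hd']; linarith)
  have hs1 : ball x₀ (t + d / 3) ⊆ ball x₀ (t + 2 * d / 3) := ball_subset_ball (by linarith)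
  have hs0 : ball x₀ t ⊆ ball x₀ (t + d / 3) := ball_subset_ball (by linarith)
  have hD₂ : BdOn D₂ (ball x₀ (t + 2 * d / 3)) (ellD2 u) := by
    intro x hx
    refine ell_interp_c2a isOpen_ball hε0 hα (closedBall_subset_ball' ?_) H.u_c2 H.u_bd hZ hZh
    rw [mem_ball] at hx
    rw [hd'] at hx hϱd
    linarith
  have hD₁ : BdOn D₁ (ball x₀ (t + d / 3)) (fderiv ℝ u) := by
    intro x hx
    refine ell_interp_c2 isOpen_ball hε0 (closedBall_subset_ball' ?_) (H.u_c2.mono hs2)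
      (H.u_bd.mono hs2 le_rfl) hD₂
    rw [mem_ball] at hx
    linarith
  set Mf : ℝ := M * (1 + K) + 3 * K * D₁ + (2 + Module.finrank ℝ W) * K * D₂
    + Module.finrank ℝ W * K * ϱ ^ α * Z with hMf
  have hϱα : 0 < ϱ ^ α := Real.rpow_pos_of_pos hϱ0 _
  have hMf0 : 0 ≤ Mf := by positivity
  have hloc : ∀ x₁ ∈ ball x₀ t,
      HolOn α (C₀ * (Mf + D₁ / ϱ ^ (1 + α))) (ball x₀ t ∩ ball x₁ (θ * ϱ)) (ellD2 u) := by
    intro x₁ hx₁
    have hsub : ball x₁ ϱ ⊆ ball x₀ (t + d / 3) := by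
      refine ball_subset_ball' ?_
      rw [mem_ball] at hx₁
      linarith
    have hsub' : ball x₁ ϱ ⊆ ball x₀ s := hsub.trans (hs1.trans hs2)
    have Hl := H.mono hsub'
    obtain ⟨heq, hhol⟩ := ell_schnd_freeze hα hα1 hK hϱ0 hϱ1 Hl (hD₁.mono hsub le_rfl)
      (fun x hx => hD₂ x (hs1 (hsub hx))) hZ (hZh.mono hsub' le_rfl)
    have := Hcc (a x₁) x₁ ϱ Mf D₁ u _ (H.ell x₁ (hs2 (hs1 (hs0 hx₁)))) hϱ0 hMf0 Hl.u_c2 heq
      (hD₁.mono hsub le_rfl) hhol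
    exact this.mono Set.inter_subset_right le_rfl
  have hglob := holOn_of_local (r := θ * ϱ) (by positivity) hα.le
    (fun x hx => hD₂ x (hs1 (hs0 hx))) hloc
  exact hglob.mono subset_rfl (Hch d M Z ϱ ε D₁ D₂ hd hM hZ rfl rfl rfl rfl)

/-- **Interior Schauder estimate, non-divergence form.** -/
theorem ell_sch_nd (W : Type u) [NormedAddCommGroup W] [InnerProductSpace ℝ W] [FiniteDimensional ℝ W]
    [MeasurableSpace W] [BorelSpace W] {α lam Lam K r R : ℝ} (hα : 0 < α) (hα1 : α < 1) (hlam : 0 < lam)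
    (hLam : lam ≤ Lam) (hK : 0 ≤ K) (hr : 0 < r) (hrR : r < R) :
    ∃ C : ℝ, 0 ≤ C ∧ ∀ (M : ℝ) (x₀ : W) (a : W → W →L[ℝ] W) (b : W → W)
      (c : W → ℝ) (u f : W → ℝ), 0 ≤ M → NdData α lam Lam K M (ball x₀ R) a b c u f →
      (∀ t < R, ∃ K', HolOn α K' (ball x₀ t) (ellD2 u)) →
      BdOn (C * M) (ball x₀ r) (fderiv ℝ u) ∧ BdOn (C * M) (ball x₀ r) (ellD2 u) ∧
        HolOn α (C * M) (ball x₀ r) (ellD2 u) := by
  obtain ⟨C₁, hC₁, Hstep⟩ := ell_schnd_step W hα hα1 hlam hLam hK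
  obtain ⟨Ci, hCi, Hit⟩ := ell_iter (γ := 2 + α) (by linarith)
  set δ : ℝ := (R - r) / 3 with hδ
  have hδ0 : 0 < δ := by rw [hδ]; linarith
  have hδγ : 0 < δ ^ (2 + α) := Real.rpow_pos_of_pos hδ0 _
  set ε : ℝ := δ / 2 with hε
  have hε0 : 0 < ε := by positivity
  have hεα : 0 < ε ^ α := Real.rpow_pos_of_pos hε0 _
  set Cz : ℝ := Ci * (C₁ / δ ^ (2 + α) + C₁) with hCz
  have hCz0 : 0 ≤ Cz := by positivity
  set C₂ : ℝ := 8 / ε ^ 2 + 2 * ε ^ α * Cz with hC₂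
  have hC₂0 : 0 ≤ C₂ := by positivity
  set C₃ : ℝ := 2 / ε + ε / 2 * C₂ with hC₃
  have hC₃0 : 0 ≤ C₃ := by positivity
  refine ⟨Cz + C₂ + C₃, by positivity, ?_⟩
  intro M x₀ a b c u f hM H hfin
  set Zf : ℝ → ℝ := fun t => holSemi α (ball x₀ t) (ellD2 u) with hZf
  have hR' : r + 2 * δ < R := by rw [hδ]; linarith
  have hfin' : ∀ t ≤ r + 2 * δ, ∃ K', HolOn α K' (ball x₀ t) (ellD2 u) :=
    fun t ht => hfin t (lt_of_le_of_lt ht hR')
  have hiter := Hit Zf (r + δ) (r + 2 * δ) (C₁ * M) (C₁ * M) (Zf (r + 2 * δ)) (by linarith)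
    (by positivity) (by positivity)
    (by
      intro t ht
      obtain ⟨K', hK'⟩ := hfin' (r + 2 * δ) le_rfl
      exact holSemi_mono hK' (ball_subset_ball ht.2))
    (by
      intro t s hrt hts hsR
      obtain ⟨K', hK'⟩ := hfin' s hsR
      have h1 := Hstep M (Zf s) t s x₀ a b c u f hM (holSemi_nonneg _ _ _) (by linarith) hts
        (H.mono (ball_subset_ball (by linarith))) (holOn_holSemi hK')
      have hp : 0 < (s - t) ^ (2 + α) := Real.rpow_pos_of_pos (by linarith) _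
      have h2 : Zf t ≤ Zf s / 2 + C₁ * M * (1 + 1 / (s - t) ^ (2 + α)) :=
        holSemi_le (by have := holSemi_nonneg α (ball x₀ s) (ellD2 u); positivity) h1
      calc Zf t ≤ Zf s / 2 + C₁ * M * (1 + 1 / (s - t) ^ (2 + α)) := h2
        _ = Zf s / 2 + C₁ * M / (s - t) ^ (2 + α) + C₁ * M := by ring)
  have e1 : r + 2 * δ - (r + δ) = δ := by ring
  rw [e1] at hiter
  have hZ1 : Zf (r + δ) ≤ Cz * M := by
    refine hiter.trans (le_of_eq ?_)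
    rw [hCz]; ring
  have hhol1 : HolOn α (Cz * M) (ball x₀ (r + δ)) (ellD2 u) := by
    obtain ⟨K', hK'⟩ := hfin' (r + δ) (by linarith)
    exact (holOn_holSemi hK').mono subset_rfl hZ1
  have hsR : ball x₀ (r + δ) ⊆ ball x₀ R := ball_subset_ball (by linarith)
  have hs1 : ball x₀ (r + ε) ⊆ ball x₀ (r + δ) := ball_subset_ball (by rw [hε]; linarith)
  have hs0 : ball x₀ r ⊆ ball x₀ (r + ε) := ball_subset_ball (by linarith)
  have hD₂ : BdOn (C₂ * M) (ball x₀ (r + ε)) (ellD2 u) := by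
    intro x hx
    have := ell_interp_c2a isOpen_ball hε0 hα (x := x) (closedBall_subset_ball' (by
      rw [mem_ball] at hx
      rw [hε] at hx ⊢
      linarith)) (H.u_c2.mono hsR) (H.u_bd.mono hsR le_rfl) (by positivity) hhol1
    refine this.trans (le_of_eq ?_)
    rw [hC₂]; ring
  have hD₁ : BdOn (C₃ * M) (ball x₀ r) (fderiv ℝ u) := by
    intro x hx
    have := ell_interp_c2 isOpen_ball hε0 (x := x) (closedBall_subset_ball' (by
      rw [mem_ball] at hx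
      linarith)) (H.u_c2.mono (hs1.trans hsR)) (H.u_bd.mono (hs1.trans hsR) le_rfl) hD₂
    refine this.trans (le_of_eq ?_)
    rw [hC₃]; ring
  have hCzM : 0 ≤ Cz * M := by positivity
  have hC₂M : 0 ≤ C₂ * M := by positivity
  have hC₃M : 0 ≤ C₃ * M := by positivity
  refine ⟨hD₁.mono subset_rfl ?_, fun x hx => (hD₂ x (hs0 hx)).trans ?_,
    hhol1.mono (hs0.trans hs1) ?_⟩ <;> nlinarith

end Claimed.Agent.Lib.Ell
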